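import Vale.Agent.P011NC.GF
import Vale.Agent.P011.H271.KSF
import Vale.Agent.P011.H544.SInt
import Vale.Agent.P011.H973.Full.PlaceNF

/-! The places of function fields and of number fields. -/

namespace Vale.Agent.P011NC

open Vale.Agent.P011 Vale.Agent.P011.H738 Vale.Agent.P011.H271 Vale.Agent.P011.H308
  Vale.Agent.P011.H973.Full NumberField IsDedekindDomain

variable {k : Type} [Field k]

theorem place_nt (v : Place k) : ∃ x, 1 < v.abv x :=
  v.normalized.2.1.imp fun _ hx => (one_lt_qq' v).trans_eq hx.symm

theorem place_ineq {v w : Place k} (h : v ≠ w) : ¬v.abv.IsEquiv w.abv := fun e =>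
  h (toPl_injective (Subtype.ext (ValuationSubring.ext _ _ fun x =>
    (plV_le_one v x).trans (e.le_one_iff.trans (plV_le_one w x).symm))))

theorem nonempty_place [GFF k] : Nonempty (Place k) := by
  by_contra h
  rw [not_nonempty_iff] at h
  obtain ⟨F, _, _, φ, -⟩ := GFF.out (k := k)
  have := Infinite.of_injective _
    (φ.injective.comp (IsFractionRing.injective (Polynomial F) (RatFunc F)))
  exact Set.infinite_univ ((place_finite_le (k := k) (fun _ => 1) (Set.toFinite _)).subset
    fun x _ v => (h.false v).elim)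

variable (k) in
/-- The places of a function field. -/
noncomputable def gfFF [GFF k] : GF k Place.abv where
  arch := ∅
  nt := place_nt
  proper := instProper
  ineq := fun _ _ => place_ineq
  ultra := fun v _ => v.nonarch
  ex := nonempty_place.elim fun v => ⟨v, by simp⟩
  fin := fun x => by
    by_cases hx : x = 0
    · simp [hx, not_lt_of_ge zero_le_one]
    · exact (place_finite hx).subset fun v hv => ne_of_gt hv
  disc := place_finite_le
  coc := fun S _ hS => by
    obtain ⟨K, hK, h⟩ := OSF_coc hS
    obtain ⟨R, hR⟩ := hK.isBounded.exists_norm_le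
    refine ⟨R, fun x => (h (algebraMap k _ x)).imp fun y hy => ⟨hy.1, fun v hv => ?_⟩⟩
    rw [← H271.norm_alg, map_sub]
    exact (norm_le_pi_norm _ (⟨v, hv⟩ : S)).trans (hR _ hy.2)
  den := fun S _ hS x => (OSF_den hS x).imp fun _ h => ⟨h.2.1, fun v hv => ⟨h.1 v hv, h.2.2 v hv⟩⟩

theorem proper_of_lc {a : AbsoluteValue k ℝ} (h : ∃ x, 1 < a x)
    (h' : LocallyCompactSpace a.Completion) : ProperSpace a.Completion :=
  let _ : NontriviallyNormedField a.Completion :=
    { non_trivial := h.elim fun x hx => ⟨(WithAbs.toAbs a x : a.Completion),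
        hx.trans_eq (UniformSpace.Completion.norm_coe (WithAbs.toAbs a x)).symm⟩ }
  .of_nontriviallyNormedField_of_weaklyLocallyCompactSpace _

variable [NumberField k]

variable (k) in
/-- The absolute values of a number field. -/
def aNF : Place k ⊕ InfinitePlace k → AbsoluteValue k ℝ := Sum.elim Place.abv fun w => w.1

theorem norm_adic (v : HeightOneSpectrum (𝓞 k)) (x : k) :
    ‖algebraMap k (v.adicCompletion k) x‖ = (plHos k v).abv x :=
  FinitePlace.norm_embedding v x

omit [NumberField k] in
theorem two_inf (w : InfinitePlace k) : 1 < w.1 (2 : ℕ) := by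
  rw [show w.1 (2 : ℕ) = (2 : ℕ) from w.map_natCast 2]
  norm_num

omit [NumberField k] in
theorem two_fin (v : Place k) : v.abv (2 : ℕ) ≤ 1 := abv_le_one_of_isIntegral v (isIntegral_natCast 2)

theorem finite_hos {S : Set (Place k ⊕ InfinitePlace k)} (hS : S.Finite) :
    {v : HeightOneSpectrum (𝓞 k) | Sum.inl (plHos k v) ∈ S}.Finite :=
  hS.preimage (Sum.inl_injective.comp plHos_injective).injOn

variable (k) in
/-- The places of a number field. -/
noncomputable def gfNF : GF k (aNF k) where
  arch := Finset.univ.map .inr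
  nt := by
    rintro (v | w)
    exacts [place_nt v, ⟨_, two_inf w⟩]
  proper := by
    rintro (v | w)
    · obtain ⟨v, rfl⟩ := exists_eq_plHos v
      exact proper_of_lc (place_nt _) (Homeomorph.isClosedEmbedding ⟨⟨ofPl k v, toPl k v,
        toPl_ofPl v, ofPl_toPl v⟩, continuous_ofPl v, continuous_toPl v⟩).locallyCompactSpace
    · exact proper_of_lc ⟨_, two_inf w⟩
        (AbsoluteValue.Completion.locallyCompactSpace w.isometry_embedding)
  ineq := by
    rintro (v | v) (w | w) h
    · exact place_ineq fun e => h (e ▸ rfl)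
    · exact fun e => (e.le_one_iff.1 (two_fin v)).not_gt (two_inf w)
    · exact fun e => (e.le_one_iff.2 (two_fin w)).not_gt (two_inf v)
    · exact fun e => h (congrArg _ (InfinitePlace.eq_iff_isEquiv.2 e))
  ultra := by
    rintro (v | w) h
    exacts [v.nonarch, (h (by simp)).elim]
  ex := by
    obtain ⟨m, hm⟩ := Ideal.exists_maximal (𝓞 k)
    exact ⟨.inl (plHos k ⟨m, hm.isPrime,
      Ring.ne_bot_of_isMaximal_of_not_isField hm (RingOfIntegers.not_isField k)⟩), by simp⟩
  fin := fun x => by
    refine (((HeightOneSpectrum.Support.finite (𝓞 k) x).image fun v => .inl (plHos k v)).union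
      (Set.finite_range Sum.inr)).subset ?_
    rintro (v | w) h
    · obtain ⟨v, rfl⟩ := exists_eq_plHos v
      exact Or.inl ⟨v, not_le.1 fun e => (hosAbv_le_one.2 e).not_gt h, rfl⟩
    · exact Or.inr ⟨w, rfl⟩
  disc := fun c hc => by
    refine (H544.OS_disc (S := (finite_hos hc).toFinset) _
      ((isCompact_univ_pi fun w => isCompact_closedBall 0 (c (.inr w))).prod
        (isCompact_univ_pi fun v => isCompact_closedBall 0 (c (.inl (plHos k v.1)))))).subset
      fun x hx => ⟨fun v hv => hosAbv_le_one.1 ((hx (.inl (plHos k v))).trans (by simpa using hv)),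
        fun w _ => mem_closedBall_zero_iff.2 ?_, fun v _ => mem_closedBall_zero_iff.2 ?_⟩
    · exact (InfinitePlace.Completion.norm_coe w (WithAbs.toAbs w.1 x)).trans_le (hx (.inr w))
    · exact (norm_adic v.1 x).trans_le (hx (.inl _))
  coc := fun S h1 _ => by
    obtain ⟨K, hK, h⟩ := H544.OS_coc (S := (finite_hos S.finite_toSet).toFinset)
    obtain ⟨R, hR⟩ := hK.isBounded.exists_norm_le
    refine ⟨R, fun x => (h (algebraMap k _ x)).imp fun y hy => ⟨?_, ?_⟩⟩
    · rintro (v | w) hv
      · obtain ⟨v, rfl⟩ := exists_eq_plHos v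
        exact hosAbv_le_one.2 (hy.1 v (by simpa using hv))
      · exact (hv (h1 (by simp))).elim
    · have h2 := hR _ hy.2
      rw [← map_sub] at h2
      rintro (v | w) hv
      · obtain ⟨v, rfl⟩ := exists_eq_plHos v
        exact (norm_adic v _).symm.trans_le ((norm_le_pi_norm _ (⟨v, by simpa using hv⟩ :
          (finite_hos S.finite_toSet).toFinset)).trans ((norm_snd_le _).trans h2))
      · exact (InfinitePlace.Completion.norm_coe w (WithAbs.toAbs w.1 _)).symm.trans_le
          ((norm_le_pi_norm _ w).trans ((norm_fst_le _).trans h2))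
  den := fun S h1 _ x => by
    obtain ⟨a, b, hb, rfl⟩ := IsFractionRing.div_surjective (A := 𝓞 k) x
    have hb' : algebraMap (𝓞 k) k b ≠ 0 := by simpa using nonZeroDivisors.ne_zero hb
    refine ⟨_, hb', ?_⟩
    rintro (v | w) hv
    · rw [mul_div_cancel₀ _ hb']
      exact ⟨abv_le_one_of_isIntegral v b.2, abv_le_one_of_isIntegral v a.2⟩
    · exact (hv (h1 (by simp))).elim

end Vale.Agent.P011NC
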