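import Vale.Agent.P011.H925.Full.DefsA
import Vale.Agent.P011.H900.SpecX

/-! The Margulis-Platonov conjecture: two more definitions. -/

namespace Vale.Agent.P011NC

open Module Vale.Agent.P011.H900

/-- The hypotheses for type `A`: the algebra `A` is central simple of degree `n ≥ 3` over `K`, with
an anisotropic involution of the second kind whose fixed field `k` is a global field, i.e. a number
field or a finite extension of the field of rational functions in one variable over a finite
field. -/
structure Ans (k K A : Type) [Field k] [Field K] [Algebra k K] [StarRing K] [Ring A]
    [StarRing A] [Algebra K A] (n : ℕ) : Prop where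
  global : NumberField k ∨ ∃ (F : Type) (_ : Field F) (_ : Finite F) (_ : Algebra (RatFunc F) k),
    FiniteDimensional (RatFunc F) k
  fixed : ∀ x : K, star x = x ↔ x ∈ Set.range (algebraMap k K)
  star_ne : ∃ x : K, star x ≠ x
  central : Algebra.IsCentral K A
  simple : IsSimpleRing A
  le : 3 ≤ n
  rank : finrank K A = n ^ 2
  aniso : ∀ x : A, star x * x = 0 → x = 0

/-- Every noncentral normal subgroup of the group of the bijections with the property `P` is the
whole group. -/
def Simp {V : Type} (P : (V → V) → Prop) : Prop :=
  ∀ N : Subgroup (grp P), N.Normal → ¬N ≤ Subgroup.center (grp P) → N = ⊤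

end Vale.Agent.P011NC
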