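import Vale.Agent.P011NC.Su3
import Vale.Agent.P011.H984.Full.NFdiv

/-! Number fields: the algebras with zero divisors, matrix algebras included. -/

namespace Vale.Agent.P011NC

open Module Matrix Vale.Agent.P011 Vale.Agent.P011.H984 Vale.Agent.P011S
open Vale.Agent.P011.H738 (SUA Anis)
open Vale.Agent.P011.D4.B.FI (fixI fixI_top)

variable {k K A Ω : Type} [Field k] [Field K] [StarRing K] [Ring A] [StarRing A]
  [Algebra k K] [Algebra k A] [Algebra K A] [IsScalarTower k K A] [StarModule K A] {n : ℕ}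
  [Field Ω] [Algebra K Ω] [NumberField k]

theorem exists_qd (h1 : ∀ x : K, star x = x ↔ x ∈ Set.range (algebraMap k K))
    (h2 : ∃ x : K, star x ≠ x) : ∃ (a : kˣ) (s : K), S3.Qd a s := by
  obtain ⟨y, hy⟩ := h2
  have hK : CharZero K := charZero_of_injective_algebraMap (algebraMap k K).injective
  obtain ⟨s, s0, s1⟩ : ∃ s : K, s ≠ 0 ∧ star s = -s :=
    ⟨y - star y, sub_ne_zero.2 hy.symm, by rw [star_sub, star_star, neg_sub]⟩
  obtain ⟨a, ha⟩ := (h1 (s * s)).1 (by rw [star_mul, s1, neg_mul_neg])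
  refine ⟨Units.mk0 a ?_, s, fun t => (h1 _).2 ⟨t, rfl⟩, s1, ha.symm, fun z => ?_⟩
  · rintro rfl
    exact mul_ne_zero s0 s0 (ha.symm.trans (map_zero _))
  obtain ⟨p, hp⟩ := (h1 ((z + star z) / 2)).1 (by simp [add_comm])
  obtain ⟨q, hq⟩ := (h1 ((z - star z) / (2 * s))).1 (by
    simp only [star_div₀, star_sub, star_star, star_mul', s1, star_ofNat]
    field_simp
    ring)
  refine ⟨p, q, ?_⟩
  rw [hp, hq]
  field_simp
  ring

/-- Hermitian forms of rank three. -/
theorem top3 (hA : Anis k K A 3) (f : A →ₐ[K] Matrix (Fin 3) (Fin 3) Ω)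
    (E : A ≃ₐ[K] Matrix (Fin 3) (Fin 3) K) {d : Fin 3 → K} (hd : ∀ i, star (d i) = d i)
    (han : ∀ v : Fin 3 → K, ∑ i, star (v i) * d i * v i = 0 → v = 0)
    (hE : ∀ x : A, (E x)ᴴ * diagonal d * E x = diagonal d ↔ star x * x = 1)
    (N : Subgroup (SUA f)) (hN : N.index ≠ 0) : N = ⊤ := by
  have hKA : FiniteDimensional K A := .of_finrank_pos (by rw [hA.finrank_eq]; positivity)
  have := hA.central
  have := hA.simple
  obtain ⟨a, s, h⟩ := exists_qd hA.fixed hA.star_ne
  have d0 : ∀ i, d i ≠ 0 := fun i e => by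
    have h1 := congrFun (han (Pi.single i 1) (by
      fin_cases i <;> simpa [Fin.sum_univ_three] using e)) i
    simp at h1
  have hu : ∀ i, ∃ b : kˣ, algebraMap k K b = -d 2 / d i := fun i => by
    obtain ⟨b, hb⟩ := (hA.fixed (-d 2 / d i)).1 (by rw [star_div₀, star_neg, hd, hd])
    refine ⟨Units.mk0 b ?_, hb⟩
    rintro rfl
    exact div_ne_zero (neg_ne_zero.2 (d0 2)) (d0 i) (hb.symm.trans (map_zero _))
  obtain ⟨b, hb⟩ := hu 1
  obtain ⟨c, hc⟩ := hu 0
  have l0 : d 2 / (d 0 * d 1) ≠ 0 := div_ne_zero (d0 2) (mul_ne_zero (d0 0) (d0 1))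
  have hw : S3.wt K b c = (d 2 / (d 0 * d 1)) • d := by
    have a0 := d0 0
    have a1 := d0 1
    ext i
    fin_cases i <;> simp [S3.wt, hb, hc] <;> field_simp
  have hU : ∀ x : A, S3.U b c (E x) ↔ star x * x = 1 := fun x => by
    rw [S3.U, hw, diagonal_smul, Matrix.mul_smul, Matrix.smul_mul, smul_right_inj l0, hE]
  have hD := h.division (b := b) (c := c) fun v hv => han v (mul_left_cancel₀ l0 (by
    rw [mul_zero, ← hv, S3.hm, hw, Finset.mul_sum]
    exact Finset.sum_congr rfl fun i _ => by rw [Pi.smul_apply, smul_eq_mul]; ring))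
  let φ : fixI a b c →* A := (E.symm : _ →* A).comp (h.thH b c)
  have hφ : ∀ g, E (φ g) = S3.th s g := fun g => E.apply_symm_apply _
  have hs : ∀ u : Aˣ, (u : A) * star (u : A) = 1 ↔ star (u : A) * u = 1 := fun u => by
    rw [Units.mul_eq_one_iff_inv_eq, Units.mul_eq_one_iff_eq_inv, eq_comm]
  let Θ : fixI a b c →* SUA f := φ.toHomUnits.codRestrict _ fun g =>
    ⟨(hs _).2 ((hU (φ g)).1 (hφ g ▸ h.th_U g)), (H268.det_compare three_pos hA.finrank_eq
      E.toAlgHom f (φ g) (ν := 1) ((congrArg det (hφ g)).trans (h.th_det g))).trans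
        (map_one _)⟩
  have hΘ : Function.Surjective Θ := fun u => by
    obtain ⟨g, hg⟩ := h.surj ((hU _).2 ((hs _).1 u.2.1)) (H268.det_compare three_pos hA.finrank_eq
      f E.toAlgHom u.1 (ν := 1) (u.2.2.trans (map_one _).symm))
    exact ⟨g, Subtype.ext (Units.ext (E.injective ((hφ g).trans hg)))⟩
  have : N.FiniteIndex := ⟨hN⟩
  have h1 := fixI_top hD (N.normalCore.comap Θ) inferInstance (by
    rw [Subgroup.index_comap_of_surjective _ hΘ]
    exact Subgroup.FiniteIndex.index_ne_zero)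
  refine eq_top_iff.2 fun u _ => ?_
  obtain ⟨g, rfl⟩ := hΘ u
  exact N.normalCore_le (h1.ge (Subgroup.mem_top g))

/-- **Number fields, algebras with zero divisors**: there is no proper subgroup of finite index. -/
theorem top_all (hA : Anis k K A n) (hn : 3 ≤ n) (hdiv : ∃ x : A, x ≠ 0 ∧ ¬IsUnit x)
    (f : A →ₐ[K] Matrix (Fin n) (Fin n) Ω) (N : Subgroup (SUA f)) (hN : N.index ≠ 0) : N = ⊤ := by
  have hn0 : 0 < n := by omega
  have hKA : FiniteDimensional K A := .of_finrank_pos (by rw [hA.finrank_eq]; positivity)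
  have hkK : FiniteDimensional k K := (H519.quad hA.fixed hA.star_ne).1
  have hNK : NumberField K := NumberField.of_module_finite k K
  have := hA.central
  have := hA.simple
  obtain ⟨P⟩ := exists_pj (K := K) hA.anisotropic
  obtain ⟨m, ⟨F⟩⟩ := exists_fm K hA.anisotropic P
  obtain ⟨d, hnd, hd⟩ := F.exists_deg hA.finrank_eq
  have hd0 : 0 < d := Nat.pos_of_ne_zero (by rintro rfl; omega)
  have hH := F.isAnisotropic hA.anisotropic
  by_cases h3 : d = 1 ∧ m = 3
  · obtain ⟨rfl, rfl⟩ := h3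
    obtain rfl : n = 3 := hnd
    let e : K ≃ₐ[K] P.Cr := AlgEquiv.ofBijective (Algebra.ofId K P.Cr)
      (Algebra.finrank_eq_one_iff_bijective_algebraMap.mp hd)
    have he : ∀ x, e (star x) = star (e x) := fun x => algebraMap_star_comm x
    have h1 : ∀ M : Matrix (Fin 3) (Fin 3) K, e.mapMatrix Mᴴ = (e.mapMatrix M)ᴴ := fun M =>
      Matrix.ext fun i j => he _
    have h2 : e.mapMatrix (diagonal fun i => e.symm (F.d i)) = F.HH := by
      rw [AlgEquiv.mapMatrix_apply, diagonal_map (map_zero _)]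
      simp [Fm.HH]
    refine top3 hA f ((F.mxA K).trans e.symm.mapMatrix) (d := fun i => e.symm (F.d i))
      (fun i => e.injective (by rw [he, e.apply_symm_apply, F.star_d])) (fun v hv => ?_)
      (fun x => ?_) N hN
    · have h4 := hH.2 (fun i => e (v i)) (by
        simpa [he, dotProduct, Fm.HH, mulVec_diagonal, mul_assoc] using congrArg e hv)
      exact funext fun i => e.injective ((congrFun h4 i).trans (map_zero _).symm)
    · have h4 : e.mapMatrix (((F.mxA K).trans e.symm.mapMatrix) x) = F.mx x :=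
        e.mapMatrix.apply_symm_apply _
      rw [← F.star_mul_iff, ← e.mapMatrix.injective.eq_iff, map_mul, map_mul, h1, h2, h4]
  have hm : 2 ≤ m := F.two_le hdiv
  have hcen : Algebra.IsCentral K P.Cr := F.isCentral hA.central
  have hfin : FiniteDimensional K P.Cr := .of_finrank_pos (by rw [hd]; positivity)
  obtain ⟨M, _, _, _, _, ⟨f'⟩⟩ := H268.exists_galois_split' (K := K) (A := P.Cr) hd
  let Φ := F.iso f f' hn0 hA.finrank_eq hnd
  have h0 : (N.map Φ.toMonoidHom).index ≠ 0 := by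
    rwa [Subgroup.index_map_of_bijective Φ.bijective]
  have h1 : N.map Φ.toMonoidHom = ⊤ := by
    rcases Nat.lt_or_ge 1 d with h4 | h4
    · exact (F3.all_clauses hA.star_ne h4 hd f' hm F.HH hH).1 _ h0
    · obtain rfl : d = 1 := by omega
      exact (W.quasi_all hA.star_ne hd0 hd f' (by omega) F.HH hH).1 _ h0
  refine eq_top_iff.2 fun g _ => ?_
  obtain ⟨g', hg', hgg⟩ := h1.ge (Subgroup.mem_top (Φ g))
  rwa [Φ.injective hgg] at hg'

end Vale.Agent.P011NC
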