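import Vale.Agent.P011NC.Fin
import Vale.Agent.P011NC.Split
import Vale.Agent.P011.H925.Full.NF
import Vale.Agent.P011.H925.Full.FFA

/-! The Margulis-Platonov conjecture for the anisotropic outer forms of type `A`. -/

namespace Vale.Agent.P011NC

open Vale.Agent.P011 Vale.Agent.P011.H925.Full

variable {k K A Ω : Type} [Field k] [Field K] [Algebra k K] [StarRing K] [Ring A] [StarRing A]
  [Algebra k A] [Algebra K A] [IsScalarTower k K A] [StarModule K A] [Field Ω] [Algebra K Ω] {n : ℕ}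

theorem q1 (h : Ans k K A n) (f : A →ₐ[K] Matrix (Fin n) (Fin n) Ω) :
    ∃ δ : GK f →* HA k K A n, (∀ g, Diag g.1.1 (δ g)) ∧ Q1 δ :=
  q1_of (st := stLin h.fixed) (fun _ => rfl) (h.global.elim
    (fun _ => H973.Full.typeA_nf_of h.anis h.le f (mp_all h.le) fun hd =>
      top_all h.anis h.le hd f) fun hk => old_ffa hk h.anis h.le f)

/-- **Noncentral normal subgroups have finite index.** -/
theorem finIndex_all (h : Ans k K A n) (f : A →ₐ[K] Matrix (Fin n) (Fin n) Ω)
    (N : Subgroup (GK f)) [N.Normal] (hc : ¬N ≤ Subgroup.center _) : N.index ≠ 0 :=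
  (q1 h f).elim fun _ a => finIndex_q1 h a.1 a.2 N hc

theorem finIndex (h : Anis k K A n) (f : A →ₐ[K] Matrix (Fin n) (Fin n) Ω) (N : Subgroup (GK f))
    [N.Normal] (hc : ¬N ≤ Subgroup.center _) : N.index ≠ 0 :=
  finIndex_all ⟨h.global, h.fixed, h.star_ne, h.central, h.simple, h.le, h.rank, h.aniso⟩ f N hc

/-- **The conjecture for the anisotropic outer forms of type `A`.** -/
theorem clauseA_all (h : Ans k K A n) (f : A →ₐ[K] Matrix (Fin n) (Fin n) Ω) :
    ∃ δ : GK f →* HA k K A n, (∀ g, Diag g.1.1 (δ g)) ∧ DenseRange δ ∧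
      ∀ N : Subgroup (GK f), N.Normal → ¬N ≤ Subgroup.center _ →
        ∃ W : Subgroup (HA k K A n), IsOpen (W : Set (HA k K A n)) ∧ W.Normal ∧ N = W.comap δ :=
  clause_of_q1 h (q1 h f)

end Vale.Agent.P011NC
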