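import Mathlib.Topology.Algebra.Group.Basic
import Mathlib.Topology.Algebra.Group.Pointwise
import Mathlib.Topology.Algebra.Group.ClosedSubgroup
import Mathlib.Topology.Instances.Real.Lemmas
import Mathlib.GroupTheory.Index
import Mathlib.GroupTheory.Commutator.Basic
import Mathlib.Algebra.Group.Subgroup.Finite
import Mathlib.Tactic

/-! Topological groups: relatively open cocompact subgroups, closures. -/

namespace Vale.Agent.P011NC

open Topology Filter
open scoped commutatorElement Pointwise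

section

variable {G : Type*} [Group G]

theorem relIndex_ne_zero_of_reps {X Y : Subgroup G} {R : Set G} (hR : R.Finite)
    (h : ∀ g ∈ Y, ∃ r ∈ R, r ∈ Y ∧ r⁻¹ * g ∈ X) : X.relIndex Y ≠ 0 := by
  have : Finite {r : Y // (r : G) ∈ R} :=
    (hR.preimage Subtype.val_injective.injOn : Set.Finite {r : Y | (r : G) ∈ R})
  have : Finite (Y ⧸ X.subgroupOf Y) := Finite.of_surjective
    (fun r : {r : Y // (r : G) ∈ R} => (r.1 : Y ⧸ X.subgroupOf Y)) fun q => by
      obtain ⟨g, rfl⟩ := QuotientGroup.mk_surjective q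
      obtain ⟨r, hr, hrY, e⟩ := h g g.2
      exact ⟨⟨⟨r, hrY⟩, hr⟩, QuotientGroup.eq.2 e⟩
  exact Subgroup.index_ne_zero_of_finite

theorem infinite_of_relIndex {X Y : Subgroup G} (h : X.relIndex Y ≠ 0)
    (hY : (Y : Set G).Infinite) : ((X ⊓ Y : Subgroup G) : Set G).Infinite := by
  intro hf
  have h1 : Finite (X.subgroupOf Y) := by
    have : Finite (X ⊓ Y : Subgroup G) := hf
    exact Finite.of_injective (fun x : X.subgroupOf Y => (⟨x.1.1, x.2, x.1.2⟩ : (X ⊓ Y : Subgroup G)))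
      fun a b e => Subtype.ext (Subtype.ext (congrArg (fun z : (X ⊓ Y : Subgroup G) => (z : G)) e))
  have h2 := (X.subgroupOf Y).index_mul_card
  have h3 : Nat.card Y ≠ 0 := h2 ▸ mul_ne_zero h Nat.card_pos.ne'
  exact hY (Nat.finite_of_card_ne_zero h3)

/-- The core of a subgroup of finite relative index. -/
theorem exists_core {X D : Subgroup G} (h : X.relIndex D ≠ 0) : ∃ Y : Subgroup G, Y ≤ X ⊓ D ∧
    Y.relIndex D ≠ 0 ∧ ∀ d ∈ D, ∀ y ∈ Y, d * y * d⁻¹ ∈ Y := by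
  have : (X.subgroupOf D).FiniteIndex := ⟨h⟩
  refine ⟨(X.subgroupOf D).normalCore.map D.subtype, ?_, ?_, ?_⟩
  · rintro _ ⟨y, hy, rfl⟩
    exact ⟨(X.subgroupOf D).normalCore_le hy, y.2⟩
  · rw [Subgroup.relIndex, Subgroup.subgroupOf,
      Subgroup.comap_map_eq_self_of_injective D.subtype_injective]
    exact Subgroup.FiniteIndex.index_ne_zero
  · rintro d hd _ ⟨y, hy, rfl⟩
    exact ⟨_, (Subgroup.normalCore_normal _).conj_mem y hy ⟨d, hd⟩, rfl⟩

theorem relIndex_conj {X D : Subgroup G} (h : X.relIndex D ≠ 0) (g : G)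
    (hg : (D.comap (MulAut.conj g).toMonoidHom).relIndex D ≠ 0) :
    (X.comap (MulAut.conj g).toMonoidHom).relIndex D ≠ 0 :=
  Subgroup.relIndex_ne_zero_trans (Subgroup.relIndex_comap_ne_zero _ h) hg

variable [TopologicalSpace G] [IsTopologicalGroup G]

/-- A relatively open cocompact subgroup has finite index. -/
theorem relIndex_ne_zero_of_coc {X Y : Subgroup G}
    (ho : ∀ᶠ g in 𝓝 (1 : G), g ∈ Y → g ∈ X) {C : Set G} (hC : IsCompact C) (hCY : C ⊆ Y)
    (h : ∀ g ∈ Y, ∃ x ∈ X, x * g ∈ C) : X.relIndex Y ≠ 0 := by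
  obtain ⟨R, hR, hc⟩ := hC.elim_nhds_subcover (fun c => {g | g * c⁻¹ ∈ Y → g * c⁻¹ ∈ X})
    fun c _ => ((continuous_mul_const c⁻¹).tendsto' c 1 (mul_inv_cancel c)).eventually ho
  refine relIndex_ne_zero_of_reps (R := (R : Set G)⁻¹) R.finite_toSet.inv fun g hg => ?_
  obtain ⟨x, hx, e⟩ := h g⁻¹ (inv_mem hg)
  obtain ⟨c, hc1, hc2⟩ := Set.mem_iUnion₂.1 (hc e)
  have hcY := hCY (hR c hc1)
  have := X.mul_mem (X.inv_mem (hc2 (Y.mul_mem (hCY e) (Y.inv_mem hcY)))) hx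
  refine ⟨c⁻¹, by simpa using hc1, Y.inv_mem hcY, ?_⟩
  simpa [mul_assoc] using this

theorem clos_conj {H N : Subgroup G} (h : ∀ a ∈ H, ∀ x ∈ N, a * x * a⁻¹ ∈ N) :
    ∀ a ∈ H.topologicalClosure, ∀ x ∈ N.topologicalClosure,
      a * x * a⁻¹ ∈ N.topologicalClosure := fun a ha x hx =>
  map_mem_closure₂ (f := fun a x : G => a * x * a⁻¹) (by fun_prop) ha hx h

theorem clos_comm {H K : Subgroup G} {a b : G} (ha : a ∈ H.topologicalClosure)
    (hb : b ∈ K.topologicalClosure) : ⁅a, b⁆ ∈ (⁅H, K⁆ : Subgroup G).topologicalClosure :=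
  map_mem_closure₂ (f := fun a x : G => a * x * a⁻¹ * x⁻¹) (by fun_prop) ha hb
    fun _ ha _ hb => Subgroup.commutator_mem_commutator ha hb

omit [IsTopologicalGroup G] in
theorem gen_of_coc {X : Subgroup G} (hX : IsClosed (X : Set G)) {T C : Set G} (hT : T.Finite)
    (hTX : T ⊆ X) (hC : IsCompact C) (h : ∀ g ∈ X, ∃ t ∈ Subgroup.closure T, t * g ∈ C) :
    ∃ W : Set G, IsCompact W ∧ Subgroup.closure W = X := by
  refine ⟨T ∪ (C ∩ X), hT.isCompact.union (hC.inter_right hX), le_antisymm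
    ((Subgroup.closure_le _).2 (Set.union_subset hTX Set.inter_subset_right)) fun g hg => ?_⟩
  obtain ⟨t, ht, e⟩ := h g hg
  have h1 := Subgroup.closure_mono (Set.subset_union_left (t := C ∩ X)) ht
  have h2 : t * g ∈ Subgroup.closure (T ∪ (C ∩ X)) := Subgroup.subset_closure
    (Or.inr ⟨e, X.mul_mem ((Subgroup.closure_le _).2 hTX ht) hg⟩)
  simpa using mul_mem (inv_mem h1) h2

omit [IsTopologicalGroup G] in
theorem char_of_coc {X Q : Subgroup G} (hX : IsClosed (X : Set G)) (hQ : Q ≤ X) {C : Set G}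
    (hC : IsCompact C) (h : ∀ g ∈ X, ∃ t ∈ Q, t * g ∈ C) {χ : G → ℝ} (h1 : ContinuousOn χ X)
    (h2 : ∀ x ∈ X, ∀ y ∈ X, χ (x * y) = χ x + χ y) (h3 : ∀ t ∈ Q, χ t = 0) :
    ∀ x ∈ X, χ x = 0 := by
  obtain ⟨B, hB⟩ := ((hC.inter_right hX).image_of_continuousOn
    (h1.mono Set.inter_subset_right).abs).bddAbove
  have a1 : ∀ g ∈ X, |χ g| ≤ B := fun g hg => by
    obtain ⟨t, ht, e⟩ := h g hg
    have := hB ⟨_, ⟨e, X.mul_mem (hQ ht) hg⟩, rfl⟩
    simpa [h2 t (hQ ht) g hg, h3 t ht] using this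
  intro x hx
  have a2 : ∀ m : ℕ, χ (x ^ m) = m * χ x := fun m => by
    induction m with
    | zero => simpa using h3 1 Q.one_mem
    | succ m ih => rw [pow_succ, h2 _ (X.pow_mem hx m) _ hx, ih]; push_cast; ring
  by_contra h0
  obtain ⟨m, hm⟩ := exists_nat_gt (B / |χ x|)
  have := a1 _ (X.pow_mem hx m)
  rw [a2, abs_mul, Nat.abs_cast] at this
  rw [div_lt_iff₀ (abs_pos.2 h0)] at hm
  linarith

end

end Vale.Agent.P011NC
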