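import Vale.Agent.P011NC.LC
import Vale.Agent.P011NC.Grp
import Mathlib.Analysis.Normed.Group.Ultra

/-! An anisotropic algebra with its completions: the abstract setting. -/

namespace Vale.Agent.P011NC

open Module Topology Filter
open scoped commutatorElement

/-- The algebra `A` with its completions `E v`. -/
structure Adel (k A Ω : Type) [Field k] [Ring A] [StarRing A] [Algebra k A] [Field Ω]
    [Algebra k Ω] (n : ℕ) {P : Type} (F E Om : P → Type) [∀ v, NontriviallyNormedField (F v)]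
    [∀ v, NormedRing (E v)] [∀ v, StarRing (E v)] [∀ v, NormedAlgebra (F v) (E v)]
    [∀ v, Field (Om v)] [∀ v, Algebra (F v) (Om v)] where
  M : Mdl k A Ω n
  L : ∀ v, Mdl (F v) (E v) (Om v) n
  j : ∀ v, A →+* E v
  arch : Finset P
  le : 3 ≤ n
  aniso : ∀ a : A, star a * a = 0 → a = 0
  j_star : ∀ v a, j v (star a) = star (j v a)
  j_om : ∀ v, j v M.om = (L v).om
  j_inj : ∀ v, Function.Injective (j v)
  j_det : ∀ v a, (M.f a).det = 1 → ((L v).f (j v a)).det = 1
  norm_one : ∀ v, ‖(1 : E v)‖ = 1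
  ultra : ∀ v ∉ arch, IsUltrametricDist (E v)
  ex : ∃ v, v ∉ arch
  fin : ∀ a, {v | 1 < ‖j v a‖}.Finite
  disc : ∀ c : P → ℝ, {v | 1 < c v}.Finite → {a | ∀ v, ‖j v a‖ ≤ c v}.Finite
  wa : ∀ (S : Finset P) (x : ∀ v, E v) (ε : ℝ), 0 < ε → ∃ a, ∀ v ∈ S, ‖j v a - x v‖ < ε
  coc : ∀ S : Finset P, arch ⊆ S → S.Nonempty → ∃ R : ℝ, ∀ g ∈ M.SU, ∃ d ∈ M.SU,
    (∀ v ∉ S, ‖j v d‖ ≤ 1 ∧ ‖j v (star d)‖ ≤ 1) ∧ ∀ v ∈ S, ‖j v (g * d)‖ ≤ R

section ring

variable {E : Type*} [NormedRing E] [StarRing E]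

/-- The elements of norm at most one with adjoint of norm at most one. -/
def Kb (h : ‖(1 : E)‖ = 1) : Subgroup (unitary E) where
  carrier := {g | ‖(g : E)‖ ≤ 1 ∧ ‖star (g : E)‖ ≤ 1}
  mul_mem' := by
    rintro a b ⟨h1, h2⟩ ⟨h3, h4⟩
    refine ⟨(norm_mul_le _ _).trans (mul_le_one₀ h1 (norm_nonneg _) h3), ?_⟩
    rw [Submonoid.coe_mul, star_mul]
    exact (norm_mul_le _ _).trans (mul_le_one₀ h4 (norm_nonneg _) h2)
  one_mem' := by simp [h]
  inv_mem' := by
    rintro a ⟨h1, h2⟩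
    exact ⟨h2, by simpa [← Unitary.star_eq_inv] using h1⟩

/-- The congruence subgroups. -/
def Kc [IsUltrametricDist E] (h : ‖(1 : E)‖ = 1) {ε : ℝ} (hε : 0 < ε) : Subgroup (unitary E) where
  carrier := {g | g ∈ Kb h ∧ ‖(g : E) - 1‖ < ε}
  mul_mem' := by
    rintro a b ⟨h1, h2⟩ ⟨h3, h4⟩
    refine ⟨mul_mem h1 h3, ?_⟩
    have e : ((a * b : unitary E) : E) - 1 = a * (b - 1) + (a - 1) := by
      rw [Submonoid.coe_mul]; noncomm_ring
    rw [e]
    exact (IsUltrametricDist.norm_add_le_max _ _).trans_lt (max_lt ((norm_mul_le _ _).trans_lt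
      ((mul_le_of_le_one_left (norm_nonneg _) h1.1).trans_lt h4)) h2)
  one_mem' := ⟨one_mem _, by simpa using hε⟩
  inv_mem' := by
    rintro a ⟨h1, h2⟩
    refine ⟨inv_mem h1, ?_⟩
    have e : ((a⁻¹ : unitary E) : E) - 1 = -(star (a : E) * (a - 1)) := by
      rw [mul_sub, a.2.1, mul_one, neg_sub]; rfl
    rw [e, norm_neg]
    exact (norm_mul_le _ _).trans_lt ((mul_le_of_le_one_left (norm_nonneg _) h1.2).trans_lt h2)

theorem ev_Kc [IsUltrametricDist E] [ContinuousStar E] (h : ‖(1 : E)‖ = 1) {ε : ℝ} (hε : 0 < ε) :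
    ∀ᶠ g in 𝓝 (1 : unitary E), g ∈ Kc h hε := by
  have a1 : ∀ x : E, ‖x - 1‖ < 1 → ‖x‖ ≤ 1 := fun x hx => by
    have := IsUltrametricDist.norm_add_le_max (x - 1) 1
    rw [sub_add_cancel, h] at this
    exact this.trans (max_le hx.le le_rfl)
  have c1 : Continuous fun g : unitary E => ‖(g : E) - 1‖ := by fun_prop
  have c2 : Continuous fun g : unitary E => ‖star (g : E) - 1‖ := by fun_prop
  filter_upwards [(c1.tendsto' 1 0 (by simp)).eventually_lt_const hε,
    (c1.tendsto' 1 0 (by simp)).eventually_lt_const one_pos,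
    (c2.tendsto' 1 0 (by simp)).eventually_lt_const one_pos] with g h1 h2 h3
  exact ⟨⟨a1 _ h2, a1 _ h3⟩, h1⟩

end ring

namespace Mdl

variable {F E Ω : Type*} [Field F] [Ring E] [StarRing E] [Algebra F E] [Field Ω]
  [Algebra F Ω] {n : ℕ} (M : Mdl F E Ω n)

theorem den_psi {u : E} (h : IsUnit (M.om + star M.om * u)) :
    IsUnit (1 - star M.om * M.psi u) := by
  have h1 : (M.om + star M.om * u) * M.psi u = u - 1 := by
    rw [psi, ← mul_assoc, Ring.mul_inverse_cancel _ h, one_mul]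
  have h2 : (M.om + star M.om * u) * (1 - star M.om * M.psi u) = 1 := by
    rw [mul_sub, mul_one, ← mul_assoc, ← M.som_comm, mul_assoc, h1, mul_sub, mul_one,
      ← M.om_add]
    abel
  have := M.dedekind
  exact ⟨⟨_, _, mul_eq_one_comm.1 h2, h2⟩, rfl⟩

theorem den_aniso (ha : ∀ a : E, star a * a = 0 → a = 0) {x : E} (hx : x ∈ M.Sk) :
    IsUnit (1 - star M.om * x) := by
  have := M.fd
  have hi : Function.Injective (LinearMap.mulLeft F (1 - star M.om * x)) := by
    rw [injective_iff_map_eq_zero]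
    intro y hy
    rw [LinearMap.mulLeft_apply, sub_mul, one_mul, sub_eq_zero] at hy
    have h1 : star y * y = star M.om * (star y * x * y) := by
      conv_lhs => arg 2; rw [hy]
      rw [← mul_assoc, ← mul_assoc, ← M.som_comm]
      simp only [mul_assoc]
    have h2 := congrArg star h1
    rw [star_mul, star_star, h1, star_mul, star_star, star_mul, star_mul, star_star, hx,
      ← M.om_comm] at h2
    have h3 : star y * x * y = 0 := by
      rw [← one_mul (star y * x * y), ← M.om_add, add_mul, h2]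
      noncomm_ring
    exact ha y (by rw [h1, h3, mul_zero])
  obtain ⟨z, hz⟩ := LinearMap.injective_iff_surjective.1 hi 1
  have := M.dedekind
  exact ⟨⟨_, z, hz, mul_eq_one_comm.1 hz⟩, rfl⟩

theorem proj_mem (z : E) : M.om * z - star M.om * star z ∈ M.Sk := by
  rw [mem_Sk, star_sub, star_mul, star_mul, star_star, star_star, M.om_comm, M.som_comm, neg_sub]

theorem proj_eq {z : E} (hz : z ∈ M.Sk) : M.om * z - star M.om * star z = z := by
  rw [hz, mul_neg, sub_neg_eq_add, ← add_mul, M.om_add, one_mul]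

theorem exists_noncomm (hn : 3 ≤ n) : ∃ x ∈ M.Sk, ∃ y ∈ M.Sk, x * y ≠ y * x := by
  by_contra hc
  push Not at hc
  have h : ∀ X Y : Matrix (Fin n) (Fin n) Ω, X * Y = Y * X :=
    M.ind_Sk (fun x hx => M.ind_Sk (fun y hy => by rw [← map_mul, hc x hx y hy, map_mul])
      (fun X Y a b => by rw [mul_add, add_mul, a, b])
      fun c X a => by rw [mul_smul_comm, smul_mul_assoc, a])
      (fun X Y a b Z => by rw [mul_add, add_mul, a, b])
      fun c X a Z => by rw [mul_smul_comm, smul_mul_assoc, a]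
  have h01 : (⟨0, by omega⟩ : Fin n) ≠ ⟨1, by omega⟩ := by simp
  have := h (Matrix.single ⟨0, by omega⟩ ⟨0, by omega⟩ 1)
    (Matrix.single ⟨0, by omega⟩ ⟨1, by omega⟩ 1)
  rw [Matrix.single_mul_single_same, Matrix.single_mul_single_of_ne _ _ _ _ h01.symm] at this
  simpa using congrFun (congrFun this ⟨0, by omega⟩) ⟨1, by omega⟩

end Mdl

theorem Mdl.exists_nc {F E Ω : Type*} [NontriviallyNormedField F] [NormedRing E] [StarRing E]
    [NormedAlgebra F E] [Field Ω] [Algebra F Ω] {n : ℕ} (M : Mdl F E Ω n) [CompleteSpace F]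
    (hn : 3 ≤ n) {V : Set (unitary E)} (hV : V ∈ 𝓝 1) :
    ∃ a ∈ V, ∃ x, (a : E) * x ≠ x * a := by
  by_contra hc
  push Not at hc
  obtain ⟨x, hx, y, -, h⟩ := M.exists_noncomm hn
  have d := M.deriv_cay_smul x
  refine h (sub_eq_zero.1 (M.deriv_mem
    (W := LinearMap.ker (LinearMap.mulRight F y - LinearMap.mulLeft F y)) d ?_))
  filter_upwards [Mdl.ev_of_path (P := ⊤) hV d.hasDerivAt.continuousAt (by simp [M.cay_zero])
    ((M.ev_cay_smul hx).mono fun t ht => ⟨⟨_, ht⟩, trivial, rfl⟩)] with t ⟨g, _, hg, e⟩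
  rw [← e]
  exact sub_eq_zero.2 (hc g hg y)

namespace Adel

variable {k A Ω : Type} [Field k] [Ring A] [StarRing A] [Algebra k A] [Field Ω]
  [Algebra k Ω] {n : ℕ} {P : Type} {F E Om : P → Type} [∀ v, NontriviallyNormedField (F v)]
  [∀ v, NormedRing (E v)] [∀ v, StarRing (E v)] [∀ v, NormedAlgebra (F v) (E v)]
  [∀ v, Field (Om v)] [∀ v, Algebra (F v) (Om v)] (H : Adel k A Ω n F E Om)

/-- The map of the unitary groups. -/
def jU (v : P) : unitary A →* unitary (E v) where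
  toFun g := ⟨H.j v g, by rw [← H.j_star, ← map_mul, g.2.1, map_one],
    by rw [← H.j_star, ← map_mul, g.2.2, map_one]⟩
  map_one' := Subtype.ext (map_one _)
  map_mul' a b := Subtype.ext (map_mul _ _ _)

theorem jU_val (v : P) (g : unitary A) : (H.jU v g : E v) = H.j v g := rfl

theorem jU_inj (v : P) : Function.Injective (H.jU v) := fun _ _ h =>
  Subtype.ext (H.j_inj v (congrArg Subtype.val h))

theorem jU_SU (v : P) {g : unitary A} (hg : g ∈ H.M.SU) : H.jU v g ∈ (H.L v).SU :=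
  H.j_det v g hg

/-- The diagonal map to the places of `S`. -/
def pU (S : Finset P) : unitary A →* ∀ v : S, unitary (E v) := MonoidHom.pi fun v => H.jU v

theorem pU_apply (S : Finset P) (g : unitary A) (v : S) : H.pU S g v = H.jU v g := rfl

/-- The integral elements at a place. -/
def K (v : P) : Subgroup (unitary (E v)) := Kb (H.norm_one v)

/-- The `S`-integral elements. -/
def D (S : Finset P) : Subgroup H.M.SU :=
  ⨅ v ∉ S, (H.K v).comap ((H.jU v).comp H.M.SU.subtype)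

theorem mem_D {S : Finset P} {g : H.M.SU} : g ∈ H.D S ↔ ∀ v ∉ S, H.jU v g ∈ H.K v := by
  simp [D, Subgroup.mem_iInf]

theorem D_mono {S T : Finset P} (h : S ⊆ T) : H.D S ≤ H.D T := fun _ hg =>
  H.mem_D.2 fun v hv => H.mem_D.1 hg v fun h' => hv (h h')

theorem finite_poles (g : unitary A) : {v | H.jU v g ∉ H.K v}.Finite := by
  refine ((H.fin g).union (H.fin (star (g : A)))).subset fun v hv => ?_
  by_contra hc
  simp only [Set.mem_union, Set.mem_ofPred_eq, not_or, not_lt, H.j_star] at hc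
  exact hv hc

theorem j_cay (v : P) {x : A} (hx : x ∈ H.M.Sk) :
    H.j v (H.M.cay x) = (H.L v).cay (H.j v x) := by
  have h := H.M.den_aniso H.aniso hx
  have h1 : H.j v (1 - star H.M.om * x) = 1 - star (H.L v).om * H.j v x := by
    rw [map_sub, map_one, map_mul, H.j_star, H.j_om]
  have h2 : IsUnit (1 - star (H.L v).om * H.j v x) := h1 ▸ h.map (H.j v)
  apply h2.mul_right_cancel
  rw [(H.L v).cay_mul h2, ← h1, ← map_mul, H.M.cay_mul h, map_add, map_one, map_mul, H.j_om]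

end Adel

end Vale.Agent.P011NC
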