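import Vale.Agent.P011NC.Mat
import Mathlib.Algebra.Star.Unitary
import Mathlib.LinearAlgebra.FiniteDimensional.Lemmas
import Mathlib.LinearAlgebra.Dimension.Constructions

/-! Algebras with an involution of the second kind and a splitting: the algebraic facts. -/

namespace Vale.Agent.P011NC

open Matrix Module
open scoped commutatorElement

/-- An algebra with an involution of the second kind, with a splitting `f`. -/
structure Mdl (F E Ω : Type*) [Field F] [Ring E] [StarRing E] [Algebra F E] [Field Ω]
    [Algebra F Ω] (n : ℕ) where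
  f : E →ₐ[F] Matrix (Fin n) (Fin n) Ω
  om : E
  w : Ω
  star_smul : ∀ (c : F) (x : E), star (c • x) = c • star x
  span : Submodule.span Ω (Set.range f) = ⊤
  fd : FiniteDimensional F E
  rank : finrank F E = 2 * n ^ 2
  om_comm : ∀ x, om * x = x * om
  om_add : om + star om = 1
  del : ∃ e, (om - star om) * e = 1
  f_om : f om = w • (1 : Matrix (Fin n) (Fin n) Ω)

namespace Mdl

variable {F E Ω : Type*} [Field F] [Ring E] [StarRing E] [Algebra F E] [Field Ω]
  [Algebra F Ω] {n : ℕ} (M : Mdl F E Ω n)

/-- The involution as a linear map. -/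
def st : E →ₗ[F] E where
  toFun := star
  map_add' := star_add
  map_smul' := M.star_smul

/-- The skew elements. -/
def Sk : Submodule F E where
  carrier := {x | star x = -x}
  add_mem' := by
    intro a b ha hb
    rw [Set.mem_ofPred_eq] at *
    rw [star_add, ha, hb, neg_add]
  zero_mem' := by simp
  smul_mem' := by
    intro c x hx
    rw [Set.mem_ofPred_eq] at *
    rw [M.star_smul, hx, smul_neg]

theorem mem_Sk {x : E} : x ∈ M.Sk ↔ star x = -x := Iff.rfl

theorem som_comm (x : E) : star M.om * x = x * star M.om := by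
  have := congrArg star (M.om_comm (star x))
  rw [star_mul, star_mul, star_star] at this
  exact this.symm

theorem som_eq : star M.om = 1 - M.om := eq_sub_of_add_eq' M.om_add

theorem f_som : M.f (star M.om) = (1 - M.w) • (1 : Matrix (Fin n) (Fin n) Ω) := by
  rw [M.som_eq, map_sub, map_one, M.f_om, sub_smul, one_smul]

theorem del_cancel {b : E} (h : (M.om - star M.om) * b = 0) : b = 0 := by
  obtain ⟨e, he⟩ := M.del
  have hc : ∀ x, (M.om - star M.om) * x = x * (M.om - star M.om) := fun x => by
    rw [sub_mul, mul_sub, M.om_comm, M.som_comm]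
  rw [← one_mul b, ← he, hc, mul_assoc, h, mul_zero]

theorem exists_decomp (z : E) : ∃ a ∈ M.Sk, ∃ b ∈ M.Sk, z = a + M.om * b := by
  obtain ⟨e, he⟩ := M.del
  have hc : ∀ x, (M.om - star M.om) * x = x * (M.om - star M.om) := fun x => by
    rw [sub_mul, mul_sub, M.om_comm, M.som_comm]
  have hb : (M.om - star M.om) * (e * (z + star z)) = z + star z := by
    rw [← mul_assoc, he, one_mul]
  have hs : star (e * (z + star z)) = -(e * (z + star z)) := by
    have h1 := congrArg star hb
    rw [star_mul, star_sub, star_star, star_add (r := z), star_star, add_comm (star z)] at h1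
    rw [← add_eq_zero_iff_eq_neg]
    apply M.del_cancel
    rw [mul_add, hb, hc, ← neg_sub, mul_neg, h1, neg_add_cancel]
  refine ⟨z - M.om * (e * (z + star z)), ?_, e * (z + star z), hs, by abel⟩
  rw [mem_Sk, star_sub, star_mul, hs, ← M.som_comm]
  rw [sub_mul] at hb
  rw [mul_neg, sub_neg_eq_add, neg_sub, eq_sub_iff_add_eq]
  rw [sub_eq_iff_eq_add] at hb
  rw [hb]
  abel

theorem finrank_Sk : finrank F M.Sk = n ^ 2 := by
  have := M.fd
  let L : (M.Sk × M.Sk) →ₗ[F] E :=
    M.Sk.subtype.coprod ((LinearMap.mulLeft F M.om).comp M.Sk.subtype)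
  have hL : Function.Bijective L := by
    constructor
    · rw [injective_iff_map_eq_zero]
      rintro ⟨⟨a, ha⟩, ⟨b, hb⟩⟩ h
      have h1 : a + M.om * b = 0 := h
      have h2 := congrArg star h1
      rw [star_add, star_mul, ha, hb, ← M.som_comm, star_zero] at h2
      have h3 : b = 0 := by
        apply M.del_cancel
        rw [sub_mul, ← add_zero (0 : E)]
        nth_rw 1 [← h1]
        rw [← h2, mul_neg]
        abel
      subst h3
      have h4 : a = 0 := by simpa using h1
      subst h4
      rfl
    · intro z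
      obtain ⟨a, ha, b, hb, h⟩ := M.exists_decomp z
      exact ⟨(⟨a, ha⟩, ⟨b, hb⟩), h.symm⟩
  have h := (LinearEquiv.ofBijective L hL).finrank_eq
  rw [finrank_prod, M.rank] at h
  omega

theorem span_Sk : Submodule.span Ω (M.f '' M.Sk) = ⊤ := by
  rw [eq_top_iff, ← M.span, Submodule.span_le]
  rintro _ ⟨z, rfl⟩
  obtain ⟨a, ha, b, hb, rfl⟩ := M.exists_decomp z
  rw [map_add, map_mul, M.f_om, smul_mul_assoc, one_mul]
  exact Submodule.add_mem _ (Submodule.subset_span ⟨a, ha, rfl⟩)
    (Submodule.smul_mem _ _ (Submodule.subset_span ⟨b, hb, rfl⟩))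

theorem eq_Sk {W : Submodule F E} (hW : W ≤ M.Sk) (h : Submodule.span Ω (M.f '' W) = ⊤) :
    W = M.Sk := by
  have := M.fd
  refine Submodule.eq_of_le_of_finrank_le hW ?_
  let b := Module.finBasis F W
  have h1 : Submodule.span Ω (Set.range fun i => M.f (b i)) = ⊤ := by
    rw [eq_top_iff, ← h, Submodule.span_le]
    rintro _ ⟨x, hx, rfl⟩
    have : x = ∑ i, b.repr ⟨x, hx⟩ i • (b i : E) := by
      have := congrArg W.subtype (b.sum_repr ⟨x, hx⟩)
      rw [map_sum] at this
      exact this.symm
    rw [this, map_sum]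
    refine Submodule.sum_mem _ fun i _ => ?_
    rw [map_smul, ← algebraMap_smul Ω]
    exact Submodule.smul_mem _ _ (Submodule.subset_span ⟨i, rfl⟩)
  have h2 := finrank_range_le_card (R := Ω) fun i => M.f (b i)
  rw [Set.finrank, h1, finrank_top, finrank_matrix] at h2
  rw [M.finrank_Sk]
  simpa [pow_two] using h2

/-- Descent of linear dependence for skew elements. -/
theorem desc {W : Submodule F E} (hW : W ≤ M.Sk) {x : E} (hx : x ∈ M.Sk)
    (h : M.f x ∈ Submodule.span Ω (M.f '' W)) : x ∈ W := by
  by_contra hxW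
  obtain ⟨l, hl1, hl2⟩ := W.exists_le_ker_of_notMem hxW
  have h1 : M.Sk ⊓ LinearMap.ker l = M.Sk := by
    refine M.eq_Sk inf_le_left ?_
    rw [eq_top_iff, ← M.span_Sk, Submodule.span_le]
    rintro _ ⟨y, hy, rfl⟩
    have e : y = (y - (l y / l x) • x) + (l y / l x) • x := by abel
    rw [e, map_add, map_smul, ← algebraMap_smul Ω (l y / l x) (M.f x)]
    refine Submodule.add_mem _ (Submodule.subset_span ⟨_, ⟨M.Sk.sub_mem hy (M.Sk.smul_mem _ hx),
      ?_⟩, rfl⟩) (Submodule.smul_mem _ _ (Submodule.span_mono (Set.image_mono ?_) h))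
    · simp [div_mul_cancel₀ _ hl1]
    · exact le_inf hW hl2
  exact hl1 (h1.ge hx).2

theorem inj_Sk {x : E} (hx : x ∈ M.Sk) (h : M.f x = 0) : x = 0 :=
  (Submodule.mem_bot F).1 (M.desc bot_le hx (h ▸ Submodule.zero_mem _))

/-- The splitting and its dual are jointly injective. -/
theorem inj {x : E} (h : M.f x = 0) (h' : M.f (star x) = 0) : x = 0 := by
  obtain ⟨a, ha, b, hb, rfl⟩ := M.exists_decomp x
  rw [star_add, star_mul, ha, hb, ← M.som_comm] at h'
  have h1 : M.f ((M.om - star M.om) * b) = 0 := by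
    have : (M.om - star M.om) * b = (a + M.om * b) + (-a + star M.om * -b) := by noncomm_ring
    rw [this, map_add, h, h', add_zero]
  obtain ⟨e, he⟩ := M.del
  have hc : ∀ x, (M.om - star M.om) * x = x * (M.om - star M.om) := fun x => by
    rw [sub_mul, mul_sub, M.om_comm, M.som_comm]
  have h2 : b = 0 := by
    refine M.inj_Sk hb ?_
    rw [← one_mul b, ← he, hc, mul_assoc, map_mul, h1, mul_zero]
  subst h2
  rw [mul_zero, add_zero] at h ⊢
  exact M.inj_Sk ha h

/-- A linear statement about matrices is proved on the image of the algebra. -/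
theorem ind {P : Matrix (Fin n) (Fin n) Ω → Prop} (h : ∀ x, P (M.f x))
    (hadd : ∀ X Y, P X → P Y → P (X + Y)) (hs : ∀ (c : Ω) X, P X → P (c • X)) (X) : P X := by
  have hX : X ∈ Submodule.span Ω (Set.range M.f) := M.span ▸ Submodule.mem_top
  induction hX using Submodule.span_induction with
  | mem x hx => obtain ⟨y, rfl⟩ := hx; exact h y
  | zero => simpa using h 0
  | add x y _ _ hx hy => exact hadd _ _ hx hy
  | smul c x _ hx => exact hs _ _ hx

theorem ind_Sk {P : Matrix (Fin n) (Fin n) Ω → Prop} (h : ∀ x ∈ M.Sk, P (M.f x))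
    (hadd : ∀ X Y, P X → P Y → P (X + Y)) (hs : ∀ (c : Ω) X, P X → P (c • X)) (X) : P X := by
  have hX : X ∈ Submodule.span Ω (M.f '' M.Sk) := M.span_Sk ▸ Submodule.mem_top
  induction hX using Submodule.span_induction with
  | mem x hx => obtain ⟨y, hy, rfl⟩ := hx; exact h y hy
  | zero => simpa using h 0 M.Sk.zero_mem
  | add x y _ _ hx hy => exact hadd _ _ hx hy
  | smul c x _ hx => exact hs _ _ hx

/-- Skew elements are regular. -/
theorem regular {x : E} (hx : x ∈ M.Sk) : ∃ z ∈ M.Sk, x * z * x = x := by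
  let T : E →ₗ[F] E := (LinearMap.mulLeft F x).comp (LinearMap.mulRight F x)
  have hT : ∀ z, T z = x * z * x := fun z => (mul_assoc _ _ _).symm
  have h1 : M.Sk.map T ≤ M.Sk := by
    rintro _ ⟨z, hz, rfl⟩
    rw [hT, mem_Sk, star_mul, star_mul, hx, show star z = -z from hz]
    noncomm_ring
  have h2 : ∀ Z, M.f x * Z * M.f x ∈ Submodule.span Ω (M.f '' (M.Sk.map T)) := by
    refine M.ind_Sk (fun z hz => Submodule.subset_span ⟨_, ⟨z, hz, rfl⟩, ?_⟩) (fun X Y h h' => ?_)
      fun c X h => ?_
    · rw [hT, map_mul, map_mul]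
    · rw [mul_add, add_mul]
      exact Submodule.add_mem _ h h'
    · rw [mul_smul_comm, smul_mul_assoc]
      exact Submodule.smul_mem _ _ h
  obtain ⟨Z, hZ⟩ := mat_regular (M.f x)
  obtain ⟨z, hz, h⟩ := M.desc h1 hx (hZ ▸ h2 Z)
  exact ⟨z, hz, (hT z).symm.trans h⟩

/-- An element whose image and the image of whose adjoint are central is central. -/
theorem central_of {h : E} (h1 : ∀ Y, M.f h * Y = Y * M.f h)
    (h2 : ∀ Y, M.f (star h) * Y = Y * M.f (star h)) (x : E) : h * x = x * h := by
  rw [← sub_eq_zero]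
  refine M.inj ?_ ?_
  · rw [map_sub, map_mul, map_mul, h1, sub_self]
  · rw [star_sub, star_mul, star_mul, map_sub, map_mul, map_mul, h2, sub_self]

/-- The image of a central element is central. -/
theorem f_central {h : E} (h1 : ∀ x, h * x = x * h) (Y) : M.f h * Y = Y * M.f h := by
  refine M.ind (P := fun Y => M.f h * Y = Y * M.f h) (fun x => ?_) (fun X Y a b => ?_)
    (fun c X a => ?_) Y
  · rw [← map_mul, h1, map_mul]
  · rw [mul_add, add_mul, a, b]
  · rw [mul_smul_comm, smul_mul_assoc, a]

/-- The dual splitting. -/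
def fd' : E →ₐ[F] Matrix (Fin n) (Fin n) Ω where
  toFun := fun x => (M.f (star x))ᵀ
  map_one' := by simp
  map_mul' := fun x y => by rw [star_mul, map_mul, transpose_mul]
  map_zero' := by rw [star_zero, map_zero, transpose_zero]
  map_add' := fun x y => by rw [star_add, map_add, transpose_add]
  commutes' := fun c => by
    rw [Algebra.algebraMap_eq_smul_one, M.star_smul, star_one, map_smul, map_one,
      transpose_smul, transpose_one, Algebra.algebraMap_eq_smul_one]

theorem fd'_apply (x : E) : M.fd' x = (M.f (star x))ᵀ := rfl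

/-- The dual model. -/
def dual : Mdl F E Ω n where
  f := M.fd'
  om := star M.om
  w := M.w
  star_smul := M.star_smul
  span := by
    rw [eq_top_iff]
    rintro X -
    rw [← transpose_transpose X]
    refine M.ind (P := fun Y => Yᵀ ∈ Submodule.span Ω (Set.range M.fd'))
      (fun x => Submodule.subset_span ⟨star x, ?_⟩) (fun X Y a b => ?_) (fun c X a => ?_) Xᵀ
    · simp [fd'_apply]
    · rw [transpose_add]
      exact Submodule.add_mem _ a b
    · rw [transpose_smul]
      exact Submodule.smul_mem _ _ a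
  fd := M.fd
  rank := M.rank
  om_comm := M.som_comm
  om_add := by rw [star_star, add_comm, M.om_add]
  del := by
    obtain ⟨e, he⟩ := M.del
    exact ⟨-e, by rw [star_star, ← neg_sub, neg_mul_neg, he]⟩
  f_om := by simp [fd'_apply, M.f_om]

theorem dual_f (x : E) : M.dual.f x = (M.f (star x))ᵀ := rfl

/-- The special unitary group. -/
def SU : Subgroup (unitary E) :=
  ((Matrix.detMonoidHom.comp (M.f : E →* Matrix (Fin n) (Fin n) Ω)).comp (unitary E).subtype).ker

theorem mem_SU {g : unitary E} : g ∈ M.SU ↔ (M.f g).det = 1 := Iff.rfl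

instance : M.SU.Normal := MonoidHom.normal_ker _

theorem comm_mem_SU (a b : unitary E) : ⁅a, b⁆ ∈ M.SU := by
  let φ : unitary E →* Ωˣ := ((Matrix.detMonoidHom.comp
    (M.f : E →* Matrix (Fin n) (Fin n) Ω)).comp (unitary E).subtype).toHomUnits
  have : φ ⁅a, b⁆ = 1 := by
    rw [map_commutatorElement, commutatorElement_eq_one_iff_mul_comm, mul_comm]
  exact congrArg Units.val this

end Mdl

end Vale.Agent.P011NC
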