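import Vale.Agent.P011NC.Glob
import Vale.Agent.P011NC.Spec
import Vale.Agent.P011.H925.Full.Asm
import Vale.Agent.P011.H519.SpanCSA
import Vale.Agent.P011.H519.SplitPlaceK

/-! From subgroups of finite index to noncentral normal subgroups. -/

namespace Vale.Agent.P011NC

open Module Topology Filter TensorProduct Vale.Agent.P011 Vale.Agent.P011.H925.Full

theorem GF.near {k A Ω : Type} [Field k] [Ring A] [StarRing A] [Algebra k A] [Field Ω]
    [Algebra k Ω] {n : ℕ} {P : Type} {a : P → AbsoluteValue k ℝ} (G : GF k a) (M : Mdl k A Ω n)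
    {w : P} {α : AbsoluteValue k ℝ} (e : a w = α) {t : Set (Kv α ⊗[k] A)}
    (ht : IsOpen[moduleTopology (Kv α) (Kv α ⊗[k] A)] t) (h1 : 1 ∈ t) :
    ∃ ε : ℝ, 0 < ε ∧ ∀ y : A, ‖G.j M w y - 1‖ < ε → (1 : Kv α) ⊗ₜ y ∈ t := by
  subst e
  obtain ⟨_, _, _, ⟨L⟩⟩ := G.locE M w
  have := L.fd
  have : IsModuleTopology (G.Fv w) (G.E M w) := isModuleTopologyOfFiniteDimensional
  have h2 : IsOpen (X := G.E M w) t := (eq_moduleTopology (G.Fv w) (G.E M w)).symm ▸ ht
  obtain ⟨ε, hε, h⟩ := Metric.isOpen_iff.1 h2 1 h1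
  exact ⟨ε, hε, fun y hy => h (mem_ball_iff_norm.2 hy)⟩

variable {k K A Ω : Type} [Field k] [Field K] [Algebra k K] [StarRing K] [Ring A] [StarRing A]
  [Algebra k A] [Algebra K A] [IsScalarTower k K A] [StarModule K A] [Field Ω] [Algebra K Ω] {n : ℕ}

theorem Ans.anis (h : Ans k K A n) : H738.Anis k K A n :=
  ⟨h.fixed, h.star_ne, h.central, h.simple, h.rank, h.aniso⟩

theorem exists_om (h : ∃ x : K, star x ≠ x) : ∃ ω : K, ω + star ω = 1 ∧ ω - star ω ≠ 0 := by
  obtain ⟨x, h1, h2⟩ : ∃ x : K, x - star x ≠ 0 ∧ x + star x ≠ 0 := by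
    obtain ⟨x, hx⟩ := h
    by_cases h2 : x + star x = 0
    · refine ⟨x + 1, fun e => hx ?_, fun e => hx ?_⟩
      · rw [star_add, star_one] at e
        linear_combination -e
      · rw [star_add, star_one] at e
        linear_combination h2 - x * e + x * h2
    · exact ⟨x, sub_ne_zero.2 hx.symm, h2⟩
  have e : star (x / (x - star x)) = -star x / (x - star x) := by
    rw [star_div₀, star_sub, star_star, ← neg_sub, div_neg, neg_div]
  refine ⟨x / (x - star x), ?_, ?_⟩
  · rw [e, ← add_div, ← sub_eq_add_neg, div_self h1]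
  · rw [e, ← sub_div, sub_neg_eq_add]
    exact div_ne_zero h2 h1

/-- The model of an algebra with an involution of the second kind. -/
noncomputable def mdl (h : Ans k K A n) (f : A →ₐ[K] Matrix (Fin n) (Fin n) Ω) [Algebra k Ω]
    [IsScalarTower k K Ω] {ω : K} (h1 : ω + star ω = 1) (h2 : ω - star ω ≠ 0) : Mdl k A Ω n where
  f := f.restrictScalars k
  om := algebraMap K A ω
  w := algebraMap K Ω ω
  star_smul := (stLin h.fixed).map_smul
  span := by
    have := h.central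
    have := h.simple
    exact H519.span_range_eq_top h.rank (by have := h.le; omega) (algebraMap K Ω) f.toRingHom
      fun c => (f.commutes c).trans
        (IsScalarTower.algebraMap_apply K Ω (Matrix (Fin n) (Fin n) Ω) c)
  fd := by
    have := (H519.quad h.fixed h.star_ne).1
    have : FiniteDimensional K A := .of_finrank_pos (by
      have := h.le
      rw [h.rank]
      positivity)
    exact Module.Finite.trans K A
  rank := by rw [← finrank_mul_finrank k K A, (H519.quad h.fixed h.star_ne).2.2, h.rank]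
  om_comm := Algebra.commutes ω
  om_add := by rw [← algebraMap_star_comm, ← map_add, h1, map_one]
  del := ⟨algebraMap K A (ω - star ω)⁻¹, by
    rw [← algebraMap_star_comm, ← map_sub, ← map_mul, mul_inv_cancel₀ h2, map_one]⟩
  f_om := (f.commutes ω).trans (by rw [Algebra.algebraMap_eq_smul_one, algebraMap_smul])

theorem finIndex_of (h : Ans k K A n) {P : Type} {a : P → AbsoluteValue k ℝ} (G : GF k a)
    {T : Set P} (hT : T.Finite) (hA : ∀ v : AG k K A, ∃ w ∈ T, a w = v.abv)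
    {f : A →ₐ[K] Matrix (Fin n) (Fin n) Ω} {δ : GK f →* HA k K A n}
    (h1 : ∀ g, Diag g.1.1 (δ g)) (h2 : Q1 δ) (N : Subgroup (GK f)) [hN : N.Normal]
    (hc : ¬N ≤ Subgroup.center _) : N.index ≠ 0 := by
  let _ : Algebra k Ω := ((algebraMap K Ω).comp (algebraMap k K)).toAlgebra
  have : IsScalarTower k K Ω := .of_algebraMap_eq fun _ => rfl
  obtain ⟨ω, w1, w2⟩ := exists_om h.star_ne
  refine @GF.index_ne_zero _ _ _ _ _ _ _ _ _ _ _ _ G (mdl h f w1 w2) h.le h.aniso hT.toFinset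
    (fun J hJ => ?_) N hN hc
  obtain ⟨W, a1, a2, -⟩ := h2.2 J hJ
  obtain ⟨I, u, a3, a4⟩ := isOpen_pi_iff.1 a1 1 W.one_mem
  choose w b1 b2 using hA
  have a5 : ∀ v ∈ I, ∃ ε : ℝ, 0 < ε ∧ ∀ g : GK f,
      ‖G.j (mdl h f w1 w2) (w v) g.1.1 - 1‖ < ε → δ g v ∈ u v := fun v hv => by
    obtain ⟨t, ht, e⟩ := (@isOpen_induced_iff _ _ (moduleTopology _ _) _ _).1 (a3 v hv).1
    obtain ⟨ε, hε, a6⟩ := G.near (mdl h f w1 w2) (b2 v) ht (e.ge (a3 v hv).2)
    exact ⟨ε, hε, fun g hg => e.le ((congrArg (· ∈ t) (h1 g v)).mpr (a6 _ hg))⟩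
  choose! ε c1 c2 using a5
  obtain ⟨η, d1, d2⟩ := (((eventually_all_finset I).2 fun v hv =>
    Ioc_mem_nhdsGT (c1 v hv)).and self_mem_nhdsWithin).exists
  refine ⟨η, d2, fun g hg => a2.ge (a4 fun v hv => c2 v hv g ?_)⟩
  exact (hg _ (hT.mem_toFinset.2 (b1 v))).trans_le (d1 v hv).2

end Vale.Agent.P011NC
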