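import Vale.Agent.P011NC.Det
import Mathlib.Analysis.Calculus.FDeriv.Mul
import Mathlib.Analysis.Calculus.Deriv.Mul
import Mathlib.Analysis.Calculus.Deriv.Slope
import Mathlib.Analysis.Calculus.Deriv.Comp

/-! The Cayley chart of the unitary group, in every characteristic. -/

namespace Vale.Agent.P011NC

open Module Topology Filter

namespace Mdl

section alg

variable {F E Ω : Type*} [Field F] [Ring E] [StarRing E] [Algebra F E] [Field Ω]
  [Algebra F Ω] {n : ℕ} (M : Mdl F E Ω n)

/-- The Cayley transform. -/
noncomputable def cay (x : E) : E := (1 + M.om * x) * Ring.inverse (1 - star M.om * x)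

/-- The inverse of the Cayley transform. -/
noncomputable def psi (u : E) : E := Ring.inverse (M.om + star M.om * u) * (u - 1)

include M in
theorem dedekind : IsDedekindFiniteMonoid E := by
  have := M.fd
  exact .of_injective (Algebra.lmul F E) Algebra.lmul_injective

theorem cay_zero : M.cay 0 = 1 := by simp [cay]

theorem psi_one : M.psi 1 = 0 := by simp [psi]

theorem star_den {x : E} (hx : x ∈ M.Sk) : star (1 - star M.om * x) = 1 + M.om * x := by
  rw [star_sub, star_one, star_mul, star_star, hx, neg_mul, sub_neg_eq_add, M.om_comm]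

theorem cay_mul {x : E} (h : IsUnit (1 - star M.om * x)) :
    M.cay x * (1 - star M.om * x) = 1 + M.om * x := by
  rw [cay, mul_assoc, Ring.inverse_mul_cancel _ h, mul_one]

theorem cay_mem {x : E} (hx : x ∈ M.Sk) (h : IsUnit (1 - star M.om * x)) :
    M.cay x ∈ unitary E := by
  have hc : (1 - star M.om * x) * (1 + M.om * x) = (1 + M.om * x) * (1 - star M.om * x) := by
    have h1 : star M.om * x * (M.om * x) = M.om * x * (star M.om * x) := by
      rw [← mul_assoc, ← M.om_comm, ← mul_assoc, M.om_comm (star M.om), mul_assoc M.om,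
        ← mul_assoc x, ← M.som_comm x, ← M.om_comm]
      simp only [mul_assoc]
    rw [mul_add, sub_mul, sub_mul, mul_sub, add_mul, add_mul, h1]
    noncomm_ring
  have h1 : star (M.cay x) * M.cay x = 1 := by
    have h2 : star (1 - star M.om * x) * (star (M.cay x) * M.cay x) * (1 - star M.om * x) =
        star (1 - star M.om * x) * 1 * (1 - star M.om * x) := by
      rw [← mul_assoc, ← star_mul, mul_assoc, M.cay_mul h, ← M.star_den hx, star_star,
        M.star_den hx, mul_one, hc]
    exact h.star.mul_left_cancel (h.mul_right_cancel h2)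
  have := M.dedekind
  exact ⟨h1, mul_eq_one_comm.1 h1⟩

theorem psi_mem {u : E} (hu : u ∈ unitary E) (h : IsUnit (M.om + star M.om * u)) :
    M.psi u ∈ M.Sk := by
  set d := M.om + star M.om * u with hd
  have h1 : d * M.psi u = u - 1 := by rw [psi, ← mul_assoc, Ring.mul_inverse_cancel _ h, one_mul]
  have hdu : d * u = u * d := by
    rw [hd, add_mul, mul_add, M.om_comm, mul_assoc, M.som_comm (u * u), ← M.som_comm,
      ← mul_assoc, ← mul_assoc, M.som_comm u]
  have h2 : M.psi u * d = u - 1 := by
    apply h.mul_left_cancel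
    rw [← mul_assoc, h1, sub_mul, mul_sub, hdu, one_mul, mul_one]
  have h3 : u * star d = d := by
    rw [hd, star_add, star_mul, star_star, mul_add, ← mul_assoc, hu.2, one_mul, M.som_comm,
      add_comm]
  have h4 := congrArg (fun z => u * star z) h2
  simp only [star_mul, star_sub, star_one] at h4
  rw [← mul_assoc, h3, mul_sub, hu.2, mul_one] at h4
  rw [mem_Sk]
  apply h.mul_left_cancel
  rw [h4, mul_neg, h1, neg_sub]

theorem eq_cay {u : E} (h : IsUnit (M.om + star M.om * u))
    (h' : IsUnit (1 - star M.om * M.psi u)) : u = M.cay (M.psi u) := by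
  have h1 : (M.om + star M.om * u) * M.psi u = u - 1 := by
    rw [psi, ← mul_assoc, Ring.mul_inverse_cancel _ h, one_mul]
  apply h'.mul_right_cancel
  rw [M.cay_mul h', mul_sub, mul_one, ← mul_assoc, ← M.som_comm, sub_eq_iff_eq_add, add_assoc,
    ← add_mul, h1]
  abel

theorem psi_cay {x : E} (h : IsUnit (1 - star M.om * x)) :
    IsUnit (M.om + star M.om * M.cay x) ∧ M.psi (M.cay x) = x := by
  have h1 : (M.om + star M.om * M.cay x) * (1 - star M.om * x) = 1 := by
    rw [add_mul, mul_assoc, M.cay_mul h, mul_sub, mul_add, mul_one, mul_one, ← mul_assoc,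
      ← mul_assoc, M.om_comm (star M.om)]
    rw [sub_add_add_cancel, M.om_add]
  have := M.dedekind
  have h2 := mul_eq_one_comm.1 h1
  have hu : IsUnit (M.om + star M.om * M.cay x) := ⟨⟨_, _, h1, h2⟩, rfl⟩
  refine ⟨hu, ?_⟩
  have h3 : Ring.inverse (M.om + star M.om * M.cay x) = 1 - star M.om * x := by
    apply hu.mul_left_cancel
    rw [h1, Ring.mul_inverse_cancel _ hu]
  have h4 : (1 - star M.om * x) * x = x * (1 - star M.om * x) := by
    rw [sub_mul, mul_sub, ← mul_assoc, ← M.som_comm]
    simp
  rw [psi, h3]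
  apply h.mul_right_cancel
  rw [mul_assoc, sub_mul (M.cay x), M.cay_mul h, one_mul, ← h4]
  congr 1
  rw [add_sub_sub_cancel, ← add_mul, M.om_add, one_mul]

theorem det_cay {x : E} (h : IsUnit (1 - star M.om * x)) (hd : (M.f (M.cay x)).det = 1) :
    (1 + M.w • M.f x).det = (1 + (M.w - 1) • M.f x).det := by
  have := congrArg (fun z => (M.f z).det) (M.cay_mul h)
  simp only [map_mul, Matrix.det_mul, hd, one_mul, map_sub, map_add, map_one, M.f_om,
    M.f_som, smul_mul_assoc] at this
  rw [← this, sub_eq_add_neg, ← neg_smul, neg_sub]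

end alg

variable {F E Ω : Type*} [NontriviallyNormedField F] [NormedRing E] [StarRing E]
  [NormedAlgebra F E] [Field Ω] [Algebra F Ω] {n : ℕ} (M : Mdl F E Ω n) [CompleteSpace F]

include M in
theorem complete : CompleteSpace E := by
  have := M.fd
  exact FiniteDimensional.complete F E

include M in
theorem contStar : ContinuousStar E := ⟨M.cont_star⟩

/-- The involution as a continuous linear map. -/
noncomputable def stL : E →L[F] E := ⟨M.st, M.cont_star⟩

theorem stL_apply (x : E) : M.stL x = star x := rfl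

include M in
theorem ev_unit {Y : Type*} [TopologicalSpace Y] {u : Y → E} {y : Y} (hu : ContinuousAt u y)
    (h : IsUnit (u y)) : ∀ᶠ z in 𝓝 y, IsUnit (u z) := by
  have := M.complete
  exact hu.eventually (Units.isOpen.mem_nhds h)

theorem ev_den : ∀ᶠ x in 𝓝 (0 : E), IsUnit (1 - star M.om * x) :=
  M.ev_unit (by fun_prop) (by simp)

theorem ev_den' : ∀ᶠ u in 𝓝 (1 : E), IsUnit (M.om + star M.om * u) :=
  M.ev_unit (by fun_prop) (by simp [M.om_add])

include M in
theorem contAt_inverse {x : E} (h : IsUnit x) : ContinuousAt Ring.inverse x := by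
  have := M.complete
  obtain ⟨u, rfl⟩ := h
  exact NormedRing.inverse_continuousAt u

theorem contAt_cay {x : E} (h : IsUnit (1 - star M.om * x)) : ContinuousAt M.cay x :=
  ContinuousAt.mul (by fun_prop)
    (ContinuousAt.comp (f := fun x => 1 - star M.om * x) (M.contAt_inverse h) (by fun_prop))

theorem contAt_psi {u : E} (h : IsUnit (M.om + star M.om * u)) : ContinuousAt M.psi u :=
  ContinuousAt.mul
    (ContinuousAt.comp (f := fun u => M.om + star M.om * u) (M.contAt_inverse h) (by fun_prop))
    (by fun_prop)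

theorem deriv_cay : HasStrictFDerivAt M.cay (ContinuousLinearMap.id F E) 0 := by
  have := M.complete
  have h1 : HasStrictFDerivAt (fun x : E => 1 + M.om * x) (ContinuousLinearMap.mul F E M.om) 0 :=
    (ContinuousLinearMap.mul F E M.om).hasStrictFDerivAt.const_add 1
  have h2 : HasStrictFDerivAt (fun x : E => 1 - star M.om * x)
      (-ContinuousLinearMap.mul F E (star M.om)) 0 :=
    (ContinuousLinearMap.mul F E (star M.om)).hasStrictFDerivAt.const_sub 1
  have h3 := hasStrictFDerivAt_ringInverse (𝕜 := F) (1 : Eˣ)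
  have h4 : ((1 : Eˣ) : E) = (fun x : E => 1 - star M.om * x) 0 := by simp
  rw [h4] at h3
  have h5 := h1.fun_mul' (h3.comp 0 h2)
  refine HasStrictFDerivAt.congr_fderiv h5 ?_
  ext x
  simp [← add_mul, add_comm (star M.om), M.om_add]

theorem deriv_psi : HasStrictFDerivAt M.psi (ContinuousLinearMap.id F E) 1 := by
  have := M.complete
  have h1 : HasStrictFDerivAt (fun u : E => u - 1) (ContinuousLinearMap.id F E) 1 :=
    (hasStrictFDerivAt_id 1).sub_const 1
  have h2 : HasStrictFDerivAt (fun u : E => M.om + star M.om * u)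
      (ContinuousLinearMap.mul F E (star M.om)) 1 :=
    (ContinuousLinearMap.mul F E (star M.om)).hasStrictFDerivAt.const_add _
  have h3 := hasStrictFDerivAt_ringInverse (𝕜 := F) (1 : Eˣ)
  have h4 : ((1 : Eˣ) : E) = (fun u : E => M.om + star M.om * u) 1 := by simp [M.om_add]
  rw [h4] at h3
  have h5 := (h3.comp 1 h2).fun_mul' h1
  refine HasStrictFDerivAt.congr_fderiv h5 ?_
  ext x
  simp [M.om_add]

/-- The path of the Cayley transforms of the multiples of an element. -/
theorem deriv_cay_smul (y : E) : HasStrictDerivAt (fun t : F => M.cay (t • y)) y 0 := by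
  have h1 : HasStrictDerivAt (fun t : F => t • y) y 0 := by
    simpa using (hasStrictDerivAt_id (0 : F)).smul_const y
  have h2 := M.deriv_cay
  rw [← zero_smul F y] at h2
  exact h2.comp_hasStrictDerivAt (0 : F) h1

theorem ev_cay_smul {y : E} (hy : y ∈ M.Sk) :
    ∀ᶠ t : F in 𝓝 0, M.cay (t • y) ∈ unitary E := by
  have h1 : ContinuousAt (fun t : F => t • y) 0 := by fun_prop
  have h2 := M.ev_den
  rw [← zero_smul F y] at h2
  filter_upwards [h1.eventually h2] with t ht using M.cay_mem (M.Sk.smul_mem t hy) ht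

include M in
theorem deriv_star {γ : F → E} {y : E} {t : F} (h : HasStrictDerivAt γ y t) :
    HasStrictDerivAt (fun s => star (γ s)) (star y) t :=
  M.stL.hasStrictFDerivAt.comp_hasStrictDerivAt t h

include M in
/-- The derivative of a path in a subspace lies in the subspace. -/
theorem deriv_mem {W : Submodule F E} {γ : F → E} {y : E} (h : HasStrictDerivAt γ y 0)
    (hW : ∀ᶠ t in 𝓝 0, γ t ∈ W) : y ∈ W := by
  have := M.fd
  have h1 := hasDerivAt_iff_tendsto_slope.1 h.hasDerivAt
  refine W.closed_of_finiteDimensional.mem_of_tendsto h1 ?_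
  filter_upwards [nhdsWithin_le_nhds hW] with t ht
  rw [slope_def_module]
  exact W.smul_mem _ (W.sub_mem ht hW.self_of_nhds)

/-- The derivative at one of a path of unitary elements is skew. -/
theorem deriv_skew {γ : F → E} {y : E} (h : HasStrictDerivAt γ y 0) (h0 : γ 0 = 1)
    (hu : ∀ᶠ t in 𝓝 0, γ t ∈ unitary E) : y ∈ M.Sk := by
  have h1 := (M.deriv_star h).fun_mul h
  have h2 : (fun _ : F => (1 : E)) =ᶠ[𝓝 0] fun t => star (γ t) * γ t :=
    hu.mono fun t ht => ht.1.symm
  have h3 := (h1.hasDerivAt.congr_of_eventuallyEq h2).unique (hasDerivAt_const _ _)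
  rw [h0, star_one, mul_one, one_mul] at h3
  exact eq_neg_of_add_eq_zero_left h3

/-- A subspace stable under conjugation by a path is stable under the bracket. -/
theorem ad_mem {W : Submodule F E} {γ : F → E} {y : E} (h : HasStrictDerivAt γ y 0)
    (h0 : γ 0 = 1) (hy : y ∈ M.Sk) {z : E} (hW : ∀ᶠ t in 𝓝 0, γ t * z * star (γ t) ∈ W) :
    y * z - z * y ∈ W := by
  have h1 := (h.mul_const z).fun_mul (M.deriv_star h)
  have := M.deriv_mem h1 hW
  rwa [h0, star_one, mul_one, one_mul, show star y = -y from hy, mul_neg,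
    ← sub_eq_add_neg] at this

end Mdl

end Vale.Agent.P011NC
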