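import Vale.Agent.P011NC.Adel

/-! Closures of subgroups in the products of finitely many completions. -/

namespace Vale.Agent.P011NC

open Module Topology Filter
open scoped commutatorElement

namespace Adel

variable {k A Ω : Type} [Field k] [Ring A] [StarRing A] [Algebra k A] [Field Ω]
  [Algebra k Ω] {n : ℕ} {P : Type} {F E Om : P → Type} [∀ v, NontriviallyNormedField (F v)]
  [∀ v, NormedRing (E v)] [∀ v, StarRing (E v)] [∀ v, NormedAlgebra (F v) (E v)]
  [∀ v, Field (Om v)] [∀ v, Algebra (F v) (Om v)] (H : Adel k A Ω n F E Om)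

/-- The group generated by the Cayley transforms. -/
def Uc : Subgroup (unitary A) := Subgroup.closure {g | ∃ x ∈ H.M.Sk, (g : A) = H.M.cay x}

/-- Its commutator subgroup. -/
def Cm : Subgroup (unitary A) := ⁅H.Uc, H.Uc⁆

theorem Cm_le : H.Cm ≤ H.M.SU := Subgroup.commutator_le.2 fun a _ b _ => H.M.comm_mem_SU a b

theorem Cm_conj : ∀ a ∈ H.Uc, ∀ x ∈ H.Cm, a * x * a⁻¹ ∈ H.Cm := fun a ha x hx => by
  have h : H.Cm.map (MulAut.conj a).toMonoidHom ≤ H.Cm := by
    have h1 : H.Uc.map (MulAut.conj a).toMonoidHom ≤ H.Uc := by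
      rintro _ ⟨y, hy, rfl⟩
      exact H.Uc.mul_mem (H.Uc.mul_mem ha hy) (H.Uc.inv_mem ha)
    rw [Cm, Subgroup.map_commutator]
    exact Subgroup.commutator_mono h1 h1
  exact h ⟨x, hx, rfl⟩

/-- The product of the special unitary groups. -/
def SUS (S : Finset P) : Subgroup (∀ v : S, unitary (E v)) :=
  Subgroup.pi Set.univ fun v => (H.L v).SU

theorem mem_SUS {S : Finset P} {g : ∀ v : S, unitary (E v)} :
    g ∈ H.SUS S ↔ ∀ v : S, g v ∈ (H.L v).SU := by simp [SUS, Subgroup.mem_pi]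

theorem pU_SUS (S : Finset P) {g : unitary A} (hg : g ∈ H.M.SU) : H.pU S g ∈ H.SUS S :=
  H.mem_SUS.2 fun v => H.jU_SU v hg

variable [∀ v, ContinuousStar (E v)]

/-- The closure of the image. -/
def cl (S : Finset P) (X : Subgroup (unitary A)) : Subgroup (∀ v : S, unitary (E v)) :=
  (X.map (H.pU S)).topologicalClosure

theorem mem_cl {S : Finset P} {X : Subgroup (unitary A)} {g : unitary A} (hg : g ∈ X) :
    H.pU S g ∈ H.cl S X := Subgroup.le_topologicalClosure _ ⟨g, hg, rfl⟩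

theorem cl_conj (S : Finset P) {X Y : Subgroup (unitary A)}
    (h : ∀ a ∈ X, ∀ y ∈ Y, a * y * a⁻¹ ∈ Y) :
    ∀ a ∈ H.cl S X, ∀ y ∈ H.cl S Y, a * y * a⁻¹ ∈ H.cl S Y := clos_conj <| by
  rintro _ ⟨a, ha, rfl⟩ _ ⟨y, hy, rfl⟩
  exact ⟨_, h a ha y hy, by simp⟩

theorem cl_comm (S : Finset P) {a b : ∀ v : S, unitary (E v)} (ha : a ∈ H.cl S H.Uc)
    (hb : b ∈ H.cl S H.Uc) : ⁅a, b⁆ ∈ H.cl S H.Cm := by
  rw [cl, Cm, Subgroup.map_commutator]
  exact clos_comm ha hb

variable [∀ v, ProperSpace (F v)]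

theorem cl_le {S : Finset P} {X : Subgroup (unitary A)} (h : X ≤ H.M.SU) : H.cl S X ≤ H.SUS S := by
  refine Subgroup.topologicalClosure_minimal _ ?_ ?_
  · rintro _ ⟨g, hg, rfl⟩
    exact H.pU_SUS S (h hg)
  · exact isClosed_set_pi fun v _ => (H.L v).isClosed_SU

/-- Weak approximation in the domain of the Cayley chart. -/
theorem mem_cl_Uc {S : Finset P} {g : ∀ v : S, unitary (E v)}
    (hg : ∀ v : S, IsUnit ((H.L v).om + star (H.L v).om * g v)) : g ∈ H.cl S H.Uc := by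
  classical
  choose a ha using fun m : ℕ => H.wa S
    (fun w => if h : w ∈ S then (H.L w).psi (g ⟨w, h⟩) else 0) _ (Nat.one_div_pos_of_nat (n := m))
  have hb := fun m => H.M.proj_mem (a m)
  refine mem_closure_of_tendsto (b := atTop) (f := fun m => H.pU S
    ⟨_, H.M.cay_mem (hb m) (H.M.den_aniso H.aniso (hb m))⟩) ?_
    (.of_forall fun m => ⟨_, Subgroup.subset_closure ⟨_, hb m, rfl⟩, rfl⟩)
  refine tendsto_pi_nhds.2 fun v => tendsto_subtype_rng.2 ?_
  have h1 : Tendsto (fun m => H.j v (a m)) atTop (𝓝 ((H.L v).psi (g v))) := by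
    refine tendsto_iff_norm_sub_tendsto_zero.2 (squeeze_zero (fun _ => norm_nonneg _)
      (fun m => ?_) tendsto_one_div_add_atTop_nhds_zero_nat)
    simpa using (ha m v v.2).le
  have h2 := (h1.const_mul (H.L v).om).sub (h1.star.const_mul (star (H.L v).om))
  rw [(H.L v).proj_eq ((H.L v).psi_mem (g v).2 (hg v))] at h2
  have h3 := ((H.L v).contAt_cay ((H.L v).den_psi (hg v))).tendsto.comp h2
  rw [← (H.L v).eq_cay (hg v) ((H.L v).den_psi (hg v))] at h3
  refine h3.congr fun m => ?_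
  change _ = H.j v (H.M.cay _)
  rw [H.j_cay v (hb m), map_sub, map_mul, map_mul, H.j_star, H.j_star, H.j_om]
  rfl

variable [DecidableEq P]

/-- The inclusion of a factor. -/
def sg {S : Finset P} (v : S) : unitary (E v) →* ∀ v : S, unitary (E v) :=
  MonoidHom.mulSingle (fun v : S => unitary (E v)) v

omit [∀ v, ContinuousStar (E v)] [∀ v, ProperSpace (F v)] in
theorem sg_same {S : Finset P} (v : S) (g : unitary (E v)) : sg v g v = g :=
  Pi.mulSingle_eq_same (M := fun v : S => unitary (E v)) v g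

omit [∀ v, ContinuousStar (E v)] [∀ v, ProperSpace (F v)] in
theorem sg_ne {S : Finset P} {v w : S} (h : w ≠ v) (g : unitary (E v)) : sg v g w = 1 :=
  Pi.mulSingle_eq_of_ne (M := fun v : S => unitary (E v)) h g

omit [∀ v, ContinuousStar (E v)] [∀ v, ProperSpace (F v)] in
theorem cont_sg {S : Finset P} (v : S) : Continuous (sg (E := E) v) :=
  continuous_mulSingle (A := fun v : S => unitary (E v)) v

/-- The part of the closure at one place. -/
def loc (S : Finset P) (X : Subgroup (unitary A)) (v : S) : Subgroup (unitary (E v)) :=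
  (H.cl S X).comap (sg v)

theorem mem_loc_Uc {S : Finset P} {v : S} {u : unitary (E v)}
    (hu : IsUnit ((H.L v).om + star (H.L v).om * u)) : u ∈ H.loc S H.Uc v :=
  H.mem_cl_Uc fun w => by
    by_cases h : w = v
    · subst h
      rwa [sg_same]
    · simp [sg_ne h, (H.L w).om_add]

theorem ev_loc_Uc (S : Finset P) (v : S) : ∀ᶠ g in 𝓝 1, g ∈ H.loc S H.Uc v :=
  ((continuous_subtype_val.tendsto' (1 : unitary (E v)) 1 rfl).eventually (H.L v).ev_den').mono
    fun _ h => H.mem_loc_Uc h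

theorem Gp_le_loc_Uc (S : Finset P) (v : S) : Gp (E v) ≤ H.loc S H.Uc v := Gp_le fun x hx => by
  refine H.mem_loc_Uc ?_
  have e : ∀ c : E v, x * c = c * x → (1 + c * x) * (1 - c * x) = 1 := fun c hc => by
    rw [add_mul, mul_sub, mul_sub, mul_assoc c x (c * x), ← mul_assoc x, hc, mul_assoc c x x, hx.2]
    simp
  have := (H.L v).dedekind
  have e' := e _ ((H.L v).som_comm x).symm
  rw [un_val, mul_add, mul_one, ← add_assoc, (H.L v).om_add]
  exact ⟨⟨_, _, e', mul_eq_one_comm.1 e'⟩, rfl⟩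

theorem jU_Uc {S : Finset P} (v : S) {g : unitary A} (hg : g ∈ H.Uc) :
    H.jU v g ∈ H.loc S H.Uc v := by
  refine ((Subgroup.closure_le ((H.loc S H.Uc v).comap (H.jU v))).2 ?_) hg
  rintro g ⟨x, hx, e⟩
  refine H.mem_loc_Uc ?_
  rw [jU_val, e, H.j_cay v hx]
  refine ((H.L v).psi_cay ?_).1
  have h := (H.M.den_aniso H.aniso hx).map (H.j v)
  rwa [map_sub, map_one, map_mul, H.j_star, H.j_om] at h

omit [∀ v, ProperSpace (F v)] in
theorem loc_conj {S : Finset P} (v : S) {X Y : Subgroup (unitary A)}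
    (h : ∀ a ∈ X, ∀ y ∈ Y, a * y * a⁻¹ ∈ Y) :
    ∀ a ∈ H.loc S X v, ∀ y ∈ H.loc S Y v, a * y * a⁻¹ ∈ H.loc S Y v := fun a ha y hy => by
  simpa [loc] using H.cl_conj S h _ ha _ hy

omit [∀ v, ProperSpace (F v)] in
theorem loc_comm {S : Finset P} (v : S) {a b : unitary (E v)} (ha : a ∈ H.loc S H.Uc v)
    (hb : b ∈ H.loc S H.Uc v) : ⁅a, b⁆ ∈ H.loc S H.Cm v := by
  simpa [loc, map_commutatorElement] using H.cl_comm S ha hb

/-- Closed subgroups which are open and contain the unipotent elements. -/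
structure Big {S : Finset P} (X : Subgroup (∀ v : S, unitary (E v))) : Prop where
  closed : IsClosed (X : Set (∀ v : S, unitary (E v)))
  le : X ≤ H.SUS S
  op : ∀ v : S, ∀ᶠ g in 𝓝 1, g ∈ (H.L v).SU → g ∈ X.comap (sg v)
  gp : ∀ v : S, Gp (E v) ≤ X.comap (sg v)

theorem big_Cm (S : Finset P) : H.Big (H.cl S H.Cm) := by
  have h : ∀ v : S, ∀ᶠ g in 𝓝 1, g ∈ (H.L v).SU → g ∈ H.loc S H.Cm v := fun v => by
    obtain ⟨a, ha, hx⟩ := (H.L v).exists_nc H.le (H.ev_loc_Uc S v)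
    exact (H.L v).open_of_comm H.le hx (H.ev_loc_Uc S v) (fun g hg _ => H.loc_comm v hg ha)
      fun g hg _ => H.loc_conj v H.Cm_conj g hg
  exact ⟨Subgroup.isClosed_topologicalClosure _, H.cl_le H.Cm_le, h, fun v =>
    (H.L v).Gp_le_of_open (h v) fun t ht => H.loc_conj v H.Cm_conj t (H.Gp_le_loc_Uc S v ht)⟩

theorem big_N (S : Finset P) {N : Subgroup (unitary A)} (hN : N ≤ H.M.SU)
    (h1 : ∀ a ∈ H.M.SU, ∀ x ∈ N, a * x * a⁻¹ ∈ N) {a : unitary A} (ha : a ∈ N) {x : A}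
    (hx : (a : A) * x ≠ x * a) : H.Big (H.cl S N) := by
  have h2 : ∀ a ∈ H.Cm, ∀ x ∈ N, a * x * a⁻¹ ∈ N := fun a ha => h1 a (H.Cm_le ha)
  have h : ∀ v : S, ∀ᶠ g in 𝓝 1, g ∈ (H.L v).SU → g ∈ H.loc S N v := fun v => by
    refine (H.L v).open_of_comm H.le (a := H.jU v a) ⟨H.j v x, fun e => hx (H.j_inj v ?_)⟩
      ((H.big_Cm S).op v) (fun g hg hg' => ?_) fun g hg hg' => H.loc_conj v h2 g (hg hg')
    · rw [map_mul, map_mul]
      exact e
    · have e : sg v ⁅g, H.jU v a⁆ = sg v g * H.pU S a * (sg v g)⁻¹ * (H.pU S a)⁻¹ := by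
        funext w
        by_cases h : w = v
        · subst h
          simp [sg_same, pU_apply, commutatorElement_def]
        · simp [sg_ne h]
      change sg v _ ∈ H.cl S N
      rw [e]
      exact mul_mem (H.cl_conj S h2 _ (hg hg') _ (H.mem_cl ha)) (inv_mem (H.mem_cl ha))
  exact ⟨Subgroup.isClosed_topologicalClosure _, H.cl_le hN, h, fun v =>
    (H.L v).Gp_le_of_open (h v) fun t ht => H.loc_conj v h2 t ((H.big_Cm S).gp v ht)⟩

omit [∀ v, ContinuousStar (E v)] in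
theorem cocS (S : Finset P) : ∃ T : Set (∀ v : S, unitary (E v)), T.Finite ∧
    (∀ t ∈ T, ∃ v : S, ∃ g ∈ Gp (E v), t = sg v g) ∧ ∃ C : Set (∀ v : S, unitary (E v)),
      IsCompact C ∧ C ⊆ H.SUS S ∧ ∀ g ∈ H.SUS S, ∃ t ∈ Subgroup.closure T, t * g ∈ C := by
  choose T h1 h2 C h3 h4 h5 using fun v : S => (H.L v).cocompact (by have := H.le; omega)
  refine ⟨⋃ v, sg v '' T v, Set.finite_iUnion fun v => (h1 v).image _, ?_, Set.pi Set.univ C,
    isCompact_univ_pi h3, fun g hg => H.mem_SUS.2 fun v => h4 v (hg v trivial), fun g hg => ?_⟩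
  · intro t ht
    obtain ⟨v, g, hg, rfl⟩ := Set.mem_iUnion.1 ht
    exact ⟨v, g, h2 v hg, rfl⟩
  · choose t h6 h7 using fun v => h5 v (g v) (H.mem_SUS.1 hg v)
    refine ⟨t, Subgroup.pi_mem_of_mulSingle_mem t fun v => ?_, fun v _ => h7 v⟩
    have := Subgroup.mem_map_of_mem (sg v) (h6 v)
    rw [MonoidHom.map_closure] at this
    exact Subgroup.closure_mono (Set.subset_iUnion (fun v => sg v '' T v) v) this

variable {H} {S : Finset P} {X : Subgroup (∀ v : S, unitary (E v))}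

omit [∀ v, ContinuousStar (E v)] [∀ v, ProperSpace (F v)] in
theorem Big.ev (h : H.Big X) : ∀ᶠ g in 𝓝 1, g ∈ H.SUS S → g ∈ X :=
  (eventually_all.2 fun v : S => ((continuous_apply v).tendsto' 1 1 rfl).eventually (h.op v)).mono
    fun g hg hg' => Subgroup.pi_mem_of_mulSingle_mem g fun v => hg v (H.mem_SUS.1 hg' v)

theorem Big.relIndex (h : H.Big X) : X.relIndex (H.SUS S) ≠ 0 := by
  obtain ⟨T, -, h2, C, h3, h4, h5⟩ := H.cocS S
  refine relIndex_ne_zero_of_coc h.ev h3 h4 fun g hg => (h5 g hg).imp fun t ht => ⟨?_, ht.2⟩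
  refine (Subgroup.closure_le X).2 (fun t ht => ?_) ht.1
  obtain ⟨v, g, hg, rfl⟩ := h2 t ht
  exact h.gp v hg

omit [∀ v, ContinuousStar (E v)] in
theorem Big.gen (h : H.Big X) :
    ∃ W : Set (∀ v : S, unitary (E v)), IsCompact W ∧ Subgroup.closure W = X := by
  obtain ⟨T, h1, h2, C, h3, -, h5⟩ := H.cocS S
  refine gen_of_coc h.closed h1 (fun t ht => ?_) h3 fun g hg => h5 g (h.le hg)
  obtain ⟨v, g, hg, rfl⟩ := h2 t ht
  exact h.gp v hg

omit [∀ v, ContinuousStar (E v)] in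
theorem Big.hom (h : H.Big X) {χ : (∀ v : S, unitary (E v)) → ℝ} (h1 : ContinuousOn χ X)
    (h2 : ∀ x ∈ X, ∀ y ∈ X, χ (x * y) = χ x + χ y) : ∀ x ∈ X, χ x = 0 := by
  obtain ⟨T, -, h3, C, h4, -, h5⟩ := H.cocS S
  have h0 : χ 1 = 0 := by simpa using h2 1 X.one_mem 1 X.one_mem
  have h6 : ∀ t ∈ Subgroup.closure T, t ∈ X ∧ χ t = 0 := fun t ht => by
    induction ht using Subgroup.closure_induction with
    | mem t ht =>
      obtain ⟨v, g, hg, rfl⟩ := h3 t ht
      refine ⟨h.gp v hg, (H.L v).char_Gp (χ := fun g => χ (sg v g)) (fun a ha b hb => ?_) ?_ g hg⟩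
      · rw [map_mul, h2 _ (h.gp v ha) _ (h.gp v hb)]
      · exact (h1.comp (cont_sg v).continuousOn fun a ha => h.gp v ha) 1 (Gp _).one_mem
    | one => exact ⟨X.one_mem, h0⟩
    | mul a b _ _ ha hb => exact ⟨X.mul_mem ha.1 hb.1, by rw [h2 a ha.1 b hb.1, ha.2, hb.2, add_zero]⟩
    | inv a _ ha =>
      have := h2 a ha.1 a⁻¹ (X.inv_mem ha.1)
      exact ⟨X.inv_mem ha.1, by simpa [h0, ha.2] using this.symm⟩
  exact char_of_coc h.closed (fun t ht => (h6 t ht).1) h4 (fun g hg => h5 g (h.le hg)) h1 h2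
    fun t ht => (h6 t ht).2

end Adel

end Vale.Agent.P011NC
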