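import Vale.Agent.P011.H544.Coco

/-! Cocompactness of the unitary group of an anisotropic order, without determinants. -/

namespace Vale.Agent.P011NC

open Set MeasureTheory MeasureTheory.Measure Topology Filter
open scoped Pointwise

variable {E : Type*} [Ring E] [StarRing E] [TopologicalSpace E] [IsTopologicalRing E]
  [ContinuousStar E] [T2Space E]

/-- The hypotheses on an anisotropic order. -/
structure ALat (Lam : Subring E) (τ τ' : E) : Prop where
  star_mem : ∀ a ∈ Lam, star a ∈ Lam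
  disc : ∀ K : Set E, IsCompact K → (K ∩ (Lam : Set E)).Finite
  coc : ∃ K : Set E, IsCompact K ∧ ∀ x : E, ∃ a ∈ Lam, x - a ∈ K
  aniso : ∀ a ∈ Lam, star a * a = 0 → a = 0
  unit : ∀ᶠ x in 𝓝 (1 : E), IsUnit x
  mem : τ ∈ Lam
  comm : ∀ x, τ * x = x * τ
  inv : τ * τ' = 1
  exp : ∀ C : Set E, IsCompact C → ∀ V ∈ 𝓝 (0 : E), ∃ m : ℕ, ∀ x ∈ C, τ' ^ m * x ∈ V

variable {Lam : Subring E} {τ τ' : E}

omit [IsTopologicalRing E] [ContinuousStar E] [T2Space E] in
theorem ALat.pow_inv (H : ALat Lam τ τ') (m : ℕ) : τ ^ m * τ' ^ m = 1 := by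
  have : Commute τ τ' := H.comm τ'
  rw [← this.mul_pow, H.inv, one_pow]

omit [ContinuousStar E] [T2Space E] in
theorem ALat.countable [LocallyCompactSpace E] (H : ALat Lam τ τ') : Countable Lam := by
  obtain ⟨W, hW, hW0⟩ := exists_compact_mem_nhds (0 : E)
  have : (Lam : Set E).Countable := by
    refine (countable_iUnion fun m : ℕ => (H.disc _
      (hW.image (continuous_const_mul (τ ^ m)))).countable).mono fun a ha => ?_
    obtain ⟨m, hm⟩ := H.exp {a} isCompact_singleton W hW0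
    exact mem_iUnion.2 ⟨m, ⟨_, hm a rfl, by simp only [← mul_assoc, H.pow_inv, one_mul]⟩, ha⟩
  exact this

theorem ALat.small [LocallyCompactSpace E] (H : ALat Lam τ τ') : ∃ V ∈ 𝓝 (0 : E), IsCompact V ∧
    ∀ y ∈ unitary E, ∀ a ∈ Lam, ∀ v ∈ V, ∀ v' ∈ V, v - v' = y * a → a = 0 := by
  obtain ⟨W, hW, hW0⟩ := exists_compact_mem_nhds (0 : E)
  have h1 : W ∩ ((W ∩ (Lam : Set E)) \ {0})ᶜ ∈ 𝓝 (0 : E) := inter_mem hW0
    (((H.disc W hW).subset sdiff_subset).isClosed.compl_mem_nhds fun h => h.2 rfl)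
  have h2 : Continuous fun p : E × E => star (p.1 - p.2) * (p.1 - p.2) := by fun_prop
  have h3 := (h2.tendsto' (0, 0) 0 (by simp)).eventually h1
  obtain ⟨V1, hV1, V2, hV2, h4⟩ := mem_nhds_prod_iff.1 h3
  obtain ⟨V, hV, hVs, hVc⟩ := local_compact_nhds (inter_mem hV1 hV2)
  refine ⟨V, hV, hVc, fun y hy a ha v hv v' hv' e => H.aniso a ha ?_⟩
  have h5 := h4 (mk_mem_prod (hVs hv).1 (hVs hv').2)
  simp only [mem_ofPred_eq, e, star_mul] at h5
  rw [mul_assoc, ← mul_assoc (star y), hy.1, one_mul] at h5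
  by_contra h0
  exact h5.2 ⟨⟨h5.1, Lam.mul_mem (H.star_mem a ha) ha⟩, h0⟩

/-- The covering radius of the lattices `x Lam`, `x` unitary, is bounded. -/
theorem ALat.cover [LocallyCompactSpace E] (H : ALat Lam τ τ') : ∃ C : Set E, IsCompact C ∧
    ∀ x ∈ unitary E, ∀ p : E, ∃ a ∈ Lam, p - x * a ∈ C := by
  classical
  borelize E
  let μ : Measure E := addHaar
  have : Countable Lam.toAddSubgroup := H.countable
  obtain ⟨K, hK, hcov⟩ := H.coc
  obtain ⟨V, hV, hVc, hVs⟩ := H.small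
  have hV0 : (0 : E) ∈ V := mem_of_mem_nhds hV
  have hpos : μ V ≠ 0 := (measure_pos_of_mem_nhds μ hV).ne'
  have hm : ∀ (x : E) (S : Set E), IsClosed S → MeasurableSet ((fun z => x * z) ⁻¹' S) :=
    fun x S hS => (hS.preimage (continuous_const_mul x)).measurableSet
  have up : ∀ y ∈ unitary E, μ ((fun z => y * z) ⁻¹' V) ≤ μ K := fun y hy => by
    by_contra hc
    obtain ⟨a, ha, ha0, s, hs, t, ht, e⟩ := P011.H544.blich μ Lam.toAddSubgroup hK hcov
      (hm y V hVc.isClosed) (not_le.1 hc)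
    exact ha0 (hVs y hy a ha _ hs _ ht (by rw [← e, mul_sub]))
  have low : ∀ x ∈ unitary E, μ V * μ V ≤ μ ((fun z => x * z) ⁻¹' V) * μ K := fun x hx => by
    let e : E ≃+ E :=
      { toFun := fun z => x * z
        invFun := fun z => star x * z
        left_inv := fun z => by simp only [← mul_assoc, hx.1, one_mul]
        right_inv := fun z => by simp only [← mul_assoc, hx.2, one_mul]
        map_add' := mul_add x }
    have := e.isAddHaarMeasure_map μ (continuous_const_mul x) (continuous_const_mul (star x))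
    have hV' : (fun z => star x * z) ⁻¹' V = (fun z => x * z) '' V := by
      ext z
      exact ⟨fun h => ⟨_, h, e.right_inv z⟩, fun ⟨v, hv, h⟩ => by
        rw [← h, mem_preimage, show star x * (x * v) = v from e.left_inv v]
        exact hv⟩
    have hc' : IsCompact ((fun z => star x * z) ⁻¹' V) := hV' ▸ hVc.image (continuous_const_mul x)
    have a1 := measure_isAddInvariant_eq_smul_of_isCompact_closure (map e μ) μ
      (s := V) (by rwa [hVc.isClosed.closure_eq])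
    have a2 := measure_isAddInvariant_eq_smul_of_isCompact_closure (map e μ) μ
      (s := (fun z => star x * z) ⁻¹' V) (by rwa [hc'.isClosed.closure_eq])
    have hme : Measurable e := (continuous_const_mul x).measurable
    rw [map_apply hme hVc.measurableSet] at a1
    rw [map_apply hme hc'.measurableSet] at a2
    have a3 : e ⁻¹' ((fun z => star x * z) ⁻¹' V) = V := by
      ext z
      change star x * (x * z) ∈ V ↔ _
      rw [show star x * (x * z) = z from e.left_inv z]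
    rw [a3] at a2
    have a4 : μ ((fun z => x * z) ⁻¹' V) = _ := a1
    calc μ V * μ V = μ ((fun z => x * z) ⁻¹' V) * μ ((fun z => star x * z) ⁻¹' V) := by
          rw [a4]
          nth_rw 1 [a2]
          simp only [ENNReal.smul_def, smul_eq_mul]
          ring
      _ ≤ _ := mul_le_mul_right (up _ (Unitary.star_mem hx)) _
  obtain ⟨J, hJ⟩ : ∃ J : ℕ, μ K * μ K < J * (μ V * μ V) :=
    ENNReal.exists_nat_mul_gt (mul_ne_zero hpos hpos)
      (ENNReal.mul_ne_top hK.measure_lt_top.ne hK.measure_lt_top.ne)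
  let W : ℕ → Set E := fun m => Nat.rec (V - V) (fun _ X => (X + (V - V)) ∪ (fun z => τ * z) '' X) m
  have hWs : ∀ m, W (m + 1) = (W m + (V - V)) ∪ (fun z => τ * z) '' W m := fun m => rfl
  have hVV : IsCompact (V - V) := by
    rw [sub_eq_add_neg]
    exact hVc.add hVc.neg
  have hWc : ∀ m, IsCompact (W m) := fun m => by
    induction m with
    | zero => exact hVV
    | succ m ih => exact (ih.add hVV).union (ih.image (continuous_const_mul τ))
  have hWm : Monotone W := monotone_nat_of_le_succ fun m p hp =>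
    Or.inl ⟨p, hp, 0, ⟨0, hV0, 0, hV0, sub_zero 0⟩, add_zero p⟩
  refine ⟨W (2 * J), hWc _, fun x hx => ?_⟩
  obtain ⟨m, hmJ, hst⟩ : ∃ m ≤ 2 * J, ∀ p ∈ W (m + 1), ∃ a ∈ Lam, p - x * a ∈ W m := by
    by_contra hc
    push Not at hc
    choose! p hp hp' using hc
    have key : ∀ i < J, ∀ j < J, i ≠ j → ∀ a ∈ Lam, ∀ v ∈ V, ∀ v' ∈ V,
        p (2 * i) + v - (p (2 * j) + v') ≠ x * a := by
      have k1 : ∀ i < J, ∀ j < i, ∀ a ∈ Lam, ∀ v ∈ V, ∀ v' ∈ V,
          p (2 * i) + v - (p (2 * j) + v') ≠ x * a := by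
        intro i hi j hj a ha v hv v' hv' e
        refine hp' (2 * i) (by omega) a ha (hWm (show 2 * j + 1 + 1 ≤ 2 * i by omega) ?_)
        exact Or.inl ⟨_, hp (2 * j) (by omega), v' - v, ⟨v', hv', v, hv, rfl⟩, by
          rw [← e]; simp only []; abel⟩
      intro i hi j hj hij a ha v hv v' hv' e
      rcases lt_or_gt_of_ne hij with h | h
      · refine k1 j hj i h (-a) (Lam.neg_mem ha) v' hv' v hv ?_
        rw [mul_neg, ← e, neg_sub]
      · exact k1 i hi j h a ha v hv v' hv' e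
    let S : ℕ → Set E := fun i => (fun z => x * z) ⁻¹' ((fun z => -p (2 * i) + z) ⁻¹' V)
    have hS : ∀ i, MeasurableSet (S i) := fun i =>
      hm x _ (hVc.isClosed.preimage (continuous_const_add _))
    have hSm : ∀ i, μ (S i) = μ ((fun z => x * z) ⁻¹' V) := fun i => by
      rw [← measure_preimage_add μ (-(star x * p (2 * i))) ((fun z => x * z) ⁻¹' V)]
      congr 1
      ext z
      simp only [S, mem_preimage, mul_add, mul_neg, ← mul_assoc, hx.2, one_mul]
    have hd : (Finset.range J : Set ℕ).PairwiseDisjoint S := fun i hi j hj hij => by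
      rw [Function.onFun, Set.disjoint_left]
      intro z h1 h2
      refine key i (by simpa using hi) j (by simpa using hj) hij 0 Lam.zero_mem _ h1 _ h2 ?_
      simp
    have hlt : μ K < μ (⋃ i ∈ Finset.range J, S i) := by
      rw [measure_biUnion_finset hd fun i _ => hS i]
      simp only [hSm, Finset.sum_const, Finset.card_range, nsmul_eq_mul]
      by_contra hc
      refine absurd hJ (not_lt.2 ?_)
      calc J * (μ V * μ V) ≤ J * (μ ((fun z => x * z) ⁻¹' V) * μ K) :=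
            mul_le_mul_right (low x hx) _
        _ ≤ _ := by rw [← mul_assoc]; exact mul_le_mul_left (not_lt.1 hc) _
    obtain ⟨a, ha, ha0, s, hs, t, ht, e⟩ := P011.H544.blich μ Lam.toAddSubgroup hK hcov
      (Finset.measurableSet_biUnion _ fun i _ => hS i) hlt
    simp only [mem_iUnion, Finset.mem_range] at hs ht
    obtain ⟨i, hi, hs⟩ := hs
    obtain ⟨j, hj, ht⟩ := ht
    by_cases hij : i = j
    · subst hij
      refine ha0 (hVs x hx a ha _ hs _ ht ?_)
      simp [← e, mul_sub]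
    · refine key i hi j hj hij a ha _ hs _ ht ?_
      simp [← e, mul_sub]
  have hB : ∀ (l : ℕ), ∀ v ∈ V, ∃ a ∈ Lam, τ ^ l * v - x * a ∈ W m := by
    intro l v hv
    induction l with
    | zero => exact ⟨0, Lam.zero_mem, hWm (Nat.zero_le m) ⟨v, hv, 0, hV0, by simp⟩⟩
    | succ l ih =>
      obtain ⟨a, ha, h⟩ := ih
      obtain ⟨b, hb, h'⟩ := hst _ (Or.inr ⟨_, h, rfl⟩)
      refine ⟨τ * a + b, Lam.add_mem (Lam.mul_mem H.mem ha) hb, ?_⟩
      convert h' using 1
      simp only []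
      rw [mul_add, mul_sub, ← mul_assoc x, ← H.comm x, pow_succ', mul_assoc, mul_assoc]
      abel
  intro q
  obtain ⟨l, hl⟩ := H.exp {q} isCompact_singleton V hV
  obtain ⟨a, ha, h⟩ := hB l _ (hl q rfl)
  rw [← mul_assoc, H.pow_inv, one_mul] at h
  exact ⟨a, ha, hWm hmJ h⟩

theorem ALat.mink [LocallyCompactSpace E] (H : ALat Lam τ τ') : ∃ C : Set E, IsCompact C ∧
    ∀ x ∈ unitary E, ∃ a ∈ Lam, IsUnit a ∧ x * a ∈ C := by
  obtain ⟨C, hC, h⟩ := H.cover
  have h1 : Continuous fun v : E => 1 - v := by fun_prop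
  obtain ⟨m, hm⟩ := H.exp C hC _ ((h1.tendsto 0).eventually (by simpa using H.unit))
  refine ⟨(fun c => τ ^ m - c) '' C, hC.image (by fun_prop), fun x hx => ?_⟩
  obtain ⟨a, ha, e⟩ := h x hx (τ ^ m)
  refine ⟨a, ha, ?_, _, e, by simp⟩
  have h2 : IsUnit (1 - τ' ^ m * (τ ^ m - x * a)) := hm _ e
  have h3 : τ' ^ m * τ ^ m = 1 := by
    rw [← H.pow_inv m]
    exact ((show Commute τ τ' from H.comm τ').pow_pow m m).symm
  rw [mul_sub, h3, sub_sub_cancel] at h2
  have h4 : a = star x * (τ ^ m * (τ' ^ m * (x * a))) := by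
    rw [← mul_assoc (τ ^ m), H.pow_inv, one_mul, ← mul_assoc, hx.1, one_mul]
  rw [h4]
  exact IsUnit.mul ⟨⟨_, _, hx.1, hx.2⟩, rfl⟩ (IsUnit.mul ⟨⟨_, _, H.pow_inv m, h3⟩, rfl⟩ h2)

omit [ContinuousStar E] [T2Space E] in
theorem ALat.finite_mod (H : ALat Lam τ τ') {h : E} (hh : h ∈ Lam) (h0 : IsUnit h) :
    ∃ Z : Set E, Z.Finite ∧ ∀ l ∈ Lam, ∃ z ∈ Z, ∃ m ∈ Lam, l = z + m * h := by
  obtain ⟨K, hK, hcov⟩ := H.coc
  obtain ⟨u, hu⟩ := h0
  refine ⟨((fun z => z * h) '' K) ∩ (Lam : Set E),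
    H.disc _ (hK.image (continuous_mul_const h)), fun l hl => ?_⟩
  obtain ⟨m, hm, hk⟩ := hcov (l * ↑u⁻¹)
  refine ⟨l - m * h, ⟨⟨_, hk, ?_⟩, Lam.sub_mem hl (Lam.mul_mem hm hh)⟩, m, hm, by abel⟩
  rw [← hu]
  simp [sub_mul]

omit [ContinuousStar E] [T2Space E] in
theorem ALat.finite_reps (H : ALat Lam τ τ') {F : Set E} (hF : F.Finite) :
    ∃ R : Set E, R.Finite ∧ (∀ r ∈ R, IsUnit r) ∧ ∀ a ∈ Lam, IsUnit a → star a * a ∈ F →
      ∃ r ∈ R, ∃ w ∈ Lam, w ∈ unitary E ∧ a = w * r := by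
  classical
  have hZ : ∀ h : E, ∃ Z : Set E, Z.Finite ∧ (h ∈ Lam → IsUnit h →
      ∀ l ∈ Lam, ∃ z ∈ Z, ∃ m ∈ Lam, l = z + m * h) := by
    intro h
    by_cases h1 : h ∈ Lam ∧ IsUnit h
    · obtain ⟨Z, hZ, h2⟩ := H.finite_mod h1.1 h1.2
      exact ⟨Z, hZ, fun _ _ => h2⟩
    · exact ⟨∅, finite_empty, fun h2 h3 => absurd ⟨h2, h3⟩ h1⟩
  choose Z hZf hZ using hZ
  set W : Set E := ⋃ h ∈ F, Z h with hW
  have hWf : W.Finite := hF.biUnion fun h _ => hZf h
  set good : Set E := {a | a ∈ Lam ∧ IsUnit a ∧ star a * a ∈ F} with hgood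
  let Φ : E → E × Set E := fun a => (star a * a, {z | z ∈ W ∧ ∃ m ∈ Lam, z = m * a})
  have hΦ : (Φ '' good).Finite := by
    refine (hF.prod hWf.finite_subsets).subset ?_
    rintro _ ⟨a, ha, rfl⟩
    exact ⟨ha.2.2, fun z hz => hz.1⟩
  obtain ⟨R, hRsub, hRf, hRim⟩ : ∃ R : Set E, R ⊆ good ∧ R.Finite ∧ Φ '' R = Φ '' good := by
    obtain ⟨R, hRs, hRb⟩ := Set.exists_subset_bijOn good Φ
    refine ⟨R, hRs, ?_, hRb.image_eq⟩
    exact Set.Finite.of_finite_image (hRb.image_eq ▸ hΦ) hRb.injOn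
  refine ⟨R, hRf, fun r hr => (hRsub hr).2.1, fun a ha ha0 haF => ?_⟩
  have hag : a ∈ good := ⟨ha, ha0, haF⟩
  obtain ⟨r, hr, hra⟩ : Φ a ∈ Φ '' R := hRim ▸ ⟨a, hag, rfl⟩
  have hrg := hRsub hr
  have e1 : star r * r = star a * a := congrArg Prod.fst hra
  have e2 : {z | z ∈ W ∧ ∃ m ∈ Lam, z = m * r} = {z | z ∈ W ∧ ∃ m ∈ Lam, z = m * a} :=
    congrArg Prod.snd hra
  obtain ⟨w, hw, haw⟩ : ∃ m ∈ Lam, a = m * r := by
    obtain ⟨z, hz, m, hm, hbz⟩ := hZ (star a * a) (Lam.mul_mem (H.star_mem a ha) ha)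
      (ha0.star.mul ha0) a ha
    have hzb : z = (1 - m * star a) * a := by
      rw [sub_mul, one_mul, mul_assoc]
      exact eq_sub_of_add_eq hbz.symm
    have h1 : z ∈ {z | z ∈ W ∧ ∃ m ∈ Lam, z = m * r} := e2 ▸
      ⟨mem_biUnion haF hz, _, Lam.sub_mem Lam.one_mem (Lam.mul_mem hm (H.star_mem a ha)), hzb⟩
    obtain ⟨-, m', hm', hz'⟩ := h1
    refine ⟨m' + m * star r, Lam.add_mem hm' (Lam.mul_mem hm (H.star_mem r hrg.1)), ?_⟩
    rw [add_mul, ← hz', mul_assoc, e1]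
    exact hbz
  have hsw : star w * w = 1 := by
    have h1 : star r * (star w * w) * r = star r * 1 * r := by
      have : star a * a = star r * (star w * w) * r := by
        conv_lhs => rw [haw]
        rw [star_mul]
        simp only [mul_assoc]
      rw [← this, ← e1, mul_one]
    exact hrg.2.1.star.mul_left_cancel (hrg.2.1.mul_right_cancel h1)
  have hwu : IsUnit w := by
    obtain ⟨u, hu⟩ := hrg.2.1
    have : w = a * ↑u⁻¹ := by rw [haw, ← hu, Units.mul_inv_cancel_right]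
    rw [this]
    exact ha0.mul (Units.isUnit _)
  refine ⟨r, hr, w, hw, ⟨hsw, hwu.mul_right_cancel ?_⟩, haw⟩
  rw [mul_assoc, hsw, mul_one, one_mul]

/-- **Cocompactness of the unitary group of an anisotropic order.** -/
theorem ALat.unitary_coc [LocallyCompactSpace E] (H : ALat Lam τ τ') :
    ∃ C : Set E, IsCompact C ∧ ∀ x ∈ unitary E, ∃ w ∈ Lam, w ∈ unitary E ∧ x * w ∈ C := by
  obtain ⟨C0, hC0, hmink⟩ := H.mink
  have hC1 : IsCompact ((fun p : E × E => star p.1 * p.2) '' (C0 ×ˢ C0)) :=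
    (hC0.prod hC0).image (by fun_prop)
  obtain ⟨R, hRf, hR, hrep⟩ := H.finite_reps (H.disc _ hC1)
  refine ⟨⋃ r ∈ R, (fun z => z * Ring.inverse r) '' C0,
    hRf.isCompact_biUnion fun r _ => hC0.image (continuous_mul_const _), fun x hx => ?_⟩
  obtain ⟨a, ha, ha0, hxa⟩ := hmink x hx
  have haF : star a * a ∈ ((fun p : E × E => star p.1 * p.2) '' (C0 ×ˢ C0)) ∩ (Lam : Set E) := by
    refine ⟨⟨(x * a, x * a), ⟨hxa, hxa⟩, ?_⟩, Lam.mul_mem (H.star_mem a ha) ha⟩
    simp only [star_mul]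
    rw [mul_assoc, ← mul_assoc (star x), hx.1, one_mul]
  obtain ⟨r, hr, w, hw, hw1, haw⟩ := hrep a ha ha0 haF
  refine ⟨w, hw, hw1, mem_biUnion hr ⟨x * a, hxa, ?_⟩⟩
  simp only
  rw [haw, ← mul_assoc, mul_assoc, Ring.mul_inverse_cancel _ (hR r hr), mul_one]

end Vale.Agent.P011NC
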