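import Vale.Agent.P011NC.Alg
import Mathlib.LinearAlgebra.Matrix.Charpoly.Coeff
import Mathlib.Analysis.Normed.Module.FiniteDimension
import Mathlib.Topology.Algebra.Star.Unitary
import Mathlib.Algebra.Polynomial.Roots

/-! The determinant of the splitting: expansion, continuity, the centre is finite. -/

namespace Vale.Agent.P011NC

open Matrix Module Topology Filter Polynomial

theorem det_expand {F E Ω ι : Type*} [Field F] [Ring E] [Algebra F E] [Field Ω] [Algebra F Ω]
    [Fintype ι] {n : ℕ} (f : E →ₐ[F] Matrix (Fin n) (Fin n) Ω) (b : Basis ι F E) (x : E) :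
    (f x).det = ∑ j : Fin n → ι, (∏ i, b.repr x (j i)) •
      (Matrix.of fun i => f (b (j i)) i).det := by
  classical
  have h1 : f x = fun i => ∑ l, algebraMap F Ω (b.repr x l) • f (b l) i := by
    conv_lhs => rw [← b.sum_repr x, map_sum]
    ext i m
    simp [Matrix.sum_apply, Finset.sum_apply, Algebra.smul_def, Matrix.algebraMap_eq_diagonal]
  change detRowAlternating (f x) = _
  rw [h1]
  have h2 := (detRowAlternating (n := Fin n) (R := Ω)).toMultilinearMap.map_sum
    (fun (i : Fin n) (l : ι) => algebraMap F Ω (b.repr x l) • f (b l) i)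
  refine h2.trans (Finset.sum_congr rfl fun j _ => ?_)
  rw [MultilinearMap.map_smul_univ, ← map_prod, algebraMap_smul]
  rfl

theorem eval_det_one_add {Ω : Type*} [Field Ω] {n : ℕ} (Y : Matrix (Fin n) (Fin n) Ω) (c : Ω) :
    ((1 + (X : Ω[X]) • Y.map C).det).eval c = (1 + c • Y).det := by
  have h1 := RingHom.map_det (evalRingHom c) (1 + (X : Ω[X]) • Y.map C)
  rw [coe_evalRingHom] at h1
  rw [h1]
  congr 1
  ext i j
  by_cases h : i = j <;> simp [h] <;> ring

namespace Mdl

section alg

variable {F E Ω : Type*} [Field F] [Ring E] [StarRing E] [Algebra F E] [Field Ω]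
  [Algebra F Ω] {n : ℕ} (M : Mdl F E Ω n)

theorem f_star_mul (g : unitary E) : M.f (star (g : E)) * M.f g = 1 := by
  rw [← map_mul, g.2.1, map_one]

theorem f_mul_star (g : unitary E) : M.f g * M.f (star (g : E)) = 1 := by
  rw [← map_mul, g.2.2, map_one]

theorem f_inj_unitary {g h : unitary E} (e : M.f g = M.f h) : g = h := by
  apply Subtype.ext
  rw [← sub_eq_zero]
  refine M.inj (by rw [map_sub, e, sub_self]) ?_
  rw [star_sub, map_sub, sub_eq_zero, ← mul_one (M.f (star (g : E))), ← M.f_mul_star h, ← e,
    ← mul_assoc, M.f_star_mul, one_mul]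

/-- The centre of the special unitary group is finite. -/
theorem finite_centre (hn : 0 < n) :
    {g : unitary E | g ∈ M.SU ∧ ∀ x, (g : E) * x = x * g}.Finite := by
  classical
  have h1 : {c : Ω | c ^ n = 1}.Finite :=
    (nthRoots n (1 : Ω)).toFinset.finite_toSet.subset fun c hc => by
      simpa [mem_nthRoots hn] using hc
  refine Set.Finite.of_finite_image (f := fun g : unitary E => M.f g)
    ((h1.image fun c => scalar (Fin n) c).subset ?_) fun _ _ _ _ h => M.f_inj_unitary h
  rintro _ ⟨g, ⟨hg, hc⟩, rfl⟩
  obtain ⟨c, hc'⟩ := mem_range_scalar_iff_commute_single'.2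
    fun i j => (M.f_central hc (single i j 1)).symm
  refine ⟨c, ?_, hc'⟩
  have h2 : (M.f g).det = 1 := hg
  rw [← hc'] at h2
  simpa using h2

end alg

variable {F E Ω : Type*} [NontriviallyNormedField F] [NormedRing E] [StarRing E]
  [NormedAlgebra F E] [Field Ω] [Algebra F Ω] {n : ℕ} (M : Mdl F E Ω n)

theorem eventually_det {Y : Matrix (Fin n) (Fin n) Ω} (hY : Y.trace ≠ 0) (w : Ω) :
    ∀ᶠ c : F in 𝓝 0, (1 + algebraMap F Ω c • (w • Y)).det =
      (1 + algebraMap F Ω c • ((w - 1) • Y)).det → c = 0 := by
  set P : Ω[X] := (1 + (X : Ω[X]) • (w • Y).map C).det -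
    (1 + (X : Ω[X]) • ((w - 1) • Y).map C).det with hP
  have hP0 : P ≠ 0 := by
    intro h
    have h1 := congrArg (fun p => coeff p 1) h
    simp only [hP, coeff_sub, coeff_det_one_add_X_smul_one, trace_smul, coeff_zero,
      smul_eq_mul] at h1
    exact hY (by linear_combination h1)
  have hfin : {c : F | P.IsRoot (algebraMap F Ω c)}.Finite :=
    Set.Finite.preimage (algebraMap F Ω).injective.injOn (Polynomial.finite_setOfPred_isRoot hP0)
  have h1 : ({c : F | P.IsRoot (algebraMap F Ω c)} \ {0})ᶜ ∈ 𝓝 (0 : F) :=
    (hfin.subset Set.sdiff_subset).isClosed.compl_mem_nhds fun h => h.2 rfl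
  filter_upwards [h1] with c hc hdet
  by_contra h0
  refine hc ⟨?_, h0⟩
  change P.eval _ = 0
  rw [hP, eval_sub, eval_det_one_add, eval_det_one_add, hdet, sub_self]

variable [CompleteSpace F]

include M in
theorem cont_star : Continuous (star : E → E) := by
  have := M.fd
  exact M.st.continuous_of_finiteDimensional

theorem cont_det (l : Ω →ₗ[F] F) : Continuous fun x : E => l (M.f x).det := by
  have := M.fd
  let b := Module.finBasis F E
  simp only [det_expand M.f b, map_sum, map_smul, smul_eq_mul]
  refine continuous_finsetSum _ fun j _ => Continuous.mul ?_ continuous_const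
  exact continuous_finsetProd _ fun i _ => (b.coord (j i)).continuous_of_finiteDimensional

/-- A closed condition on the determinant. -/
theorem isClosed_det {Y : Type*} [TopologicalSpace Y] {u : Y → E} (hu : Continuous u) {c : Y → F}
    (hc : Continuous c) : IsClosed {y | (M.f (u y)).det = algebraMap F Ω (c y)} := by
  have : {y | (M.f (u y)).det = algebraMap F Ω (c y)} =
      ⋂ l : Ω →ₗ[F] F, {y | l (M.f (u y)).det = c y * l 1} := by
    ext y
    simp only [Set.mem_ofPred_eq, Set.mem_iInter]
    constructor
    · intro h l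
      rw [h, Algebra.algebraMap_eq_smul_one, map_smul, smul_eq_mul]
    · intro h
      rw [← sub_eq_zero, ← Module.forall_dual_apply_eq_zero_iff F]
      intro l
      rw [map_sub, h l, Algebra.algebraMap_eq_smul_one, map_smul, smul_eq_mul, sub_self]
  rw [this]
  exact isClosed_iInter fun l =>
    isClosed_eq ((M.cont_det l).comp hu) (hc.mul continuous_const)

theorem isClosed_SU : IsClosed (M.SU : Set (unitary E)) := by
  have := M.isClosed_det (Y := unitary E) (u := fun g => (g : E)) continuous_subtype_val
    (c := fun _ => 1) continuous_const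
  rw [map_one] at this
  exact this

end Mdl

end Vale.Agent.P011NC
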