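import Vale.Agent.P011NC.Br
import Vale.Agent.P011NC.Pl
import Vale.Agent.P011.H271.StarF
import Vale.Agent.P011.One.WAd
import Vale.Agent.P011.H973.Full.TransHA

/-! Noncentral normal subgroups of the anisotropic special unitary groups have finite index. -/

namespace Vale.Agent.P011NC

open Module TensorProduct Vale.Agent.P011 Vale.Agent.P011.H925.Full

theorem isUnit_of_div {K A : Type} [Field K] [Ring A] [Algebra K A] [FiniteDimensional K A]
    (L : Type) [Field L] [Algebra K L] (h : ∀ z : L ⊗[K] A, z ≠ 0 → IsUnit z) {x : A}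
    (hx : x ≠ 0) : IsUnit x := by
  have hi := Algebra.TensorProduct.includeRight_injective (B := A) (algebraMap K L).injective
  refine Algebra.lmul_isUnit_iff.1 ((LinearMap.isUnit_iff_ker_eq_bot (Algebra.lmul K A x)).2
    (LinearMap.ker_eq_bot'.2 fun y hy => hi ?_))
  rw [map_zero, ← (h _ ((map_ne_zero_iff _ hi).2 hx)).mul_right_eq_zero, ← map_mul]
  exact (congrArg _ hy).trans (map_zero _)

variable {k K A Ω : Type} [Field k] [Field K] [Algebra k K] [StarRing K] [Ring A] [StarRing A]
  [Algebra k A] [Algebra K A] [IsScalarTower k K A] [StarModule K A] [Field Ω] [Algebra K Ω] {n : ℕ}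

omit [StarModule K A] in
theorem adiv_finite_nf [NumberField k] (h : Ans k K A n) : (H732F.Adiv k K A).Finite := by
  have hn := h.le
  have hAf : FiniteDimensional K A := .of_finrank_pos (by rw [h.rank]; positivity)
  rcases (H732F.Adiv k K A).eq_empty_or_nonempty with e | ⟨v, φ, hv⟩
  · exact e ▸ Set.finite_empty
  let _ : Field (H732F.Kv v) := (inferInstance : Field v.abv.Completion)
  let _ : Algebra K (H732F.Kv v) := (φ : K →+* H732F.Kv v).toAlgebra
  have hcen := h.central
  have hsim := h.simple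
  let _ : DivisionRing A := DivisionRing.ofIsUnitOrEqZero fun x =>
    or_iff_not_imp_right.2 (isUnit_of_div (K := K) (H732F.Kv v) hv)
  have hKf : FiniteDimensional k K := (H519.quad h.fixed h.star_ne).1
  have hKn : NumberField K := NumberField.of_module_finite k K
  have := (One.adiv_finite (k := k) (by omega : 2 ≤ n) h.rank).to_subtype
  exact Set.finite_coe_iff.1 (Finite.of_injective _ H973.Full.prmA_injective)

theorem finIndex_q1 (h : Ans k K A n) {f : A →ₐ[K] Matrix (Fin n) (Fin n) Ω}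
    {δ : GK f →* HA k K A n} (h1 : ∀ g, Diag g.1.1 (δ g)) (h2 : Q1 δ) (N : Subgroup (GK f))
    [N.Normal] (hc : ¬N ≤ Subgroup.center _) : N.index ≠ 0 := by
  rcases h.global with hk | ⟨F, _, _, _, _⟩
  · exact finIndex_of h (gfNF k) ((adiv_finite_nf h).image Sum.inl)
      (fun v => ⟨_, ⟨_, v.pl.2, rfl⟩, rfl⟩) h1 h2 N hc
  · have := H271.GFF.mk' F k
    exact finIndex_of h (gfFF k) (H271.StarF.adiv_finite h.anis (by have := h.le; omega))
      (fun v => ⟨_, v.pl.2, rfl⟩) h1 h2 N hc

/-- The noncentral normal subgroups are preimages of open normal subgroups. -/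
theorem clause_of_q1 (h : Ans k K A n) {f : A →ₐ[K] Matrix (Fin n) (Fin n) Ω}
    (h1 : ∃ δ : GK f →* HA k K A n, (∀ g, Diag g.1.1 (δ g)) ∧ Q1 δ) :
    ∃ δ : GK f →* HA k K A n, (∀ g, Diag g.1.1 (δ g)) ∧ DenseRange δ ∧
      ∀ N : Subgroup (GK f), N.Normal → ¬N ≤ Subgroup.center _ →
        ∃ W : Subgroup (HA k K A n), IsOpen (W : Set (HA k K A n)) ∧ W.Normal ∧ N = W.comap δ :=
  h1.imp fun _ a => ⟨a.1, a.2.1, fun N hN hc => (a.2.2 N (finIndex_q1 h a.1 a.2 N hc)).imp
    fun _ b => ⟨b.1, b.2.2 hN, b.2.1⟩⟩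

end Vale.Agent.P011NC
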