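import Mathlib.Analysis.AbsoluteValue.Equivalence
import Mathlib.Analysis.Normed.Field.WithAbs
import Mathlib.Analysis.Normed.Group.Ultra
import Mathlib.Analysis.Normed.Field.Instances
import Mathlib.Analysis.Normed.Module.Completion

/-! Global fields: the properties of the places which are used. -/

namespace Vale.Agent.P011NC

open Topology Filter

/-- The places of a global field. -/
structure GF (k : Type) [Field k] {P : Type} (a : P → AbsoluteValue k ℝ) where
  arch : Finset P
  nt : ∀ v, ∃ x, 1 < a v x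
  proper : ∀ v, ProperSpace (a v).Completion
  ineq : Pairwise fun v w => ¬(a v).IsEquiv (a w)
  ultra : ∀ v ∉ arch, ∀ x y, a v (x + y) ≤ max (a v x) (a v y)
  ex : ∃ v, v ∉ arch
  fin : ∀ x, {v | 1 < a v x}.Finite
  disc : ∀ c : P → ℝ, {v | 1 < c v}.Finite → {x | ∀ v, a v x ≤ c v}.Finite
  coc : ∀ S : Finset P, arch ⊆ S → S.Nonempty → ∃ R : ℝ, ∀ x, ∃ y, (∀ v ∉ S, a v y ≤ 1) ∧
    ∀ v ∈ S, a v (x - y) ≤ R
  den : ∀ S : Finset P, arch ⊆ S → S.Nonempty → ∀ x, ∃ m ≠ 0, ∀ v ∉ S, a v m ≤ 1 ∧ a v (m * x) ≤ 1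

namespace GF

variable {k : Type} [Field k] {P : Type} {a : P → AbsoluteValue k ℝ} (G : GF k a)

/-- The completion. -/
def Fv (_ : GF k a) (v : P) : Type := (a v).Completion

noncomputable instance instNNFv (v : P) : NontriviallyNormedField (G.Fv v) where
  toNormedField := inferInstanceAs (NormedField (a v).Completion)
  non_trivial := (G.nt v).elim fun x hx => ⟨(WithAbs.toAbs (a v) x : (a v).Completion),
    hx.trans_eq (UniformSpace.Completion.norm_coe (WithAbs.toAbs (a v) x)).symm⟩

noncomputable instance instAlgFv (v : P) : Algebra k (G.Fv v) :=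
  inferInstanceAs (Algebra k (a v).Completion)

theorem norm_alg (v : P) (x : k) : ‖algebraMap k (G.Fv v) x‖ = a v x :=
  UniformSpace.Completion.norm_coe (WithAbs.toAbs (a v) x)

instance (v : P) : ProperSpace (G.Fv v) := G.proper v

theorem ultra_Fv {v : P} (hv : v ∉ G.arch) : IsUltrametricDist (G.Fv v) := by
  refine IsUltrametricDist.isUltrametricDist_of_forall_norm_add_le_max_norm
    (S' := (a v).Completion) fun x y => ?_
  refine UniformSpace.Completion.induction_on₂ x y (isClosed_le (by fun_prop) (by fun_prop))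
    fun x y => ?_
  rw [← UniformSpace.Completion.coe_add, UniformSpace.Completion.norm_coe,
    UniformSpace.Completion.norm_coe, UniformSpace.Completion.norm_coe]
  exact G.ultra v hv (WithAbs.ofAbs x) (WithAbs.ofAbs y)

/-- Weak approximation. -/
theorem wa (S : Finset P) : DenseRange fun (c : k) (v : S) => algebraMap k (G.Fv v) c := by
  have h := AbsoluteValue.denseRange_algebraMap_pi (v := fun v : S => a v)
    (fun v => (G.nt v).elim fun x hx => ⟨x, fun e => by simp [e] at hx; linarith, hx.ne'⟩)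
    fun v w h => G.ineq fun e => h (Subtype.ext e)
  exact (DenseRange.piMap fun v : S =>
    UniformSpace.Completion.denseRange_coe (α := WithAbs (a v))).comp h
      (.piMap fun v => UniformSpace.Completion.continuous_coe _)

variable {S : Finset P} (h1 : G.arch ⊆ S) (h2 : S.Nonempty)
include h1 h2

theorem exists_exp : ∃ t : k, (∀ v ∉ S, a v t ≤ 1) ∧ ∀ v ∈ S, 1 < a v t := by
  obtain ⟨R, hR⟩ := G.coc S h1 h2
  choose z hz using fun v : S => NormedField.exists_lt_norm (G.Fv v) (R + 2)
  obtain ⟨x, hx⟩ := (G.wa S).exists_dist_lt z one_pos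
  obtain ⟨y, a1, a2⟩ := hR x
  refine ⟨y, a1, fun v hv => ?_⟩
  have a3 := (dist_le_pi_dist _ _ ⟨v, hv⟩).trans_lt hx
  have a4 := norm_le_norm_sub_add (z ⟨v, hv⟩) (algebraMap k _ x)
  have a5 := (a v).add_le (x - y) y
  rw [sub_add_cancel] at a5
  rw [dist_eq_norm] at a3
  rw [norm_alg] at a4
  linarith [hz ⟨v, hv⟩, a2 v hv]

theorem den_fin {ι : Type} [Finite ι] (x : ι → k) :
    ∃ m ≠ 0, ∀ v ∉ S, ∀ i, a v (m * x i) ≤ 1 := by
  classical
  have := Fintype.ofFinite ι
  choose m h3 h4 using fun i => G.den S h1 h2 (x i)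
  refine ⟨∏ i, m i, Finset.prod_ne_zero_iff.2 fun i _ => h3 i, fun v hv i => ?_⟩
  rw [← Finset.prod_erase_mul _ _ (Finset.mem_univ i), mul_assoc, map_mul, map_prod]
  exact mul_le_one₀ (Finset.prod_le_one (fun _ _ => (a v).nonneg _) fun j _ => (h4 j v hv).1)
    ((a v).nonneg _) (h4 i v hv).2

end GF

end Vale.Agent.P011NC
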