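import Vale.Agent.P011NC.Inst

/-! Noncentral normal subgroups have finite index: global fields. -/

namespace Vale.Agent.P011NC

open Module Topology Filter

namespace GF

variable {k A Ω : Type} [Field k] [Ring A] [StarRing A] [Algebra k A] [Field Ω] [Algebra k Ω]
  {n : ℕ} {P : Type} {a : P → AbsoluteValue k ℝ} (G : GF k a) (M : Mdl k A Ω n)

theorem locE (v : P) : ∃ (Om : Type) (_ : Field Om) (_ : Algebra (G.Fv v) Om),
    Nonempty (Mdl (G.Fv v) (G.E M v) Om n) := by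
  obtain ⟨Om, _, _, _, _, ⟨ψ⟩⟩ := exists_Om k (G.Fv v) Ω
  exact ⟨Om, _, _, ⟨M.locM _ Om ψ⟩⟩

instance (v : P) : ContinuousStar (G.E M v) := by
  obtain ⟨_, _, _, ⟨L⟩⟩ := G.locE M v
  exact L.contStar

instance (v : P) : ProperSpace (G.E M v) := by
  obtain ⟨_, _, _, ⟨L⟩⟩ := G.locE M v
  exact L.proper

variable {S : Finset P} (h1 : G.arch ⊆ S) (hn : 0 < n) (h2 : S.Nonempty)

omit h1 in
include h2 in
theorem jS_inj : Function.Injective (G.jS M S) := fun _ _ e =>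
  h2.elim fun v hv => M.jE_inj _ (congrFun e ⟨v, hv⟩)

include h2 in
theorem alat (ha : ∀ x : A, star x * x = 0 → x = 0) :
    ∃ τ τ', ALat ((G.Lam M h1 hn).map (G.jS M S)) τ τ' := by
  obtain ⟨t, t1, t2⟩ := G.exists_exp h1 h2
  have t0 : t ≠ 0 := h2.elim fun v hv e => by simpa [e, not_lt_of_ge zero_le_one] using t2 v hv
  refine ⟨G.jS M S (t • 1), G.jS M S (t⁻¹ • 1), ?_, fun C hC => ?_, ?_, ?_,
    Units.isOpen.mem_nhds isUnit_one, ⟨_, G.smul_mem_Lam M h1 hn t1 (one_mem _), rfl⟩,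
    fun x => funext fun v => ?_, ?_, fun C hC V hV => ?_⟩
  · rintro _ ⟨x, hx, rfl⟩
    exact ⟨star x, fun v hv => ⟨(hx v hv).2, by rw [star_star]; exact (hx v hv).1⟩, rfl⟩
  · classical
    obtain ⟨R, hR⟩ := hC.isBounded.exists_norm_le
    refine ((G.disc_j M (fun v => if v ∈ S then R else 1) (S.finite_toSet.subset fun v hv => ?_)).image
      (G.jS M S)).subset ?_
    · by_contra h
      rw [Set.mem_ofPred_eq, if_neg (show v ∉ S from h)] at hv
      exact lt_irrefl _ hv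
    · rintro _ ⟨hx, x, hx', rfl⟩
      refine ⟨x, fun v => ?_, rfl⟩
      split_ifs with h
      · exact (norm_le_pi_norm (G.jS M S x) ⟨v, h⟩).trans (hR _ hx)
      · exact (hx' v h).1
  · obtain ⟨R, hR⟩ := G.Lam_coc M h1 hn h2
    refine ⟨_, isCompact_closedBall 0 R, fun x => ?_⟩
    obtain ⟨y, hy, e⟩ := hR x
    exact ⟨_, ⟨y, hy, rfl⟩, mem_closedBall_zero_iff.2 e⟩
  · rintro _ ⟨x, -, rfl⟩ e
    rw [ha x (G.jS_inj M h2 ((map_mul _ _ _).trans (e.trans (map_zero _).symm))), map_zero]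
  · change G.j M v (t • 1) * x v = x v * G.j M v (t • 1)
    rw [M.jE_smul, map_one, smul_mul_assoc, mul_smul_comm, one_mul, mul_one]
  · rw [← map_mul, smul_mul_smul_comm, mul_inv_cancel₀ t0, one_mul, one_smul, map_one]
  · have h3 : ‖G.jS M S (t⁻¹ • 1)‖ < 1 := (pi_norm_lt_iff one_pos).2 fun v => by
      change ‖G.j M v _‖ < 1
      rw [norm_j_smul, map_one, M.norm_one_Ev _ hn, mul_one, map_inv₀]
      exact inv_lt_one_of_one_lt₀ (t2 v v.2)
    exact ((tendsto_pow_atTop_nhds_zero_of_norm_lt_one h3).eventually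
      (hC.eventually_forall_of_forall_eventually (P := fun s x => s * x ∈ V) fun y _ =>
        (continuous_mul.tendsto' (0, y) 0 (zero_mul y)).eventually hV)).exists

include h1 hn h2 in
theorem coc_SU (ha : ∀ x : A, star x * x = 0 → x = 0) : ∃ R : ℝ, ∀ g ∈ M.SU, ∃ d ∈ M.SU,
    (∀ v ∉ S, ‖G.j M v d‖ ≤ 1 ∧ ‖G.j M v (star d)‖ ≤ 1) ∧ ∀ v ∈ S, ‖G.j M v (g * d)‖ ≤ R := by
  classical
  obtain ⟨τ, τ', hL⟩ := G.alat M h1 hn h2 ha
  obtain ⟨C, hC, h⟩ := hL.unitary_coc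
  obtain ⟨R, hR⟩ := hC.isBounded.exists_norm_le
  let W := {w : unitary A | (w : A) ∈ G.Lam M h1 hn ∧ ∃ g ∈ M.SU, ‖G.jS M S (g * w)‖ ≤ R}
  have h3 : ((fun w : unitary A => (M.f w).det) '' W).Finite := by
    refine (G.det_fin M (c := fun v => if v ∈ S then R else 1)
      (S.finite_toSet.subset fun v hv => ?_)).subset ?_
    · by_contra h
      rw [Set.mem_ofPred_eq, if_neg (show v ∉ S from h)] at hv
      exact lt_irrefl _ hv
    rintro _ ⟨w, ⟨hw, g, hg, e⟩, rfl⟩ v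
    split_ifs with h
    · exact ⟨g * w, by rw [map_mul, Matrix.det_mul, M.mem_SU.1 hg, one_mul],
        (norm_le_pi_norm _ (⟨v, h⟩ : S)).trans e⟩
    · exact ⟨w, rfl, (hw v h).1⟩
  obtain ⟨T, hT, hT', e⟩ := Set.Finite.exists_subset_finite_image_eq h3 (subset_refl _)
  obtain ⟨B, hB⟩ := (hT'.image fun w : unitary A => ‖G.jS M S (star w)‖).bddAbove
  refine ⟨|R| * B, fun g hg => ?_⟩
  obtain ⟨_, ⟨w, hw, rfl⟩, h4, h5⟩ := h (G.jS M S g)
    ⟨(map_mul (G.jS M S) (star (g : A)) _).symm.trans (by rw [g.2.1, map_one]),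
      (map_mul (G.jS M S) _ (star (g : A))).symm.trans (by rw [g.2.2, map_one])⟩
  let u : unitary A := ⟨w, G.jS_inj M h2 ((map_mul _ _ _).trans (h4.1.trans (map_one _).symm)),
    G.jS_inj M h2 ((map_mul _ _ _).trans (h4.2.trans (map_one _).symm))⟩
  rw [← map_mul] at h5
  obtain ⟨r, hr, e'⟩ := e.ge ⟨u, ⟨hw, g, hg, hR _ h5⟩, rfl⟩
  refine ⟨u * r⁻¹, M.mem_SU.2 ?_, (G.Lam M h1 hn).mul_mem hw (fun v hv => ⟨((hT hr).1 v hv).2, by
    rw [← Unitary.star_eq_inv, Unitary.coe_star, star_star]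
    exact ((hT hr).1 v hv).1⟩), fun v hv => ?_⟩
  · rw [Submonoid.coe_mul, map_mul, Matrix.det_mul]
    exact (congrArg (· * _) e'.symm).trans (by
      rw [← Matrix.det_mul, ← map_mul, ← Submonoid.coe_mul, mul_inv_cancel]; simp)
  · refine (norm_le_pi_norm (G.jS M S _) ⟨v, hv⟩).trans ?_
    rw [Submonoid.coe_mul, ← mul_assoc, map_mul]
    exact (norm_mul_le _ _).trans (mul_le_mul ((hR _ h5).trans (le_abs_self R)) (hB ⟨r, hr, rfl⟩)
      (norm_nonneg _) (abs_nonneg _))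

omit h1 hn h2 in
/-- **Noncentral normal subgroups have finite index.** -/
theorem index_ne_zero (hn : 3 ≤ n) (ha : ∀ x : A, star x * x = 0 → x = 0) {T : Finset P}
    (hT : ∀ J : Subgroup M.SU, J.index ≠ 0 → ∃ ε : ℝ, 0 < ε ∧ ∀ g : M.SU,
      (∀ v ∈ T, ‖G.j M v (g : unitary A) - 1‖ < ε) → g ∈ J)
    (N : Subgroup M.SU) [N.Normal] (h : ¬N ≤ Subgroup.center _) : N.index ≠ 0 := by
  classical
  choose Om i1 i2 i3 i4 ψ using fun v => exists_Om k (G.Fv v) Ω
  let H : Adel k A Ω n G.Fv (G.E M) Om :=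
    { M := M
      L := fun v => M.locM _ (Om v) (ψ v).some
      j := G.j M
      arch := G.arch
      le := hn
      aniso := ha
      j_star := fun v => M.jE_star _
      j_om := fun _ => rfl
      j_inj := fun v => M.jE_inj _
      j_det := fun v x e => by rw [M.det_locM, e, map_one]
      norm_one := fun v => M.norm_one_Ev _ (by omega)
      ultra := fun v hv => have := G.ultra_Fv hv; M.ultra_Ev _
      ex := G.ex
      fin := G.fin_j M
      disc := G.disc_j M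
      wa := fun S x ε hε => ((G.wa_j M S).exists_dist_lt (fun v => x v) hε).imp fun y hy v hv =>
        ((dist_eq_norm' _ _).symm.le.trans (dist_le_pi_dist (fun v : S => x v)
          (fun v : S => G.j M v y) ⟨v, hv⟩)).trans_lt hy
      coc := fun S h1 h2 => G.coc_SU M h1 (by omega) h2 ha }
  exact H.index_ne_zero hT N h

end GF

end Vale.Agent.P011NC
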