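import Vale.Agent.P011NC.SA

/-! Noncentral normal subgroups have finite index: the abstract setting. -/

namespace Vale.Agent.P011NC

open Module Topology Filter
open scoped commutatorElement Pointwise

namespace Adel

variable {k A Ω : Type} [Field k] [Ring A] [StarRing A] [Algebra k A] [Field Ω]
  [Algebra k Ω] {n : ℕ} {P : Type} {F E Om : P → Type} [∀ v, NontriviallyNormedField (F v)]
  [∀ v, NormedRing (E v)] [∀ v, StarRing (E v)] [∀ v, NormedAlgebra (F v) (E v)]
  [∀ v, Field (Om v)] [∀ v, Algebra (F v) (Om v)] (H : Adel k A Ω n F E Om)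

/-- The subgroups of finite index contain the elements close to one at the places of `T`. -/
def FI (T : Finset P) : Prop := ∀ J : Subgroup H.M.SU, J.index ≠ 0 → ∃ ε : ℝ, 0 < ε ∧
  ∀ g : H.M.SU, (∀ v ∈ T, ‖(H.q v g : E v) - 1‖ < ε) → g ∈ J

/-- The elements which are integral at `w` up to unipotent elements. -/
def J (w : P) : Subgroup H.M.SU := (Gp (E w) ⊔ H.K w).comap (H.q w)

variable [∀ v, ContinuousStar (E v)]

theorem isOpen_K {w : P} (hw : w ∉ H.arch) : IsOpen (H.K w : Set (unitary (E w))) := by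
  have := H.ultra w hw
  exact Subgroup.isOpen_of_mem_nhds _ ((ev_Kc (H.norm_one w) one_pos).mono fun _ a => a.1)

variable [∀ v, ProperSpace (F v)]

theorem index_J {w : P} (hw : w ∉ H.arch) : (H.J w).index ≠ 0 := by
  obtain ⟨T, -, h2, C, h3, h4, h5⟩ := (H.L w).cocompact (by have := H.le; omega)
  have h1 := Subgroup.relIndex_comap_ne_zero (H.q w) (relIndex_ne_zero_of_coc
    (X := Gp (E w) ⊔ H.K w) (mem_of_superset ((H.isOpen_K hw).mem_nhds (one_mem _))
      fun _ a _ => Subgroup.mem_sup_right a) h3 h4 fun g hg => (h5 g hg).imp fun t ht =>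
        ⟨Subgroup.mem_sup_left ((Subgroup.closure_le _).2 h2 ht.1), ht.2⟩)
  rwa [(Subgroup.eq_top_iff' ((H.L w).SU.comap (H.q w))).2 (H.q_SU w),
    Subgroup.relIndex_top_right] at h1

variable [DecidableEq P]

theorem Cm_le_J {T : Finset P} (hT : H.FI T) {w : P} (hw : w ∉ H.arch) (hw' : w ∉ T)
    {g : H.M.SU} (hg : (g : unitary A) ∈ H.Cm) : g ∈ H.J w := by
  obtain ⟨ε, hε, h⟩ := hT _ (H.index_J hw)
  let v : (insert w T : Finset P) := ⟨w, Finset.mem_insert_self w T⟩
  have h1 : H.Cm ≤ (H.loc (insert w T) H.Cm v).comap (H.jU w) :=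
    Subgroup.commutator_le.2 fun a ha b hb => by
      rw [Subgroup.mem_comap, map_commutatorElement]
      exact H.loc_comm v (H.jU_Uc v ha) (H.jU_Uc v hb)
  have h2 : ∀ᶠ u in 𝓝 (sg (E := E) v (H.q w g)), (∀ x : (insert w T : Finset P), x ≠ v →
      ‖(u x : E x) - 1‖ < ε) ∧ (H.q w g)⁻¹ * u v ∈ H.K w := by
    refine (eventually_all.2 fun x => eventually_imp_distrib_left.2 fun hx => ?_).and ?_
    · exact (Continuous.tendsto' (by fun_prop) _ 0 (by simp [sg_ne hx])).eventually_lt_const hε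
    · exact (Continuous.tendsto' (f := fun u : ∀ x : (insert w T : Finset P), unitary (E x) =>
        (H.q w g)⁻¹ * u v) (by fun_prop) _ 1 (by rw [sg_same, inv_mul_cancel])).eventually
          ((H.isOpen_K hw).mem_nhds (one_mem _))
  obtain ⟨_, ⟨h3, h4⟩, c, hc, rfl⟩ := mem_closure_iff_nhds.1 (h1 hg) _ h2
  have h5 := h ⟨c, H.Cm_le hc⟩ fun x hx => h3 ⟨x, Finset.mem_insert_of_mem hx⟩
    fun e => hw' ((show x = w from congrArg Subtype.val e) ▸ hx)
  have h6 := (Gp (E w) ⊔ H.K w).mul_mem h5 (inv_mem (Subgroup.mem_sup_right h4))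
  rw [mul_inv_rev, inv_inv] at h6
  exact (congrArg (· ∈ Gp (E w) ⊔ H.K w) (mul_inv_cancel_left (H.jU w c) (H.q w g))).mp h6

theorem clCm_le_J {T S : Finset P} (hT : H.FI T) (hS : T ⊆ S) {w : P} (hw : w ∉ H.arch)
    (hw' : w ∉ T) : (H.cl S H.Cm).comap (H.p S) ≤ H.J w := fun g hg => by
  obtain ⟨ε, hε, h⟩ := hT _ (H.index_J hw)
  have h2 : ∀ᶠ u in 𝓝 (H.p S g), ∀ x : S, ‖(((H.p S g)⁻¹ * u) x : E x) - 1‖ < ε :=
    eventually_all.2 fun x =>
      (Continuous.tendsto' (by fun_prop) _ 0 (by simp)).eventually_lt_const hε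
  obtain ⟨_, h3, c, hc, rfl⟩ := mem_closure_iff_nhds.1 hg _ h2
  have h4 := h (g⁻¹ * ⟨c, H.Cm_le hc⟩) fun x hx => by
    rw [map_mul, map_inv]
    exact h3 ⟨x, hS hx⟩
  simpa using mul_mem (H.Cm_le_J hT hw hw' (g := ⟨c, H.Cm_le hc⟩) hc) (inv_mem h4)

theorem pole_induction {S : Finset P} (h1 : H.arch ⊆ S) (h2 : (H.D S : Set H.M.SU).Infinite)
    (N : Subgroup H.M.SU) [N.Normal] (h : ¬N ≤ Subgroup.center _) (U : Finset P) :
    ∀ g : H.M.SU, (∀ w ∉ S, g ∈ H.J w) → (∀ w ∉ S, w ∉ U → H.q w g ∈ H.K w) →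
      g ∈ N ⊔ H.D S := by
  induction U using Finset.induction_on with
  | empty => exact fun g _ b => Subgroup.mem_sup_right (H.mem_D'.2 fun w hw => b w hw (by simp))
  | insert w U _ ih =>
    intro g a b
    by_cases hw : w ∈ S
    · exact ih g a fun v hv hv' => b v hv (by
        rw [Finset.mem_insert, not_or]
        exact ⟨fun e => hv (e ▸ hw), hv'⟩)
    obtain ⟨u, hu, z, hz, e⟩ := Subgroup.mem_sup_of_normal_left.1 (a w hw)
    obtain ⟨_, h3, y, hy, rfl⟩ := mem_closure_iff_nhds.1 (H.sa h1 h2 hw (H.nst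
      (h1.trans (Finset.subset_insert w S)) (Finset.insert_nonempty _ _) N h) hu) _
      ((Continuous.tendsto' (f := fun x => x⁻¹ * u) (by fun_prop) u 1 (inv_mul_cancel u)).eventually
        ((H.isOpen_K fun e => hw (h1 e)).mem_nhds (one_mem _)))
    have h4 : H.q w (y⁻¹ * g) ∈ H.K w := by
      rw [map_mul, map_inv, ← e, ← mul_assoc]
      exact mul_mem h3 hz
    have h5 : ∀ v ∉ S, v ≠ w → H.q v y⁻¹ ∈ H.K v := fun v hv e =>
      H.mem_D'.1 (inv_mem hy.2) v (by simp [hv, e])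
    have h6 := ih (y⁻¹ * g) (fun v hv => ?_) fun v hv hv' => ?_
    · simpa using mul_mem (Subgroup.mem_sup_left hy.1) h6
    · by_cases e : v = w
      · exact e ▸ Subgroup.mem_sup_right h4
      · exact mul_mem (Subgroup.mem_sup_right (h5 v hv e)) (a v hv)
    · by_cases e : v = w
      · exact e ▸ h4
      · rw [map_mul]
        exact mul_mem (h5 v hv e) (b v hv (by simp [e, hv']))

/-- **Noncentral normal subgroups have finite index.** -/
theorem index_ne_zero {T : Finset P} (hT : H.FI T) (N : Subgroup H.M.SU) [N.Normal]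
    (h : ¬N ≤ Subgroup.center _) : N.index ≠ 0 := by
  obtain ⟨S, h1, h2, h3⟩ := H.exists_infinite (T ∪ H.arch)
  have h4 := Finset.subset_union_left.trans h1
  have h5 := Finset.subset_union_right.trans h1
  have h6 : (H.cl S H.Cm).comap (H.p S) ≤ N ⊔ H.D S := fun g hg =>
    H.pole_induction h5 h3 N h (H.finite_poles g).toFinset g
      (fun w hw => H.clCm_le_J hT h4 (fun e => hw (h5 e)) (fun e => hw (h4 e)) hg)
      fun w _ hw => not_not.1 fun e => hw ((Set.Finite.mem_toFinset _).2 e)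
  rw [← Subgroup.relIndex_mul_index (le_sup_left (b := H.D S)), Subgroup.relIndex_sup_left]
  exact mul_ne_zero (H.nst h5 h2 N h) fun e =>
    (H.big_Cm S).index (Nat.eq_zero_of_zero_dvd (e ▸ Subgroup.index_dvd_of_le h6))

end Adel

end Vale.Agent.P011NC
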