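import Vale.Agent.P011NC.NSTS
import Mathlib.Analysis.Normed.Ring.Ultra
import Mathlib.Algebra.CharP.Lemmas

/-! An element of infinite order. -/

namespace Vale.Agent.P011NC

open Module Topology Filter
open scoped commutatorElement

theorem unip_eq_one {A : Type*} [Ring A] [StarRing A] (ha : ∀ a : A, star a * a = 0 → a = 0)
    {h : unitary A} {r : ℕ} (hr : ((h : A) - 1) ^ (r + 1) = 0) : h = 1 := by
  induction r with
  | zero => exact Subtype.ext (sub_eq_zero.1 (by simpa using hr))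
  | succ r ih =>
    refine ih (ha _ ?_)
    have e : star ((h : A) - 1) = -star (h : A) * (h - 1) := by
      rw [neg_mul, mul_sub, h.2.1, mul_one, neg_sub, star_sub, star_one]
    have c : Commute (-star (h : A)) (h - 1) :=
      (Commute.sub_right (h.2.1.trans h.2.2.symm) (Commute.one_right _)).neg_left
    rw [star_pow, e, c.mul_pow, mul_assoc, ← pow_add, show r + 1 + (r + 1) = r + 1 + 1 + r by ring,
      pow_add _ (r + 1 + 1), hr, zero_mul, mul_zero]

section

variable {F E : Type*} [NormedField F] [NormedRing E] [NormedAlgebra F E] [IsUltrametricDist E]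

theorem eq_one_of_pow {h : E} (h1 : ‖h‖ ≤ 1) {m : ℕ} (h2 : ‖h - 1‖ < ‖(m : F)‖)
    (h3 : h ^ m = 1) : h = 1 := by
  have a1 : ∀ i : ℕ, ‖1 - h ^ i‖ ≤ ‖h - 1‖ := fun i => by
    induction i with
    | zero => simp
    | succ i ih =>
      rw [show 1 - h ^ (i + 1) = h * (1 - h ^ i) + -(h - 1) by rw [pow_succ']; noncomm_ring]
      exact (IsUltrametricDist.norm_add_le_max _ _).trans (max_le ((norm_mul_le _ _).trans
        ((mul_le_of_le_one_left (norm_nonneg _) h1).trans ih)) (norm_neg _).le)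
  have a2 : ‖∑ i ∈ Finset.range m, (1 - h ^ i)‖ ≤ ‖h - 1‖ :=
    IsUltrametricDist.norm_sum_le_of_forall_le_of_nonneg (norm_nonneg _) fun i _ => a1 i
  have a3 : (m : F) • (h - 1) = (∑ i ∈ Finset.range m, (1 - h ^ i)) * (h - 1) := by
    rw [Finset.sum_sub_distrib, sub_mul, geom_sum_mul, h3, sub_self, sub_zero,
      Nat.cast_smul_eq_nsmul]
    simp
  by_contra h0
  have a4 := (norm_smul (m : F) (h - 1)).symm.le.trans (a3 ▸ (norm_mul_le _ _).trans
    (mul_le_mul_of_nonneg_right a2 (norm_nonneg _)))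
  exact (le_of_mul_le_mul_right a4 (norm_pos_iff.2 (sub_ne_zero.2 h0))).not_gt h2

variable (F) in
theorem exists_prime_bound (h : ‖(1 : E)‖ = 1) :
    ∃ ε : ℝ, 0 < ε ∧ ∀ l : ℕ, l.Prime → (l : F) ≠ 0 → ε ≤ ‖(l : F)‖ := by
  have : NormOneClass E := ⟨h⟩
  have e : ∀ l : ℕ, ‖(l : E)‖ = ‖(l : F)‖ := fun l => by
    rw [← norm_algebraMap' E, map_natCast]
  by_cases h1 : ∃ p : ℕ, p.Prime ∧ (p : F) ≠ 0 ∧ ‖(p : F)‖ < 1
  · obtain ⟨p, hp, h2, h3⟩ := h1
    refine ⟨_, norm_pos_iff.2 h2, fun l hl _ => ?_⟩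
    by_contra h4
    have h5 : p ≠ l := fun e => h4 (e ▸ le_rfl)
    obtain ⟨a, b, hab⟩ := Nat.isCoprime_iff_coprime.2 ((Nat.coprime_primes hp hl).2 h5)
    have h6 := congrArg (Int.cast : ℤ → E) hab
    push_cast at h6
    have h7 : ∀ (c : ℤ) (m : ℕ), ‖(m : F)‖ < 1 → ‖(c : E) * m‖ < 1 := fun c m hm =>
      (norm_mul_le _ _).trans_lt ((mul_le_of_le_one_left (norm_nonneg _)
        (IsUltrametricDist.norm_intCast_le_one E c)).trans_lt (e m ▸ hm))
    exact h.not_lt (h6 ▸ (IsUltrametricDist.norm_add_le_max _ _).trans_lt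
      (max_lt (h7 a p h3) (h7 b l ((not_le.1 h4).trans h3))))
  · push Not at h1
    exact ⟨1, one_pos, h1⟩

end

theorem Mdl.comm_of_ev {F E Ω : Type*} [NontriviallyNormedField F] [NormedRing E] [StarRing E]
    [NormedAlgebra F E] [Field Ω] [Algebra F Ω] {n : ℕ} (M : Mdl F E Ω n) [CompleteSpace F]
    {V : Set (unitary E)} (hV : V ∈ 𝓝 1) {y : E} (h : ∀ a ∈ V, (a : E) * y = y * a) (z : E) :
    y * z = z * y := by
  have h1 : ∀ x ∈ M.Sk, x * y = y * x := fun x hx => by
    have d := M.deriv_cay_smul x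
    refine sub_eq_zero.1 (M.deriv_mem
      (W := LinearMap.ker (LinearMap.mulRight F y - LinearMap.mulLeft F y)) d ?_)
    filter_upwards [Mdl.ev_of_path (P := ⊤) hV d.hasDerivAt.continuousAt (by simp [M.cay_zero])
      ((M.ev_cay_smul hx).mono fun t ht => ⟨⟨_, ht⟩, trivial, rfl⟩)] with t ⟨g, _, hg, e⟩
    rw [← e]
    exact sub_eq_zero.2 (h g hg)
  obtain ⟨a, ha, b, hb, rfl⟩ := M.exists_decomp z
  rw [mul_add, add_mul, h1 a ha, mul_assoc, h1 b hb, ← mul_assoc, ← M.om_comm, mul_assoc]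

namespace Adel

variable {k A Ω : Type} [Field k] [Ring A] [StarRing A] [Algebra k A] [Field Ω]
  [Algebra k Ω] {n : ℕ} {P : Type} {F E Om : P → Type} [∀ v, NontriviallyNormedField (F v)]
  [∀ v, NormedRing (E v)] [∀ v, StarRing (E v)] [∀ v, NormedAlgebra (F v) (E v)]
  [∀ v, Field (Om v)] [∀ v, Algebra (F v) (Om v)] (H : Adel k A Ω n F E Om)
  [∀ v, ContinuousStar (E v)] [∀ v, ProperSpace (F v)] [DecidableEq P]

theorem exists_infOrder : ∃ g : H.M.SU, ¬IsOfFinOrder g := by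
  obtain ⟨v, hv⟩ := H.ex
  have := H.ultra v hv
  obtain ⟨ε, hε, h1⟩ := exists_prime_bound (F v) (H.norm_one v)
  let w : ({v} : Finset P) := ⟨v, Finset.mem_singleton_self v⟩
  have hV := (ev_Kc (H.norm_one v) hε).and (H.ev_loc_Uc {v} w)
  obtain ⟨a, ha, x, hx⟩ := (H.L v).exists_nc H.le hV
  obtain ⟨b, hb, hab⟩ : ∃ b : unitary (E v), (b ∈ Kc (H.norm_one v) hε ∧ b ∈ H.loc {v} H.Uc w) ∧
      (b : E v) * a ≠ a * b := by
    by_contra hc
    push Not at hc
    exact hx ((H.L v).comm_of_ev hV hc x)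
  have h2 : IsOpen {g : unitary (E v) | g ∈ Kc (H.norm_one v) hε ∧ g ≠ 1} :=
    (Subgroup.isOpen_of_mem_nhds _ (ev_Kc (H.norm_one v) hε)).inter isOpen_ne
  obtain ⟨_, h3, g, hg, rfl⟩ := mem_closure_iff.1 (H.loc_comm w ha.2 hb.2) _
    (h2.preimage (continuous_apply (A := fun v : ({v} : Finset P) => unitary (E v)) w)) (by
      rw [Set.mem_preimage, sg_same]
      exact ⟨mul_mem (mul_mem (mul_mem ha.1 hb.1) (inv_mem ha.1)) (inv_mem hb.1), fun e =>
        hab (congrArg Subtype.val (commutatorElement_eq_one_iff_mul_comm.1 e)).symm⟩)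
  have h4 : ∀ l : ℕ, l.Prime → ∀ u : unitary A, H.jU v u ∈ Kc (H.norm_one v) hε → u ^ l = 1 →
      u = 1 := fun l hl u hu e => by
    by_cases h5 : (l : F v) = 0
    · have h6 : (l : A) = 0 := H.j_inj v (by
        rw [map_natCast, map_zero, ← map_natCast (algebraMap (F v) (E v)), h5, map_zero])
      have : Nontrivial (E v) := ⟨1, 0, fun e => by simpa [e] using H.norm_one v⟩
      have := (H.j v).domain_nontrivial
      have := Fact.mk hl
      have := (CharP.charP_iff_prime_eq_zero hl).2 h6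
      refine unip_eq_one H.aniso (r := l - 1) ?_
      rw [Nat.sub_add_cancel hl.one_le, sub_pow_char_of_commute _ (Commute.one_right _), one_pow,
        ← SubmonoidClass.coe_pow, e]
      simp
    · refine H.jU_inj v (Subtype.ext ((eq_one_of_pow hu.1.1 (hu.2.trans_le (h1 l hl h5)) ?_).trans
        (map_one (H.j v)).symm))
      rw [← SubmonoidClass.coe_pow, ← map_pow, e, map_one]
      rfl
  have h5 : ∀ m : ℕ, m ≠ 0 → g ^ m = 1 → g = 1 := fun m => by
    induction m using induction_on_primes with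
    | zero => simp
    | one => simp
    | prime_mul l m hl ih =>
      refine fun h e => ih (right_ne_zero_of_mul h) (h4 l hl _ ?_ (by rw [← pow_mul', e]))
      rw [map_pow]
      exact pow_mem h3.1 m
  refine ⟨⟨g, H.Cm_le hg⟩, fun h => ?_⟩
  obtain ⟨m, hm, e⟩ := h.exists_pow_eq_one
  exact h3.2 (by rw [h5 m hm.ne' (congrArg Subtype.val e), map_one]; rfl)

theorem exists_infinite (S : Finset P) :
    ∃ T : Finset P, S ⊆ T ∧ T.Nonempty ∧ (H.D T : Set H.M.SU).Infinite := by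
  obtain ⟨g, hg⟩ := H.exists_infOrder
  obtain ⟨v, -⟩ := H.ex
  refine ⟨insert v (S ∪ (H.finite_poles g).toFinset), fun x hx => by simp [hx],
    Finset.insert_nonempty _ _, (infinite_zpowers.2 hg).mono (Subgroup.zpowers_le.2 ?_)⟩
  exact H.mem_D.2 fun w hw => by
    by_contra hc
    exact hw (by simp [hc])

end Adel

end Vale.Agent.P011NC
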