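import Vale.Agent.P011NC.Adel
import Mathlib.RingTheory.TensorProduct.Free
import Mathlib.RingTheory.TensorProduct.Finite
import Mathlib.RingTheory.Flat.Basic
import Mathlib.LinearAlgebra.Dimension.Constructions
import Mathlib.Analysis.Normed.Operator.NormedSpace
import Mathlib.Topology.MetricSpace.Ultra.Pi

/-! The base change of an algebra with involution to a complete field, with a norm. -/

namespace Vale.Agent.P011NC

open Module TensorProduct

namespace Mdl

variable {k A Ω : Type} [Field k] [Ring A] [StarRing A] [Algebra k A] [Field Ω]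
  [Algebra k Ω] {n : ℕ} (M : Mdl k A Ω n)

/-- The base change. -/
def Ev (_ : Mdl k A Ω n) (F : Type) [Field F] [Algebra k F] : Type := F ⊗[k] A

/-- A basis. -/
noncomputable def bas : Basis (Fin (finrank k A)) k A :=
  haveI := M.fd
  finBasis k A

section alg

variable (F : Type) [Field F] [Algebra k F]

noncomputable instance instRingEv : Ring (M.Ev F) := inferInstanceAs (Ring (F ⊗[k] A))

noncomputable instance instAlgEv : Algebra F (M.Ev F) := inferInstanceAs (Algebra F (F ⊗[k] A))

/-- The inclusion. -/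
noncomputable def jE : A →+* M.Ev F :=
  (Algebra.TensorProduct.includeRight : A →ₐ[k] F ⊗[k] A).toRingHom

variable {M F} in
theorem Ev_ind {Q : M.Ev F → Prop} (h0 : Q 0) (h1 : ∀ (c : F) (y : A), Q (c • M.jE F y))
    (h2 : ∀ x y, Q x → Q y → Q (x + y)) (x : M.Ev F) : Q x := by
  refine TensorProduct.induction_on x h0 (fun a y => ?_) h2
  have h3 : a ⊗ₜ[k] y = a • ((1 : F) ⊗ₜ[k] y) := by
    rw [TensorProduct.smul_tmul', smul_eq_mul, mul_one]
  rw [h3]
  exact h1 a y

theorem jE_inj : Function.Injective (M.jE F) :=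
  Algebra.TensorProduct.includeRight_injective (algebraMap k F).injective

theorem jE_smul (c : k) (y : A) : M.jE F (c • y) = algebraMap k F c • M.jE F y := by
  change (1 : F) ⊗ₜ[k] (c • y) = algebraMap k F c • ((1 : F) ⊗ₜ[k] y)
  rw [TensorProduct.tmul_smul, algebraMap_smul]

/-- The extension of the involution. -/
noncomputable def sE : M.Ev F →ₗ[F] M.Ev F := M.st.baseChange F

theorem sE_jE (y : A) : M.sE F (M.jE F y) = M.jE F (star y) := rfl

noncomputable instance instStarEv : StarRing (M.Ev F) where
  star := M.sE F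
  star_involutive x := by
    induction x using Ev_ind with
    | h0 => rw [map_zero, map_zero]
    | h1 a x => rw [map_smul, map_smul, sE_jE, sE_jE, star_star]
    | h2 X X' h h' => rw [map_add, map_add, h, h']
  star_mul X Y := by
    induction X using Ev_ind with
    | h0 => rw [zero_mul, map_zero, mul_zero]
    | h1 a x =>
      induction Y using Ev_ind with
      | h0 => rw [mul_zero, map_zero, zero_mul]
      | h1 b y =>
        rw [smul_mul_smul_comm, map_smul, map_smul, map_smul, smul_mul_smul_comm, ← map_mul, sE_jE,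
          sE_jE, sE_jE, star_mul, map_mul, mul_comm a b]
      | h2 Y Y' h h' => rw [mul_add, map_add, h, h', map_add, add_mul]
    | h2 X X' h h' => rw [add_mul, map_add, h, h', map_add, mul_add]
  star_add := map_add _

theorem jE_star (y : A) : M.jE F (star y) = star (M.jE F y) := rfl

/-- The coordinates. -/
noncomputable def co : M.Ev F ≃ₗ[F] (Fin (finrank k A) → F) :=
  (Algebra.TensorProduct.basis F M.bas).equivFun

theorem co_jE (y : A) (i) : M.co F (M.jE F y) i = algebraMap k F (M.bas.repr y i) := by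
  change (Algebra.TensorProduct.basis F M.bas).repr ((1 : F) ⊗ₜ[k] y) i = _
  rw [Algebra.TensorProduct.basis_repr_tmul, one_smul, Finsupp.mapRange_apply]

theorem sum_co (x : M.Ev F) : ∑ i, M.co F x i • M.jE F (M.bas i) = x := by
  refine (Finset.sum_congr rfl fun i _ => ?_).trans
    ((Algebra.TensorProduct.basis F M.bas).sum_equivFun x)
  rw [Algebra.TensorProduct.basis_apply]
  rfl

variable (Om : Type) [Field Om] [Algebra F Om] [Algebra k Om] [IsScalarTower k F Om]
  (ψ : Ω →ₐ[k] Om)

/-- The splitting of the base change. -/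
noncomputable def fE : M.Ev F →ₐ[F] Matrix (Fin n) (Fin n) Om :=
  Algebra.TensorProduct.lift (Algebra.ofId F _) (ψ.mapMatrix.comp M.f)
    fun _ _ => Algebra.commutes _ _

theorem fE_jE (y : A) : M.fE F Om ψ (M.jE F y) = (M.f y).map ψ :=
  (Algebra.TensorProduct.lift_tmul _ _ _ 1 y).trans (by rw [map_one, one_mul]; rfl)

/-- The base change of the model. -/
noncomputable def locM : Mdl F (M.Ev F) Om n where
  f := M.fE F Om ψ
  om := M.jE F M.om
  w := ψ M.w
  star_smul := (M.sE F).map_smul
  span := by
    have h := M.ind (P := fun X => X.map ψ ∈ Submodule.span Om (Set.range (M.fE F Om ψ)))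
      (fun x => Submodule.subset_span ⟨_, M.fE_jE F Om ψ x⟩)
      (fun X Y a b => by
        rw [Matrix.map_add _ (map_add ψ)]
        exact Submodule.add_mem _ a b) fun c X a => by
        convert Submodule.smul_mem _ (ψ c) a using 1
        ext
        simp
    rw [eq_top_iff]
    rintro X -
    rw [Matrix.matrix_eq_sum_single X]
    refine Submodule.sum_mem _ fun i _ => Submodule.sum_mem _ fun j _ => ?_
    convert Submodule.smul_mem _ (X i j) (h (Matrix.single i j 1)) using 1
    rw [Matrix.map_single, map_one, Matrix.smul_single, smul_eq_mul, mul_one]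
  fd := haveI := M.fd; inferInstanceAs (Module.Finite F (F ⊗[k] A))
  rank := haveI := M.fd; (Module.finrank_baseChange (R := F) (S := k) (M' := A)).trans M.rank
  om_comm x := by
    induction x using Ev_ind with
    | h0 => simp
    | h1 c y => rw [mul_smul_comm, smul_mul_assoc, ← map_mul, ← map_mul, M.om_comm]
    | h2 x y a b => rw [mul_add, add_mul, a, b]
  om_add := by rw [← jE_star, ← map_add, M.om_add, map_one]
  del := by
    obtain ⟨e, he⟩ := M.del
    exact ⟨M.jE F e, by rw [← jE_star, ← map_sub, ← map_mul, he, map_one]⟩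
  f_om := by
    rw [fE_jE, M.f_om]
    ext i j
    by_cases h : i = j <;> simp [h]

theorem det_locM (y : A) : ((M.locM F Om ψ).f (M.jE F y)).det = ψ (M.f y).det :=
  (congrArg Matrix.det (M.fE_jE F Om ψ y)).trans (AlgHom.map_det ψ _).symm

end alg

variable (F : Type) [NontriviallyNormedField F] [Algebra k F] [CompleteSpace F]

/-- The regular representation. -/
noncomputable def rho : M.Ev F →ₐ[F] ((Fin (finrank k A) → F) →L[F] (Fin (finrank k A) → F)) :=
  ((Module.End.toContinuousLinearMap _).toAlgHom.comp ((M.co F).conjAlgEquiv F).toAlgHom).comp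
    (Algebra.lmul F _)

theorem rho_co (x y : M.Ev F) : M.rho F x (M.co F y) = M.co F (x * y) :=
  congrArg (fun z => M.co F (x * z)) ((M.co F).symm_apply_apply y)

theorem rho_inj : Function.Injective (M.rho F) := fun x y h => by
  have := M.rho_co F x 1
  rw [h, rho_co, mul_one, mul_one] at this
  exact ((M.co F).injective this).symm

noncomputable instance instNormedEv : NormedRing (M.Ev F) :=
  NormedRing.induced _ _ (M.rho F) (M.rho_inj F)

noncomputable instance instNormedAlgEv : NormedAlgebra F (M.Ev F) :=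
  NormedAlgebra.induced F _ _ (M.rho F)

theorem co_le (x y : M.Ev F) : ‖M.co F (x * y)‖ ≤ ‖x‖ * ‖M.co F y‖ :=
  M.rho_co F x y ▸ (M.rho F x).le_opNorm _

theorem norm_le {x : M.Ev F} {C : ℝ} (hC : 0 ≤ C) (h : ∀ y, ‖M.co F (x * y)‖ ≤ C * ‖M.co F y‖) :
    ‖x‖ ≤ C := (M.rho F x).opNorm_le_bound hC fun z => by
  obtain ⟨y, rfl⟩ := (M.co F).surjective z
  rw [rho_co]
  exact h y

theorem norm_one_Ev (hn : 0 < n) : ‖(1 : M.Ev F)‖ = 1 := by
  have : Nonempty (Fin (finrank k A)) := ⟨⟨0, by rw [M.rank]; positivity⟩⟩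
  change ‖M.rho F 1‖ = 1
  rw [map_one, norm_one]

theorem ultra_Ev [IsUltrametricDist F] : IsUltrametricDist (M.Ev F) :=
  IsUltrametricDist.isUltrametricDist_of_forall_norm_add_le_max_norm fun x y =>
    M.norm_le F (le_max_of_le_left (norm_nonneg _)) fun z => by
      rw [add_mul, map_add, max_mul_of_nonneg _ _ (norm_nonneg _)]
      exact (IsUltrametricDist.norm_add_le_max _ _).trans
        (max_le_max (M.co_le F _ _) (M.co_le F _ _))

theorem norm_jE_le_one [IsUltrametricDist F] {a : A}
    (h : ∀ i l, ‖algebraMap k F (M.bas.repr (a * M.bas l) i)‖ ≤ 1) : ‖M.jE F a‖ ≤ 1 :=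
  M.norm_le F zero_le_one fun y => by
    conv_lhs => rw [← M.sum_co F y, Finset.mul_sum, map_sum]
    refine IsUltrametricDist.norm_sum_le_of_forall_le_of_nonneg (by positivity) fun l _ => ?_
    rw [mul_smul_comm, map_smul, norm_smul, mul_comm, ← map_mul]
    exact mul_le_mul ((pi_norm_le_iff_of_nonneg zero_le_one).2 fun i => M.co_jE F _ i ▸ h i l)
      (norm_le_pi_norm _ l) (norm_nonneg _) zero_le_one

theorem coord_le (a : A) (i) :
    ‖algebraMap k F (M.bas.repr a i)‖ ≤ ‖M.jE F a‖ * ‖M.co F 1‖ := by
  have := M.co_le F (M.jE F a) 1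
  rw [mul_one] at this
  exact M.co_jE F a i ▸ (norm_le_pi_norm _ i).trans this

omit [CompleteSpace F] in
theorem co_one_le (h : ∀ i, ‖algebraMap k F (M.bas.repr 1 i)‖ ≤ 1) : ‖M.co F 1‖ ≤ 1 := by
  rw [← map_one (M.jE F)]
  exact (pi_norm_le_iff_of_nonneg zero_le_one).2 fun i => M.co_jE F _ i ▸ h i

end Mdl

end Vale.Agent.P011NC
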