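import Vale.Agent.P011NC.GF
import Vale.Agent.P011NC.Loc
import Vale.Agent.P011NC.Coc
import Vale.Agent.P011NC.Idx

/-! The completions of an anisotropic algebra with involution over a global field. -/

namespace Vale.Agent.P011NC

open Module Topology Filter TensorProduct

theorem exists_Om (k F Ω : Type) [Field k] [Field F] [Field Ω] [Algebra k F] [Algebra k Ω] :
    ∃ (Om : Type) (_ : Field Om) (_ : Algebra F Om) (_ : Algebra k Om) (_ : IsScalarTower k F Om),
      Nonempty (Ω →ₐ[k] Om) := by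
  obtain ⟨m, hm⟩ := Ideal.exists_maximal (F ⊗[k] Ω)
  exact ⟨(F ⊗[k] Ω) ⧸ m, Ideal.Quotient.field m, inferInstance, inferInstance, inferInstance,
    ⟨(Ideal.Quotient.mkₐ k m).comp Algebra.TensorProduct.includeRight⟩⟩

theorem finite_of_coord {k Ω ι : Type} [Field k] [AddCommGroup Ω] [Module k Ω] [Finite ι]
    (ω : ι → Ω) {Y : Set Ω} (h1 : Y ⊆ Submodule.span k (Set.range ω))
    (h2 : ∀ l : Ω →ₗ[k] k, (l '' Y).Finite) : Y.Finite := by
  have := FiniteDimensional.span_of_finite k (Set.finite_range ω)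
  let b := finBasis k (Submodule.span k (Set.range ω))
  choose l hl using fun i => LinearMap.exists_extend (b.coord i)
  refine Set.Finite.of_finite_image (f := fun y i => l i y)
    ((Set.Finite.pi' fun i => h2 (l i)).subset ?_) fun x hx y hy e => ?_
  · rintro _ ⟨y, hy, rfl⟩ i
    exact ⟨y, hy, rfl⟩
  · refine congrArg Subtype.val (b.ext_elem (x := ⟨x, h1 hx⟩) (y := ⟨y, h1 hy⟩) fun i => ?_)
    exact (LinearMap.congr_fun (hl i) _).symm.trans ((congrFun e i).trans
      (LinearMap.congr_fun (hl i) ⟨y, h1 hy⟩))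

namespace GF

variable {k A Ω : Type} [Field k] [Ring A] [StarRing A] [Algebra k A] [Field Ω] [Algebra k Ω]
  {n : ℕ} {P : Type} {a : P → AbsoluteValue k ℝ} (G : GF k a) (M : Mdl k A Ω n)

/-- The local algebras. -/
abbrev E (v : P) : Type := M.Ev (G.Fv v)

/-- The inclusions. -/
noncomputable abbrev j (v : P) : A →+* G.E M v := M.jE (G.Fv v)

theorem norm_j_smul (v : P) (c : k) (x : A) : ‖G.j M v (c • x)‖ = a v c * ‖G.j M v x‖ := by
  rw [M.jE_smul, norm_smul, norm_alg]

theorem fin_j (x : A) : {v | 1 < ‖G.j M v x‖}.Finite := by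
  refine (G.arch.finite_toSet.union (Set.finite_iUnion fun i => Set.finite_iUnion fun l =>
    G.fin (M.bas.repr (x * M.bas l) i))).subset fun v hv => ?_
  by_contra hc
  simp only [Set.mem_union, Set.mem_iUnion, not_or, not_exists, Set.mem_ofPred_eq, not_lt] at hc
  have := G.ultra_Fv hc.1
  exact (M.norm_jE_le_one _ fun i l => (G.norm_alg v _).trans_le (hc.2 i l)).not_gt hv

theorem fin_co {c : P → ℝ} (hc : {v | 1 < c v}.Finite) :
    {v | 1 < c v * ‖M.co (G.Fv v) 1‖}.Finite := by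
  refine (hc.union (Set.finite_iUnion fun i => G.fin (M.bas.repr 1 i))).subset fun v hv => ?_
  by_contra h
  simp only [Set.mem_union, Set.mem_iUnion, not_or, not_exists, Set.mem_ofPred_eq, not_lt] at h
  exact (mul_le_one₀ h.1 (norm_nonneg _)
    (M.co_one_le _ fun i => (G.norm_alg v _).trans_le (h.2 i))).not_gt hv

theorem coord_le {v : P} {x : A} {c : ℝ} (h : ‖G.j M v x‖ ≤ c) (i) :
    a v (M.bas.repr x i) ≤ c * ‖M.co (G.Fv v) 1‖ :=
  (G.norm_alg v _).symm.le.trans ((M.coord_le _ x i).trans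
    (mul_le_mul_of_nonneg_right h (norm_nonneg _)))

theorem disc_j (c : P → ℝ) (hc : {v | 1 < c v}.Finite) : {x | ∀ v, ‖G.j M v x‖ ≤ c v}.Finite :=
  ((Set.Finite.pi' fun _ => G.disc _ (G.fin_co M hc)).preimage
    M.bas.equivFun.injective.injOn).subset fun _ hx i v => G.coord_le M (hx v) i

theorem wa_j (S : Finset P) : DenseRange fun (x : A) (v : S) => G.j M v x := by
  have h := (Function.Surjective.denseRange (f := fun (t : _ → ∀ v : S, G.Fv v) (v : S) =>
    ∑ i, t i v • G.j M v (M.bas i)) fun x => ⟨fun i v => M.co _ (x v) i,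
      funext fun v => M.sum_co _ _⟩).comp (DenseRange.piMap fun _ => G.wa S) (by fun_prop)
  refine h.mono ?_
  rintro _ ⟨t, rfl⟩
  refine ⟨∑ i, t i • M.bas i, funext fun v => ?_⟩
  simp only [map_sum, M.jE_smul]
  rfl

theorem det_fin {c : P → ℝ} (hc : {v | 1 < c v}.Finite) :
    {y : Ω | ∀ v, ∃ x : A, (M.f x).det = y ∧ ‖G.j M v x‖ ≤ c v}.Finite := by
  classical
  obtain ⟨v₀, -⟩ := G.ex
  let ω := fun J : Fin n → Fin (finrank k A) => (Matrix.of fun i => M.f (M.bas (J i)) i).det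
  refine finite_of_coord (k := k) ω (fun y hy => ?_) fun l => ?_
  · obtain ⟨x, rfl, -⟩ := hy v₀
    rw [det_expand M.f M.bas]
    exact Submodule.sum_mem _ fun J _ => Submodule.smul_mem _ _ (Submodule.subset_span ⟨J, rfl⟩)
  have hT := (G.arch.finite_toSet.union (G.fin_co M hc)).union
    (Set.finite_iUnion fun J => G.fin (l (ω J)))
  refine (G.disc (fun v => if v ∈ hT.toFinset then
    ∑ J, (c v * ‖M.co (G.Fv v) 1‖) ^ n * a v (l (ω J)) else 1) (hT.subset fun v hv => ?_)).subset ?_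
  · by_contra h
    rw [Set.mem_ofPred_eq, if_neg (mt hT.mem_toFinset.1 h)] at hv
    exact lt_irrefl _ hv
  rintro _ ⟨y, hy, rfl⟩ v
  obtain ⟨x, rfl, hx⟩ := hy v
  have h1 : ∀ J : Fin n → Fin (finrank k A), a v (l ((∏ i, M.bas.repr x (J i)) • ω J)) ≤
      (c v * ‖M.co (G.Fv v) 1‖) ^ n * a v (l (ω J)) := fun J => by
    rw [map_smul, smul_eq_mul, map_mul, map_prod]
    refine mul_le_mul_of_nonneg_right ?_ ((a v).nonneg _)
    simpa using Finset.prod_le_prod (s := Finset.univ) (fun _ _ => (a v).nonneg _)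
      fun i _ => G.coord_le M hx (J i)
  rw [det_expand M.f M.bas, map_sum]
  split_ifs with h
  · exact ((a v).sum_le _ _).trans (Finset.sum_le_sum fun J _ => h1 J)
  · simp only [Set.Finite.mem_toFinset, Set.mem_union, Set.mem_iUnion, not_or, not_exists,
      Set.mem_ofPred_eq, not_lt] at h
    have := G.ultra_Fv h.1.1
    rw [← G.norm_alg, map_sum]
    refine IsUltrametricDist.norm_sum_le_of_forall_le_of_nonneg zero_le_one fun J _ => ?_
    rw [norm_alg]
    exact (h1 J).trans (mul_le_one₀ (pow_le_one₀ (mul_nonneg ((norm_nonneg _).trans hx)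
      (norm_nonneg _)) h.1.2) ((a v).nonneg _) (h.2 J))

variable {S : Finset P} (h1 : G.arch ⊆ S)

/-- The `S`-integral elements. -/
def Lam (hn : 0 < n) : Subring A where
  carrier := {x | ∀ v ∉ S, ‖G.j M v x‖ ≤ 1 ∧ ‖G.j M v (star x)‖ ≤ 1}
  mul_mem' := fun {x y} hx hy v hv => by
    rw [star_mul, map_mul, map_mul]
    exact ⟨(norm_mul_le _ _).trans (mul_le_one₀ (hx v hv).1 (norm_nonneg _) (hy v hv).1),
      (norm_mul_le _ _).trans (mul_le_one₀ (hy v hv).2 (norm_nonneg _) (hx v hv).2)⟩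
  one_mem' := fun v _ => by simp [M.norm_one_Ev _ hn]
  add_mem' := fun {x y} hx hy v hv => by
    have := G.ultra_Fv fun e => hv (h1 e)
    have := M.ultra_Ev (G.Fv v)
    rw [star_add, map_add, map_add]
    exact ⟨(IsUltrametricDist.norm_add_le_max _ _).trans (max_le (hx v hv).1 (hy v hv).1),
      (IsUltrametricDist.norm_add_le_max _ _).trans (max_le (hx v hv).2 (hy v hv).2)⟩
  zero_mem' := fun v _ => by simp
  neg_mem' := fun {x} hx v hv => by simpa using hx v hv

theorem smul_mem_Lam (hn : 0 < n) {c : k} (hc : ∀ v ∉ S, a v c ≤ 1) {x : A}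
    (hx : x ∈ G.Lam M h1 hn) : c • x ∈ G.Lam M h1 hn := fun v hv => by
  rw [M.star_smul, norm_j_smul, norm_j_smul]
  exact ⟨mul_le_one₀ (hc v hv) (norm_nonneg _) (hx v hv).1,
    mul_le_one₀ (hc v hv) (norm_nonneg _) (hx v hv).2⟩

variable (S) in
/-- The diagonal map. -/
noncomputable def jS : A →+* ∀ v : S, G.E M v := RingHom.pi fun v => G.j M v

theorem Lam_coc (hn : 0 < n) (h2 : S.Nonempty) :
    ∃ R : ℝ, ∀ x, ∃ y ∈ G.Lam M h1 hn, ‖x - G.jS M S y‖ ≤ R := by
  obtain ⟨R, hR⟩ := G.coc S h1 h2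
  obtain ⟨m, hm, h⟩ := G.den_fin h1 h2 fun z : Bool × Fin _ × Fin _ × Fin _ =>
    M.bas.repr ((cond z.1 (star (M.bas z.2.1)) (M.bas z.2.1)) * M.bas z.2.2.1) z.2.2.2
  have h3 : ∀ i, m • M.bas i ∈ G.Lam M h1 hn := fun i v hv => by
    have := G.ultra_Fv fun e => hv (h1 e)
    rw [M.star_smul]
    exact ⟨M.norm_jE_le_one _ fun l l' => by
      rw [norm_alg, smul_mul_assoc, map_smul]
      exact h v hv (false, i, l', l), M.norm_jE_le_one _ fun l l' => by
      rw [norm_alg, smul_mul_assoc, map_smul]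
      exact h v hv (true, i, l', l)⟩
  refine ⟨1 + ∑ i, |R| * ‖G.jS M S (m • M.bas i)‖, fun x => ?_⟩
  obtain ⟨y, hy⟩ := (G.wa_j M S).exists_dist_lt x one_pos
  choose z h4 h5 using fun i => hR (M.bas.repr y i / m)
  refine ⟨_, sum_mem fun i (_ : i ∈ Finset.univ) => G.smul_mem_Lam M h1 hn (h4 i) (h3 i),
    (norm_sub_le_norm_sub_add_norm_sub _ (G.jS M S y) _).trans (add_le_add
      ((dist_eq_norm _ _).symm.le.trans hy.le) ?_)⟩
  have e : y - ∑ i, z i • m • M.bas i = ∑ i, (M.bas.repr y i / m - z i) • m • M.bas i := by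
    simp only [sub_smul, Finset.sum_sub_distrib, smul_smul (_ / m), div_mul_cancel₀ _ hm,
      M.bas.sum_repr]
  rw [← map_sub, e, map_sum]
  refine norm_sum_le_of_le _ fun i _ => (pi_norm_le_iff_of_nonneg (by positivity)).2 fun v => ?_
  exact (G.norm_j_smul M v _ _).trans_le (mul_le_mul ((h5 i v v.2).trans (le_abs_self R))
    (norm_le_pi_norm (G.jS M S (m • M.bas i)) v) (norm_nonneg _) (abs_nonneg _))

end GF

end Vale.Agent.P011NC
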