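import Vale.Agent.P011NC.Cay
import Mathlib.Analysis.Calculus.InverseFunctionTheorem.FDeriv
import Mathlib.Analysis.Calculus.FDeriv.Prod

/-! Subgroups of the special unitary group which contain enough commutators are open. -/

namespace Vale.Agent.P011NC

open Module Topology Filter Matrix
open scoped commutatorElement

namespace Mdl

variable {F E Ω : Type*} [NontriviallyNormedField F] [NormedRing E] [StarRing E]
  [NormedAlgebra F E] [Field Ω] [Algebra F Ω] {n : ℕ}

variable (F) in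
/-- The tangent vectors at one of the paths in a subgroup. -/
def Tn (P : Subgroup (unitary E)) : Submodule F E where
  carrier := {y | ∃ γ : F → E, HasStrictDerivAt γ y 0 ∧ γ 0 = 1 ∧
    ∀ᶠ t in 𝓝 0, ∃ g ∈ P, (g : E) = γ t}
  add_mem' := by
    rintro a b ⟨γ, h1, h2, h3⟩ ⟨δ, h4, h5, h6⟩
    refine ⟨fun t => γ t * δ t, ?_, by simp [h2, h5], ?_⟩
    · simpa [h2, h5] using h1.fun_mul h4
    · filter_upwards [h3, h6] with t ⟨g, hg, e⟩ ⟨g', hg', e'⟩
      exact ⟨g * g', P.mul_mem hg hg', by rw [← e, ← e']; rfl⟩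
  zero_mem' := ⟨fun _ => 1, hasStrictDerivAt_const _ _, rfl,
    .of_forall fun _ => ⟨1, P.one_mem, rfl⟩⟩
  smul_mem' := by
    rintro c y ⟨γ, h1, h2, h3⟩
    have h4 : HasStrictDerivAt (fun t : F => c * t) c 0 := by
      simpa using (hasStrictDerivAt_id (0 : F)).const_mul c
    rw [← mul_zero c] at h1 h3
    exact ⟨fun t => γ (c * t), h1.scomp 0 h4, by simp [h2],
      h4.hasDerivAt.continuousAt.eventually h3⟩

theorem Tn_conj {P : Subgroup (unitary E)} {a : unitary E} (ha : ∀ x ∈ P, a * x * a⁻¹ ∈ P)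
    {y : E} (hy : y ∈ Tn F P) : (a : E) * y * star (a : E) ∈ Tn F P := by
  obtain ⟨γ, h1, h2, h3⟩ := hy
  refine ⟨fun t => (a : E) * γ t * star (a : E), (h1.const_mul _).mul_const _,
    by simp [h2, a.2.2], h3.mono ?_⟩
  rintro t ⟨g, hg, e⟩
  exact ⟨_, ha g hg, by simp only [← e]; rfl⟩

omit [NormedAlgebra F E] in
theorem ev_of_path {P : Subgroup (unitary E)} {V : Set (unitary E)} (hV : V ∈ 𝓝 1) {γ : F → E}
    (h1 : ContinuousAt γ 0) (h2 : γ 0 = 1) (h3 : ∀ᶠ t in 𝓝 0, ∃ g ∈ P, (g : E) = γ t) :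
    ∀ᶠ t in 𝓝 0, ∃ g ∈ P, g ∈ V ∧ (g : E) = γ t := by
  obtain ⟨O, hO, hOV⟩ := (mem_nhds_subtype _ _ _).1 hV
  have h4 : ∀ᶠ t in 𝓝 0, γ t ∈ O := h1.eventually (h2 ▸ hO)
  filter_upwards [h3, h4] with t ⟨g, hg, e⟩ ht
  exact ⟨g, hg, hOV (show (g : E) ∈ O from e ▸ ht), e⟩

variable (M : Mdl F E Ω n) [CompleteSpace F]

theorem Tn_le (P : Subgroup (unitary E)) : Tn F P ≤ M.Sk := by
  rintro y ⟨γ, h1, h2, h3⟩
  exact M.deriv_skew h1 h2 (h3.mono fun t ⟨g, _, e⟩ => e ▸ g.2)

include M in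
theorem tanMap (P : Subgroup (unitary E)) : ∃ Γ : Tn F P → E,
    HasStrictFDerivAt Γ (Tn F P).subtypeL 0 ∧ Γ 0 = 1 ∧
      ∀ᶠ x in 𝓝 0, ∃ g ∈ P, (g : E) = Γ x := by
  classical
  have := M.fd
  let b := Module.finBasis F (Tn F P)
  let c : Fin (finrank F (Tn F P)) → (Tn F P →L[F] F) := fun i => (b.coord i).toContinuousLinearMap
  have key : ∀ s : Finset (Fin (finrank F (Tn F P))), ∃ Γ : Tn F P → E,
      HasStrictFDerivAt Γ (∑ i ∈ s, (c i).smulRight (b i : E)) 0 ∧ Γ 0 = 1 ∧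
        ∀ᶠ x in 𝓝 0, ∃ g ∈ P, (g : E) = Γ x := by
    intro s
    induction s using Finset.induction_on with
    | empty => exact ⟨fun _ => 1, by simpa using hasStrictFDerivAt_const _ _, rfl,
        .of_forall fun _ => ⟨1, P.one_mem, rfl⟩⟩
    | insert i s hi ih =>
      obtain ⟨Γ, h1, h2, h3⟩ := ih
      obtain ⟨γ, h4, h5, h6⟩ := (b i).2
      have h5' : γ (c i 0) = 1 := by rw [map_zero, h5]
      rw [← map_zero (c i)] at h4 h6
      have h7 := h4.hasStrictFDerivAt.comp (0 : Tn F P) (c i).hasStrictFDerivAt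
      refine ⟨fun x => γ (c i x) * Γ x, (h7.fun_mul' h1).congr_fderiv ?_, by simp [h2, h5], ?_⟩
      · ext x
        simp [Finset.sum_insert hi, h2, h5, add_comm]
      · filter_upwards [h3, (c i).continuous.continuousAt.eventually h6] with x ⟨g, hg, e⟩
          ⟨g', hg', e'⟩
        exact ⟨g' * g, P.mul_mem hg' hg, by rw [← e, ← e']; rfl⟩
  obtain ⟨Γ, h1, h2⟩ := key Finset.univ
  refine ⟨Γ, h1.congr_fderiv ?_, h2⟩
  ext x
  have := congrArg (Tn F P).subtype (b.sum_repr x)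
  rw [map_sum] at this
  simpa [c] using this

/-- A subgroup whose tangent space is the space of the skew elements of trace zero is open. -/
theorem open_of_tan {P : Subgroup (unitary E)} (hP : P ≤ M.SU) {e : E} (he : e ∈ M.Sk)
    (htr : (M.f e).trace ≠ 0) (hs : ∀ y ∈ M.Sk, ∃ x ∈ Tn F P, ∃ c : F, y = x + c • e) :
    ∀ᶠ g in 𝓝 (1 : unitary E), g ∈ M.SU → g ∈ P := by
  have := M.fd
  have := M.complete
  obtain ⟨Γ, h1, h2, h3⟩ := M.tanMap P
  obtain ⟨π₀, hπ₀⟩ := M.Sk.subtype.exists_leftInverse_of_injective M.Sk.ker_subtype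
  let π : E →L[F] M.Sk := π₀.toContinuousLinearMap
  have hπ : ∀ x ∈ M.Sk, (π x : E) = x := fun x hx =>
    congrArg Subtype.val (LinearMap.congr_fun hπ₀ ⟨x, hx⟩)
  let Φ : Tn F P × F → E := fun p => Γ p.1 * M.cay (p.2 • e)
  have hΦ0 : Φ 0 = 1 := by simp [Φ, h2, M.cay_zero]
  have a1 : HasStrictFDerivAt (fun p : Tn F P × F => Γ p.1)
      ((Tn F P).subtypeL.comp (ContinuousLinearMap.fst F _ F)) 0 :=
    HasStrictFDerivAt.comp (0 : Tn F P × F) (f := Prod.fst) h1 hasStrictFDerivAt_fst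
  have a2 := HasStrictFDerivAt.comp (0 : Tn F P × F) (f := Prod.snd)
    (M.deriv_cay_smul e).hasStrictFDerivAt hasStrictFDerivAt_snd
  have a3 := a1.fun_mul' a2
  have a4 := M.deriv_psi
  rw [← hΦ0] at a4
  have a5 := π.hasStrictFDerivAt.comp (0 : Tn F P × F) (a4.comp (0 : Tn F P × F) a3)
  have : CompleteSpace (Tn F P) := FiniteDimensional.complete F _
  have : CompleteSpace M.Sk := FiniteDimensional.complete F _
  have a6 := a5.map_nhds_eq_of_surj (by
    rw [eq_top_iff]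
    rintro ⟨y, hy⟩ -
    obtain ⟨x, hx, c, rfl⟩ := hs y hy
    refine ⟨(⟨x, hx⟩, c), Subtype.ext ?_⟩
    refine Eq.trans ?_ (hπ _ hy)
    simp [h2, M.cay_zero, add_comm])
  have hc : Tendsto Φ (𝓝 0) (𝓝 1) := hΦ0 ▸ a3.continuousAt
  have hc2 : ContinuousAt (fun p : Tn F P × F => p.2 • e) 0 := by fun_prop
  have b1 : ∀ᶠ u in 𝓝 (1 : E), IsUnit (1 - star M.om * M.psi u) :=
    M.deriv_psi.continuousAt.eventually (M.psi_one ▸ M.ev_den)
  have b2 : ∀ᶠ p : Tn F P × F in 𝓝 0, (∃ g ∈ P, (g : E) = Γ p.1) ∧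
      IsUnit (1 - star M.om * (p.2 • e)) ∧ IsUnit (M.om + star M.om * Φ p) ∧
      IsUnit (1 - star M.om * M.psi (Φ p)) ∧
      ((1 + algebraMap F Ω p.2 • (M.w • M.f e)).det =
        (1 + algebraMap F Ω p.2 • ((M.w - 1) • M.f e)).det → p.2 = 0) := by
    refine (continuous_fst.continuousAt.eventually h3).and (Eventually.and ?_
      ((hc.eventually M.ev_den').and ((hc.eventually b1).and
        (continuous_snd.continuousAt.eventually (eventually_det (F := F) htr M.w)))))
    exact hc2.eventually (by simpa using M.ev_den)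
  have b3 := Filter.image_mem_map (m := fun p => π (M.psi (Φ p))) b2
  have a7 : map (fun p => π (M.psi (Φ p))) (𝓝 0) = 𝓝 (π (M.psi (Φ 0))) := a6
  rw [a7, hΦ0] at b3
  have hv : ContinuousAt (fun g : unitary E => (g : E)) 1 := continuous_subtype_val.continuousAt
  have b4 : ContinuousAt (fun u : E => π (M.psi u)) 1 :=
    π.continuous.continuousAt.comp M.deriv_psi.continuousAt
  filter_upwards [hv.eventually (b4.eventually b3), hv.eventually M.ev_den', hv.eventually b1]
    with g ⟨p, ⟨⟨g', hg', e'⟩, c1, c2, c3, c4⟩, hp⟩ d1 d2 hg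
  have hu : Φ p ∈ unitary E :=
    mul_mem (e' ▸ g'.2) (M.cay_mem (M.Sk.smul_mem _ he) c1)
  have e1 : M.psi (Φ p) = M.psi g := by
    rw [← hπ _ (M.psi_mem hu c2), ← hπ _ (M.psi_mem g.2 d1)]
    exact congrArg Subtype.val hp
  have e2 : (g : E) = g' * M.cay (p.2 • e) := by
    rw [M.eq_cay d1 d2, ← e1, ← M.eq_cay c2 c3, e']
  have e3 : (M.f (M.cay (p.2 • e))).det = 1 := by
    have := M.mem_SU.1 hg
    rwa [e2, map_mul, det_mul, M.mem_SU.1 (hP hg'), one_mul] at this
  have e4 : p.2 = 0 := c4 (by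
    have := M.det_cay c1 e3
    rwa [map_smul, ← algebraMap_smul Ω p.2 (M.f e), smul_comm M.w, smul_comm (M.w - 1)] at this)
  rw [e4, zero_smul, M.cay_zero, mul_one] at e2
  rwa [Subtype.ext e2]

theorem comm_mem_Tn {y y' : E} (hy : y ∈ M.Sk) (hy' : y' ∈ M.Sk) :
    y * y' - y' * y ∈ Tn F M.SU := by
  have h1 : ∀ b ∈ unitary E, y' - b * y' * star b ∈ Tn F M.SU := by
    intro b hb
    have d := M.deriv_cay_smul y'
    refine ⟨fun t : F => M.cay (t • y') * b * star (M.cay (t • y')) * star b, ?_,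
      by simp [M.cay_zero, hb.2], ?_⟩
    · have := ((d.mul_const b).fun_mul (M.deriv_star d)).mul_const (star b)
      convert this using 1
      simp [M.cay_zero, show star y' = -y' from hy', add_mul, mul_assoc, hb.2, sub_eq_add_neg]
    · filter_upwards [M.ev_cay_smul hy'] with t ht
      exact ⟨_, M.comm_mem_SU ⟨_, ht⟩ ⟨b, hb⟩, rfl⟩
  have d := M.deriv_cay_smul y
  have h2 := ((d.mul_const y').fun_mul (M.deriv_star d)).const_sub y'
  have h3 := (Tn F M.SU).neg_mem
    (M.deriv_mem h2 ((M.ev_cay_smul hy).mono fun t ht => h1 _ ht))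
  simpa [M.cay_zero, show star y = -y from hy, sub_eq_add_neg] using h3

theorem single_mem {i j : Fin n} (hij : i ≠ j) :
    single i j (1 : Ω) ∈ Submodule.span Ω (M.f '' Tn F M.SU) := by
  have h : ∀ X Y, X * Y - Y * X ∈ Submodule.span Ω (M.f '' Tn F M.SU) := by
    refine M.ind_Sk (fun x hx => M.ind_Sk (fun y hy => Submodule.subset_span
      ⟨_, M.comm_mem_Tn hx hy, by simp⟩) (fun X Y a b => ?_) fun c X a => ?_)
      (fun X Y a b Z => ?_) fun c X a Z => ?_
    · convert Submodule.add_mem _ a b using 1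
      noncomm_ring
    · convert Submodule.smul_mem _ c a using 1
      rw [mul_smul_comm, smul_mul_assoc, smul_sub]
    · convert Submodule.add_mem _ (a Z) (b Z) using 1
      noncomm_ring
    · convert Submodule.smul_mem _ c (a Z) using 1
      rw [mul_smul_comm, smul_mul_assoc, smul_sub]
  have := h (single i i 1) (single i j 1)
  rwa [single_mul_single_same, single_mul_single_of_ne _ _ _ _ hij.symm, sub_zero,
    one_mul] at this

/-- A subspace stable under the brackets with the tangent space of the special unitary group. -/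
theorem traceless_mem (hn : 3 ≤ n) {W : Submodule F E}
    (hW : ∀ y ∈ Tn F M.SU, ∀ z ∈ W, y * z - z * y ∈ W)
    (hnc : ∃ Z ∈ Submodule.span Ω (M.f '' W), ∃ Y, Z * Y ≠ Y * Z)
    {Y : Matrix (Fin n) (Fin n) Ω} (hY : Y.trace = 0) : Y ∈ Submodule.span Ω (M.f '' W) := by
  obtain ⟨Z, hZ, h⟩ := hnc
  refine lie_ideal hn _ (fun i j hij Z hZ => ?_) hZ h hY
  have := M.single_mem hij
  generalize single i j (1 : Ω) = X at this
  induction this using Submodule.span_induction with
  | mem x hx =>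
    obtain ⟨y, hy, rfl⟩ := hx
    induction hZ using Submodule.span_induction with
    | mem x hx =>
      obtain ⟨z, hz, rfl⟩ := hx
      exact Submodule.subset_span ⟨_, hW y hy z hz, by simp⟩
    | zero => simp
    | add a b _ _ ha hb =>
      convert Submodule.add_mem _ ha hb using 1
      noncomm_ring
    | smul c a _ ha =>
      convert Submodule.smul_mem _ c ha using 1
      rw [mul_smul_comm, smul_mul_assoc, smul_sub]
  | zero => simp
  | add a b _ _ ha hb =>
    convert Submodule.add_mem _ ha hb using 1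
    noncomm_ring
  | smul c a _ ha =>
    convert Submodule.smul_mem _ c ha using 1
    rw [mul_smul_comm, smul_mul_assoc, smul_sub]

omit [CompleteSpace F] in
theorem exists_trace (hn : 0 < n) : ∃ e ∈ M.Sk, (M.f e).trace ≠ 0 := by
  by_contra hc
  push Not at hc
  have := M.ind_Sk (P := fun X => X.trace = 0) hc (fun X Y a b => by simp [a, b])
    (fun c X a => by simp [a]) (single ⟨0, hn⟩ ⟨0, hn⟩ 1)
  simp at this

omit [CompleteSpace F] in
theorem decomp_of_traceless {W : Submodule F E} (hW : W ≤ M.Sk) {e : E} (he : e ∈ M.Sk)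
    (htr : (M.f e).trace ≠ 0)
    (h : ∀ Y : Matrix (Fin n) (Fin n) Ω, Y.trace = 0 → Y ∈ Submodule.span Ω (M.f '' W))
    (y : E) (hy : y ∈ M.Sk) : ∃ x ∈ W, ∃ c : F, y = x + c • e := by
  have hle : W ⊔ Submodule.span F {e} ≤ M.Sk :=
    sup_le hW ((Submodule.span_singleton_le_iff_mem _ _).2 he)
  have b5 : y ∈ W ⊔ Submodule.span F {e} := by
    refine M.desc hle hy ?_
    have e1 : M.f y = (M.f y - ((M.f y).trace / (M.f e).trace) • M.f e) +
      ((M.f y).trace / (M.f e).trace) • M.f e := by abel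
    have h1 : (W : Set E) ⊆ (W ⊔ Submodule.span F {e} : Submodule F E) :=
      fun x hx => Submodule.mem_sup_left hx
    rw [e1]
    refine Submodule.add_mem _ (Submodule.span_mono (Set.image_mono h1) (h _ ?_))
      (Submodule.smul_mem _ _ (Submodule.subset_span
        ⟨e, Submodule.mem_sup_right (Submodule.mem_span_singleton_self e), rfl⟩))
    simp [div_mul_cancel₀ _ htr]
  obtain ⟨x, hx, z, hz, rfl⟩ := Submodule.mem_sup.1 b5
  obtain ⟨c, rfl⟩ := Submodule.mem_span_singleton.1 hz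
  exact ⟨x, hx, c, rfl⟩

theorem exists_noncentral {W : Submodule Ω (Matrix (Fin n) (Fin n) Ω)} {a : unitary E}
    (ha : ∃ x, (a : E) * x ≠ x * a) (b3 : ∀ X ∈ Submodule.span Ω (M.f '' Tn F M.SU),
      X - M.f a * X * M.f (star (a : E)) ∈ W) : ∃ Z ∈ W, ∃ Y, Z * Y ≠ Y * Z := by
  by_contra hc
  push Not at hc
  obtain ⟨x, hx⟩ := ha
  have hm : ∀ Y, M.f a * Y = Y * M.f a := by
    refine scalar_of_comm fun i j hij => ?_
    obtain ⟨c, hc'⟩ := mem_range_scalar_iff_commute_single'.2 fun p q =>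
      (hc _ (b3 _ (M.single_mem hij)) (single p q 1)).symm
    have e1 : M.f a * single i j 1 * M.f (star (a : E)) = single i j 1 - scalar (Fin n) c := by
      rw [hc', sub_sub_cancel]
    have e2 : (single i j 1 - scalar (Fin n) c) * (single i j 1 - scalar (Fin n) c) = 0 := by
      rw [← e1, mul_assoc, mul_assoc (M.f a), ← mul_assoc (M.f (star (a : E))),
        ← mul_assoc (M.f (star (a : E))), M.f_star_mul, one_mul, ← mul_assoc (single i j 1),
        single_mul_single_of_ne _ _ _ _ hij.symm, zero_mul, mul_zero]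
    have e3 : c = 0 := by
      have := congrFun (congrFun e2 j) j
      simpa [sub_mul, mul_sub, hij, hij.symm, single_mul_single_of_ne _ _ _ _ hij.symm] using this
    rw [e3, map_zero, sub_zero] at e1
    rw [← mul_one (M.f a * _), ← M.f_star_mul a, ← mul_assoc, e1]
  refine hx (M.central_of hm (fun Y => ?_) x)
  rw [← mul_one (M.f (star (a : E)) * Y), ← M.f_mul_star a, ← mul_assoc,
    mul_assoc _ Y, ← hm, ← mul_assoc, M.f_star_mul, one_mul]

/-- **Openness.** -/
theorem open_of_comm (hn : 3 ≤ n) {P : Subgroup (unitary E)} {a : unitary E}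
    (ha : ∃ x, (a : E) * x ≠ x * a) {V : Set (unitary E)} (hV : V ∈ 𝓝 1)
    (h1 : ∀ g ∈ V, g ∈ M.SU → ⁅g, a⁆ ∈ P)
    (h2 : ∀ g ∈ V, g ∈ M.SU → ∀ x ∈ P, g * x * g⁻¹ ∈ P) :
    ∀ᶠ g in 𝓝 (1 : unitary E), g ∈ M.SU → g ∈ P := by
  have b1 : ∀ y ∈ Tn F M.SU, y - a * y * star (a : E) ∈ Tn F (P ⊓ M.SU) := by
    rintro y hy
    have hs : star y = -y := M.Tn_le _ hy
    obtain ⟨γ, d, c2, c3⟩ := hy
    refine ⟨fun t : F => γ t * a * star (γ t) * star (a : E), ?_, by simp [c2, a.2.2], ?_⟩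
    · have := ((d.mul_const (a : E)).fun_mul (M.deriv_star d)).mul_const (star (a : E))
      convert this using 1
      simp [c2, hs, add_mul, mul_assoc, a.2.2, sub_eq_add_neg]
    · filter_upwards [ev_of_path hV d.hasDerivAt.continuousAt c2 c3] with t ⟨g, hg, hgV, e⟩
      exact ⟨_, ⟨h1 g hgV hg, M.comm_mem_SU _ _⟩, by rw [← e]; rfl⟩
  have b2 : ∀ y ∈ Tn F M.SU, ∀ z ∈ Tn F (P ⊓ M.SU), y * z - z * y ∈ Tn F (P ⊓ M.SU) := by
    rintro y hy z hz
    have hs := M.Tn_le _ hy
    obtain ⟨γ, d, c2, c3⟩ := hy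
    refine M.ad_mem d c2 hs ?_
    filter_upwards [ev_of_path hV d.hasDerivAt.continuousAt c2 c3] with t ⟨g, hg, hgV, e⟩
    rw [← e]
    exact Tn_conj (fun x hx => Subgroup.mem_inf.2
      ⟨h2 g hgV hg x hx.1, (inferInstance : M.SU.Normal).conj_mem x hx.2 g⟩) hz
  have b3 : ∀ X ∈ Submodule.span Ω (M.f '' Tn F M.SU), X - M.f a * X * M.f (star (a : E)) ∈
      Submodule.span Ω (M.f '' Tn F (P ⊓ M.SU)) := by
    intro X hX
    induction hX using Submodule.span_induction with
    | mem x hx =>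
      obtain ⟨y, hy, rfl⟩ := hx
      exact Submodule.subset_span ⟨_, b1 y hy, by simp⟩
    | zero => simp
    | add a b _ _ ha hb =>
      convert Submodule.add_mem _ ha hb using 1
      noncomm_ring
    | smul c a _ ha =>
      convert Submodule.smul_mem _ c ha using 1
      rw [mul_smul_comm, smul_mul_assoc, smul_sub]
  obtain ⟨e, he, htr⟩ := M.exists_trace (by omega)
  exact (M.open_of_tan (P := P ⊓ M.SU) inf_le_right he htr (M.decomp_of_traceless (M.Tn_le _) he htr
    fun Y hY => M.traceless_mem hn b2 (M.exists_noncentral ha b3) hY)).mono fun g hg hg' => (hg hg').1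

end Mdl

end Vale.Agent.P011NC
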