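import Vale.Agent.P011NC.SL2
import Vale.Agent.P011NC.Open

/-! The group generated by the unipotent elements: cocompactness, open subgroups, characters. -/

namespace Vale.Agent.P011NC

open Module Topology Filter Matrix

namespace Mdl

variable {F E Ω : Type*} [NontriviallyNormedField F] [NormedRing E] [StarRing E]
  [NormedAlgebra F E] [Field Ω] [Algebra F Ω] {n : ℕ} (M : Mdl F E Ω n)

theorem tendsto_un {x : E} (hx : Nil x) :
    Tendsto (fun l : F => un (M.nil_smul hx (l * l))) (𝓝[≠] 0) (𝓝 1) := by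
  refine Tendsto.mono_left ?_ nhdsWithin_le_nhds
  rw [tendsto_subtype_rng]
  have : Continuous fun l : F => 1 + (l * l) • x := by fun_prop
  simpa [un_val] using this.tendsto 0

/-- An open subgroup normalised by the unipotent elements contains them. -/
theorem Gp_le_of_open {P : Subgroup (unitary E)}
    (h1 : ∀ᶠ g in 𝓝 (1 : unitary E), g ∈ M.SU → g ∈ P)
    (h2 : ∀ t ∈ Gp E, ∀ x ∈ P, t * x * t⁻¹ ∈ P) : Gp E ≤ P := Gp_le fun x hx => by
  obtain ⟨l, a, hl⟩ := (((M.tendsto_un hx).eventually h1).and self_mem_nhdsWithin).exists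
  obtain ⟨t, ht, e⟩ := M.exists_contr hx hl
  have := h2 _ (inv_mem ht) _ (a (M.Gp_le_SU (un_mem _)))
  rw [← e] at this
  simpa [mul_assoc] using this

include M in
/-- Continuous additive characters vanish on the unipotent elements. -/
theorem char_Gp {χ : unitary E → ℝ} (h1 : ∀ a ∈ Gp E, ∀ b ∈ Gp E, χ (a * b) = χ a + χ b)
    (h2 : ContinuousWithinAt χ (Gp E) 1) : ∀ a ∈ Gp E, χ a = 0 := by
  have h0 : χ 1 = 0 := by simpa using h1 1 (one_mem _) 1 (one_mem _)
  have hi : ∀ a ∈ Gp E, χ a⁻¹ = -χ a := fun a ha => by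
    have := h1 a ha _ (inv_mem ha)
    rw [mul_inv_cancel, h0] at this
    linarith
  let Q : Subgroup (unitary E) :=
    { carrier := {a | a ∈ Gp E ∧ χ a = 0}
      mul_mem' := fun {a b} ha hb => ⟨mul_mem ha.1 hb.1, by rw [h1 a ha.1 b hb.1, ha.2, hb.2, add_zero]⟩
      one_mem' := ⟨one_mem _, h0⟩
      inv_mem' := fun {a} ha => ⟨inv_mem ha.1, by rw [hi a ha.1, ha.2, neg_zero]⟩ }
  refine fun a ha => (Gp_le (P := Q) (fun x hx => ⟨un_mem hx, ?_⟩) ha).2
  have a1 : Tendsto (fun l : F => χ (un (M.nil_smul hx (l * l)))) (𝓝[≠] 0) (𝓝 (χ 1)) :=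
    h2.tendsto.comp (tendsto_nhdsWithin_iff.2 ⟨M.tendsto_un hx, .of_forall fun _ => un_mem _⟩)
  have a2 : ∀ᶠ l : F in 𝓝[≠] 0, χ (un (M.nil_smul hx (l * l))) = χ (un hx) := by
    filter_upwards [self_mem_nhdsWithin] with l hl
    obtain ⟨t, ht, e⟩ := M.exists_contr hx hl
    rw [← e, h1 _ (mul_mem ht (un_mem hx)) _ (inv_mem ht), h1 _ ht _ (un_mem hx), hi t ht]
    ring
  rw [← h0]
  exact tendsto_nhds_unique (tendsto_const_nhds.congr' (a2.mono fun _ h => h.symm)) a1

/-- Isotropic singular elements are contracted. -/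
theorem contract {θ : E} (h1 : star θ * θ = 0) (h2 : (M.f θ).det = 0)
    (h3 : (M.f (star θ)).det = 0) {ε : ℝ} (hε : 0 < ε) : ∃ t ∈ Gp E, ‖(t : E) * θ‖ < ε := by
  have := M.fd
  induction hm : finrank F (LinearMap.range (LinearMap.mulLeft F θ)) using Nat.strong_induction_on
    generalizing θ with
  | _ m ih =>
  by_cases h0 : θ = 0
  · exact ⟨1, one_mem _, by simpa [h0] using hε⟩
  obtain ⟨x, hx, hxθ, u, v, huv, hu0⟩ := M.step h0 h1 h2 h3
  obtain ⟨y, hy, e1, e2⟩ := M.triple hx
  have hθx : star θ * x = 0 := by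
    have := congrArg star hxθ
    rwa [star_mul, hx.1, mul_neg, star_zero, neg_eq_zero] at this
  have a1 : star ((1 - x * y) * θ) * ((1 - x * y) * θ) = 0 := by
    have r1 : ∀ u, x * (x * u) = 0 := fun u => by rw [← mul_assoc, hx.2, zero_mul]
    have r2 : ∀ u, star θ * (x * u) = 0 := fun u => by rw [← mul_assoc, hθx, zero_mul]
    simp only [star_mul, star_sub, hx.1, hy.1, neg_mul_neg, mul_sub, sub_mul, mul_assoc,
      one_mul, r1, r2, h1, hxθ, mul_zero, sub_zero]
  have a2 : finrank F (LinearMap.range (LinearMap.mulLeft F ((1 - x * y) * θ))) < m := by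
    have b1 := (LinearMap.mulLeft F ((1 - x * y) * θ)).finrank_range_add_finrank_ker
    have b2 := (LinearMap.mulLeft F θ).finrank_range_add_finrank_ker
    have b3 : LinearMap.ker (LinearMap.mulLeft F θ) <
        LinearMap.ker (LinearMap.mulLeft F ((1 - x * y) * θ)) := by
      refine lt_of_le_of_ne (fun a ha => ?_) fun h => hu0 ?_
      · rw [LinearMap.mem_ker, LinearMap.mulLeft_apply] at ha ⊢
        rw [mul_assoc, ha, mul_zero]
      · have : v ∈ LinearMap.ker (LinearMap.mulLeft F ((1 - x * y) * θ)) := by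
          rw [LinearMap.mem_ker, LinearMap.mulLeft_apply, mul_assoc, ← huv, sub_mul, one_mul,
            ← mul_assoc, e1, sub_self]
        rw [← h] at this
        exact huv.trans this
    have := Submodule.finrank_lt_finrank_of_lt b3
    omega
  obtain ⟨t, ht, h⟩ := ih _ a2 a1 (by rw [map_mul, det_mul, h2, mul_zero])
    (by rw [star_mul, map_mul, det_mul, h3, zero_mul]) rfl
  have c1 : Continuous fun l : F => ‖(t : E) * ((1 - x * y) * θ + l • (x * y * θ))‖ := by fun_prop
  have c2 := (c1.tendsto 0).eventually_lt_const (by simpa using h)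
  obtain ⟨l, c3, hl⟩ := ((c2.filter_mono (nhdsWithin_le_nhds (s := {0}ᶜ))).and
    self_mem_nhdsWithin).exists
  obtain ⟨s, hs, e⟩ := M.exists_tor hx hy e1 e2 hl
  refine ⟨t * s, mul_mem ht hs, ?_⟩
  refine lt_of_eq_of_lt (congrArg norm ?_) c3
  rw [Submonoid.coe_mul, mul_assoc, e, tor, add_mul, add_mul, smul_mul_assoc, smul_mul_assoc,
    mul_assoc y, hxθ, mul_zero, smul_zero, add_zero, sub_mul, sub_smul, one_smul]
  congr 1
  abel

omit [StarRing E] in
theorem lin_quad {u v : E} {C : ℝ} (h : ∀ a : F, ‖a • u + (a * a) • v‖ ≤ C) : u = 0 := by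
  have a1 : ∀ b : F, b ≠ 0 → ‖b • u + v‖ ≤ ‖b‖ * ‖b‖ * C := fun b hb => by
    have e : b • u + v = (b * b) • (b⁻¹ • u + (b⁻¹ * b⁻¹) • v) := by
      match_scalars <;> field_simp
    rw [e, norm_smul, norm_mul]
    exact mul_le_mul_of_nonneg_left (h _) (by positivity)
  have lim : ∀ {f g : F → ℝ}, Continuous f → Continuous g → (∀ b, b ≠ 0 → f b ≤ g b) →
      f 0 ≤ g 0 := fun hf hg hb =>
    le_of_tendsto_of_tendsto ((hf.tendsto 0).mono_left nhdsWithin_le_nhds)
      ((hg.tendsto 0).mono_left nhdsWithin_le_nhds)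
      (eventually_nhdsWithin_of_forall (s := {0}ᶜ) hb)
  have hv : v = 0 := by simpa using lim (by fun_prop) (by fun_prop) a1
  have a2 : ∀ b : F, b ≠ 0 → ‖u‖ ≤ ‖b‖ * C := fun b hb => by
    have := a1 b hb
    rw [hv, add_zero, norm_smul, mul_assoc] at this
    exact le_of_mul_le_mul_left this (norm_pos_iff.2 hb)
  simpa using lim (by fun_prop) (by fun_prop) a2

section complete

variable [CompleteSpace F]

include M in
/-- An element with bounded conjugates is central if there are unipotent elements. -/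
theorem central_of_bdd (hn : 3 ≤ n) (hx : ∃ x : E, Nil x ∧ x ≠ 0) {h : E} {C : ℝ}
    (hC : ∀ t ∈ Gp E, ‖(t : E) * h * star (t : E)‖ ≤ C) (z : E) : h * z = z * h := by
  have a1 : ∀ x, Nil x → h * x = x * h := fun x hx => by
    have : x * h - h * x = 0 := by
      refine lin_quad (F := F) (v := -(x * h * x)) (C := C + ‖h‖) fun a => ?_
      have := hC _ (un_mem (M.nil_smul hx a))
      rw [un_val, star_add, star_one, (M.nil_smul hx a).1] at this
      have e : a • (x * h - h * x) + (a * a) • -(x * h * x) =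
          (1 + a • x) * h * (1 + -(a • x)) - h := by
        simp only [mul_add, add_mul, mul_neg, smul_mul_assoc, mul_smul_comm, one_mul, mul_one]
        module
      rw [e]
      exact (norm_sub_le _ _).trans (by linarith)
    exact (sub_eq_zero.1 this).symm
  let W : Submodule F E := Submodule.span F {x | Nil x}
  have a2 : ∀ g : unitary E, ∀ z ∈ W, (g : E) * z * star (g : E) ∈ W := fun g z hz => by
    induction hz using Submodule.span_induction with
    | mem x hx => exact Submodule.subset_span (hx.conj g)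
    | zero => simp
    | add a b _ _ ha hb => rw [mul_add, add_mul]; exact W.add_mem ha hb
    | smul c a _ ha => rw [mul_smul_comm, smul_mul_assoc]; exact W.smul_mem _ ha
  have a3 : ∀ y ∈ Tn F M.SU, ∀ z ∈ W, y * z - z * y ∈ W := fun y hy z hz =>
    M.ad_mem (M.deriv_cay_smul y) (by simp [M.cay_zero]) (M.Tn_le _ hy)
      ((M.ev_cay_smul (M.Tn_le _ hy)).mono fun t ht => a2 ⟨_, ht⟩ z hz)
  have a4 : ∃ Z ∈ Submodule.span Ω (M.f '' W), ∃ Y, Z * Y ≠ Y * Z := by
    obtain ⟨x, hx, hx0⟩ := hx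
    refine ⟨M.f x, Submodule.subset_span ⟨x, Submodule.subset_span hx, rfl⟩, ?_⟩
    by_contra hc
    push Not at hc
    obtain ⟨c, hc'⟩ := mem_range_scalar_iff_commute_single'.2 fun p q => (hc (single p q 1)).symm
    have e : scalar (Fin n) (c * c) = 0 := by rw [map_mul, hc', ← map_mul, hx.2, map_zero]
    have e2 : c = 0 := by simpa using congrFun (congrFun e ⟨0, by omega⟩) ⟨0, by omega⟩
    exact hx0 (M.inj_Sk hx.1 (by rw [← hc', e2, map_zero]))
  have a5 : ∀ h : E, (∀ x, Nil x → h * x = x * h) → ∀ Y, M.f h * Y = Y * M.f h := by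
    intro h a1
    refine scalar_of_comm fun i j hij => ?_
    have := M.traceless_mem hn a3 a4 (Y := single i j 1) (trace_single_eq_of_ne _ _ _ hij)
    generalize single i j (1 : Ω) = X at this
    induction this using Submodule.span_induction with
    | mem x hx =>
      obtain ⟨y, hy, rfl⟩ := hx
      rw [← map_mul, ← map_mul]
      congr 1
      induction hy using Submodule.span_induction with
      | mem x hx => exact a1 x hx
      | zero => simp
      | add a b _ _ ha hb => rw [mul_add, add_mul, ha, hb]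
      | smul c a _ ha => rw [mul_smul_comm, smul_mul_assoc, ha]
    | zero => simp
    | add a b _ _ ha hb => rw [mul_add, add_mul, ha, hb]
    | smul c a _ ha => rw [mul_smul_comm, smul_mul_assoc, ha]
  refine M.central_of (a5 h a1) (a5 _ fun x hx => ?_) z
  have := congrArg star (a1 x hx)
  rw [star_mul, star_mul, hx.1, neg_mul, mul_neg, neg_inj] at this
  exact this.symm

end complete

variable [ProperSpace F]

include M in
theorem proper : ProperSpace E := by
  have := M.fd
  exact FiniteDimensional.proper F E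

include M in
theorem isCompact_ball (R : ℝ) : IsCompact {g : unitary E | ‖(g : E)‖ ≤ R} := by
  have := M.proper
  have := M.contStar
  have h := isClosed_unitary.isClosedEmbedding_subtypeVal.isCompact_preimage
    (isCompact_closedBall (0 : E) R)
  simpa [Set.preimage] using h

include M in
theorem locCompact : LocallyCompactSpace (unitary E) := by
  have := M.proper
  have := M.contStar
  exact isClosed_unitary.isClosedEmbedding_subtypeVal.locallyCompactSpace

theorem halve (hn : 0 < n) : ∃ T : Set (unitary E), T.Finite ∧ T ⊆ Gp E ∧ ∃ R : ℝ, 0 < R ∧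
    ∀ g ∈ M.SU, R < ‖(g : E)‖ → ∃ t ∈ T, ‖(t : E) * g‖ ≤ ‖(g : E)‖ / 2 := by
  have := M.proper
  have := M.contStar
  obtain ⟨c, hc⟩ := NormedField.exists_one_lt_norm F
  let K : Set (E × F) := (Metric.closedBall 0 ‖c‖ ×ˢ Metric.closedBall 0 1) ∩
    ({p | 1 ≤ ‖p.1‖} ∩ {p | star p.1 * p.1 = (p.2 * p.2) • 1} ∩
      {p | (M.f p.1).det = algebraMap F Ω (p.2 ^ n)} ∩
      {p | (M.f (star p.1)).det = algebraMap F Ω (p.2 ^ n)})
  have hK : IsCompact K := ((isCompact_closedBall _ _).prod (isCompact_closedBall _ _)).inter_right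
    ((((isClosed_le continuous_const (by fun_prop)).inter
      (isClosed_eq (by fun_prop) (by fun_prop))).inter
      (M.isClosed_det (by fun_prop) (by fun_prop))).inter
      (M.isClosed_det (by fun_prop) (by fun_prop)))
  obtain ⟨T, hT, hTG, δ, hδ, h⟩ : ∃ T : Set (unitary E), T.Finite ∧ T ⊆ Gp E ∧ ∃ δ : ℝ, 0 < δ ∧
      ∀ p ∈ K, ‖p.2‖ < δ → ∃ t ∈ T, ‖(t : E) * p.1‖ < 1 / 2 := by
    refine hK.induction_on ⟨∅, Set.finite_empty, Set.empty_subset _, 1, one_pos, by simp⟩
      ?_ ?_ ?_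
    · rintro s s' hs ⟨T, a, b, δ, d, h⟩
      exact ⟨T, a, b, δ, d, fun p hp => h p (hs hp)⟩
    · rintro s s' ⟨T, a, b, δ, d, h⟩ ⟨T', a', b', δ', d', h'⟩
      refine ⟨T ∪ T', a.union a', Set.union_subset b b', min δ δ', lt_min d d', ?_⟩
      rintro p (hp | hp) hδ
      · obtain ⟨t, ht, e⟩ := h p hp (hδ.trans_le (min_le_left _ _))
        exact ⟨t, Or.inl ht, e⟩
      · obtain ⟨t, ht, e⟩ := h' p hp (hδ.trans_le (min_le_right _ _))
        exact ⟨t, Or.inr ht, e⟩
    · rintro ⟨θ, d⟩ ⟨-, ⟨⟨-, a1⟩, a2⟩, a3⟩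
      by_cases hd : d = 0
      · subst hd
        obtain ⟨t, ht, e⟩ := M.contract (θ := θ) (by simpa using a1)
          (by simpa [hn.ne'] using a2) (by simpa [hn.ne'] using a3) one_half_pos
        refine ⟨{p | ‖(t : E) * p.1‖ < 1 / 2}, nhdsWithin_le_nhds
          ((isOpen_lt (by fun_prop) continuous_const).mem_nhds e), {t}, Set.finite_singleton t,
          by simpa using ht, 1, one_pos, fun p hp _ => ⟨t, rfl, hp⟩⟩
      · have h0 := half_pos (norm_pos_iff.2 hd)
        refine ⟨{p | ‖d‖ / 2 < ‖p.2‖}, nhdsWithin_le_nhds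
          ((isOpen_lt continuous_const (by fun_prop)).mem_nhds (half_lt_self (norm_pos_iff.2 hd))),
          ∅, Set.finite_empty, Set.empty_subset _, ‖d‖ / 2, h0,
          fun p hp hp' => absurd hp' (not_lt.2 (le_of_lt hp))⟩
  have hc0 : 0 < ‖c‖ := by linarith
  refine ⟨T, hT, hTG, ‖c‖ / min δ 1, div_pos hc0 (lt_min hδ one_pos), fun g hg hR => ?_⟩
  have hm : 0 < min δ 1 := lt_min hδ one_pos
  have hg0 : 0 < ‖(g : E)‖ := (div_pos hc0 hm).trans hR
  obtain ⟨d, hd0, b1, b2, -⟩ := rescale_to_shell hc hc0 (norm_pos_iff.1 hg0)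
  rw [div_self hc0.ne'] at b2
  have b3 : ‖d‖ < min δ 1 := by
    rw [norm_smul] at b1
    rw [div_lt_iff₀ hm] at hR
    exact lt_of_mul_lt_mul_right (b1.trans (hR.trans_eq (mul_comm _ _))) hg0.le
  have b4 : (M.f (star (g : E))).det = 1 := M.mem_SU.1 (inv_mem hg)
  have b5 : ∀ x : E, (M.f x).det = 1 → (M.f (d • x)).det = algebraMap F Ω (d ^ n) := fun x hx => by
    rw [map_smul, ← algebraMap_smul Ω d (M.f x), det_smul, hx, map_pow, Fintype.card_fin, mul_one]
  obtain ⟨t, ht, e⟩ := h (d • (g : E), d) ⟨⟨by simpa using b1.le,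
    by simpa using (b3.trans_le (min_le_right _ _)).le⟩, ⟨⟨b2, by
      simp [M.star_smul, smul_smul, g.2.1]⟩, by
      exact b5 _ (M.mem_SU.1 hg)⟩, by
      rw [Set.mem_ofPred_eq, M.star_smul]
      exact b5 _ b4⟩ (b3.trans_le (min_le_left _ _))
  refine ⟨t, ht, le_of_mul_le_mul_left ?_ (norm_pos_iff.2 hd0)⟩
  rw [norm_smul] at b2
  rw [mul_smul_comm, norm_smul] at e
  linarith

/-- **Cocompactness** of a finitely generated subgroup of the group generated by the unipotent
elements. -/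
theorem cocompact (hn : 0 < n) : ∃ T : Set (unitary E), T.Finite ∧ T ⊆ Gp E ∧
    ∃ C : Set (unitary E), IsCompact C ∧ C ⊆ M.SU ∧
      ∀ g ∈ M.SU, ∃ t ∈ Subgroup.closure T, t * g ∈ C := by
  obtain ⟨T, hT, hTG, R, hR, h⟩ := M.halve hn
  refine ⟨T, hT, hTG, {g | ‖(g : E)‖ ≤ R} ∩ M.SU, (M.isCompact_ball R).inter_right M.isClosed_SU,
    Set.inter_subset_right, fun g hg => ?_⟩
  obtain ⟨m, hm⟩ : ∃ m : ℕ, ‖(g : E)‖ ≤ 2 ^ m * R := by
    obtain ⟨m, hm⟩ := pow_unbounded_of_one_lt (‖(g : E)‖ / R) one_lt_two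
    exact ⟨m, ((div_lt_iff₀ hR).1 hm).le⟩
  induction m generalizing g with
  | zero => exact ⟨1, one_mem _, by simpa using hm, by simpa using hg⟩
  | succ m ih =>
    by_cases hgR : ‖(g : E)‖ ≤ R
    · exact ⟨1, one_mem _, by simpa using hgR, by simpa using hg⟩
    obtain ⟨t, ht, e⟩ := h g hg (not_le.1 hgR)
    obtain ⟨s, hs, e'⟩ := ih (t * g) (mul_mem (M.Gp_le_SU (hTG ht)) hg) (by
      rw [Submonoid.coe_mul]
      rw [pow_succ] at hm
      linarith)
    exact ⟨s * t, mul_mem hs (Subgroup.subset_closure ht), by rwa [mul_assoc]⟩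

end Mdl

end Vale.Agent.P011NC
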