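import Mathlib.LinearAlgebra.Matrix.Trace
import Mathlib.LinearAlgebra.Matrix.Determinant.Basic
import Mathlib.RingTheory.SimpleModule.Basic
import Mathlib.RingTheory.SimpleRing.Matrix
import Mathlib.RingTheory.SimpleModule.WedderburnArtin
import Mathlib.Tactic

/-! Matrices over a field: subspaces stable under brackets, regularity, primeness. -/

namespace Vale.Agent.P011NC

open Matrix

set_option linter.unusedSimpArgs false

variable {Ω : Type*} [Field Ω] {n : ℕ}

/-- A matrix commuting with the off diagonal matrix units is scalar. -/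
theorem scalar_of_comm {Z : Matrix (Fin n) (Fin n) Ω}
    (h : ∀ i j, i ≠ j → Z * single i j 1 = single i j 1 * Z) (Y : Matrix (Fin n) (Fin n) Ω) :
    Z * Y = Y * Z := by
  have h1 : ∀ i j, i ≠ j → Z i j = 0 := by
    intro i j hij
    have := congrFun (congrFun (h j i hij.symm) i) i
    simpa [mul_apply, single, hij, hij.symm] using this
  have h2 : ∀ i j, Z i i = Z j j := by
    intro i j
    by_cases hij : i = j
    · rw [hij]
    · have := congrFun (congrFun (h i j hij) i) j
      simpa [mul_apply, single] using this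
  ext i j
  rw [mul_apply, mul_apply, Finset.sum_eq_single i, Finset.sum_eq_single j, h2 i j, mul_comm]
  · intro b _ hb
    rw [h1 b j hb, mul_zero]
  · simp
  · intro b _ hb
    rw [h1 i b (Ne.symm hb), zero_mul]
  · simp

theorem exists_third (hn : 3 ≤ n) (i j : Fin n) : ∃ l : Fin n, l ≠ i ∧ l ≠ j := by
  by_contra h
  push Not at h
  have : (Finset.univ : Finset (Fin n)) ⊆ {i, j} := by
    intro l _
    by_cases hl : l = i
    · simp [hl]
    · simp [h l hl]
  have h2 := (Finset.card_le_card this).trans Finset.card_le_two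
  simp at h2
  omega

/-- A subspace stable under the brackets with the off diagonal matrix units which contains a matrix
which is not central contains all matrices of trace zero. -/
theorem lie_ideal (hn : 3 ≤ n) (W : Submodule Ω (Matrix (Fin n) (Fin n) Ω))
    (hW : ∀ i j, i ≠ j → ∀ Z ∈ W, single i j 1 * Z - Z * single i j 1 ∈ W)
    {Z : Matrix (Fin n) (Fin n) Ω} (hZ : Z ∈ W) (hnc : ∃ Y, Z * Y ≠ Y * Z)
    {Y : Matrix (Fin n) (Fin n) Ω} (hY : Y.trace = 0) : Y ∈ W := by
  have unit_of : ∀ i j (c : Ω), c ≠ 0 → single i j c ∈ W → single i j (1 : Ω) ∈ W := by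
    intro i j c hc h
    have := W.smul_mem c⁻¹ h
    rwa [smul_single, smul_eq_mul, inv_mul_cancel₀ hc] at this
  have h0 : ∃ i j, i ≠ j ∧ single i j (1 : Ω) ∈ W := by
    by_cases hd : ∃ i j, i ≠ j ∧ Z i j ≠ 0
    · obtain ⟨i, j, hij, hz⟩ := hd
      obtain ⟨l, hli, hlj⟩ := exists_third hn i j
      have a1 := hW j l hlj.symm _ (hW j i hij.symm _ (hW l i hli _ hZ))
      refine ⟨j, i, hij.symm, unit_of j i (-Z i j) (neg_ne_zero.2 hz) ?_⟩
      convert a1 using 1
      simp only [mul_sub, sub_mul, ← mul_assoc, single_mul_single_same,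
        single_mul_single_of_ne _ _ _ _ hij, single_mul_single_of_ne _ _ _ _ hli.symm,
        single_mul_single_of_ne _ _ _ _ hlj, single_mul_mul_single, zero_mul]
      simp only [mul_assoc, single_mul_single_same,
        single_mul_single_of_ne _ _ _ _ hij, single_mul_single_of_ne _ _ _ _ hli.symm,
        single_mul_single_of_ne _ _ _ _ hlj, mul_zero]
      simp [single_neg]
    · push Not at hd
      have : ∃ i j, i ≠ j ∧ Z i i ≠ Z j j := by
        by_contra hc
        push Not at hc
        obtain ⟨Y, hY⟩ := hnc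
        refine hY (scalar_of_comm (fun i j hij => ?_) Y)
        ext a b
        by_cases hb : b = j
        · subst hb
          by_cases ha : a = i
          · subst ha
            simp [hc a b hij]
          · simp [ha, hd a i ha, mul_apply, single, Ne.symm ha]
        · by_cases ha : a = i
          · subst ha
            simp [hb, hd j b (Ne.symm hb), mul_apply, single, Ne.symm hb]
          · simp [mul_apply, single, Ne.symm ha, Ne.symm hb]
      obtain ⟨i, j, hij, hz⟩ := this
      refine ⟨i, j, hij, unit_of i j (Z j j - Z i i) (sub_ne_zero.2 hz.symm) ?_⟩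
      convert hW i j hij _ hZ using 1
      ext a b
      by_cases hb : b = j
      · subst hb
        by_cases ha : a = i
        · subst ha
          simp
        · simp [ha, hd a i ha, mul_apply, single, Ne.symm ha]
      · by_cases ha : a = i
        · subst ha
          simp [hb, hd j b (Ne.symm hb), mul_apply, single, Ne.symm hb]
        · simp [mul_apply, single, Ne.symm ha, Ne.symm hb]
  have left : ∀ i j l, i ≠ j → l ≠ i → l ≠ j → single i j (1 : Ω) ∈ W → single l j (1 : Ω) ∈ W := by
    intro i j l hij hli hlj h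
    have := hW l i hli _ h
    rwa [single_mul_single_same, single_mul_single_of_ne _ _ _ _ hlj.symm, sub_zero,
      one_mul] at this
  have right : ∀ i j l, i ≠ j → l ≠ i → l ≠ j → single i j (1 : Ω) ∈ W →
      single i l (1 : Ω) ∈ W := by
    intro i j l hij hli hlj h
    have := W.neg_mem (hW j l hlj.symm _ h)
    rwa [single_mul_single_same, single_mul_single_of_ne _ _ _ _ hli, zero_sub, neg_neg,
      one_mul] at this
  have hall : ∀ a b, a ≠ b → single a b (1 : Ω) ∈ W := by
    obtain ⟨i, j, hij, h⟩ := h0
    have hcol : ∀ a, a ≠ j → single a j (1 : Ω) ∈ W := by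
      intro a ha
      by_cases hai : a = i
      · rwa [hai]
      · exact left i j a hij hai ha h
    have hrow : ∀ a b, a ≠ j → a ≠ b → single a b (1 : Ω) ∈ W := by
      intro a b ha hab
      by_cases hb : b = j
      · rw [hb]; exact hcol a ha
      · exact right a j b ha hab.symm hb (hcol a ha)
    intro a b hab
    by_cases ha : a = j
    · obtain ⟨l, hl1, hl2⟩ := exists_third hn a b
      exact left l b a hl2 hl1.symm hab (hrow l b (ha ▸ hl1) hl2)
    · exact hrow a b ha hab
  have i0 : Fin n := ⟨0, by omega⟩
  have hdiag : ∀ a, single a a (1 : Ω) - single i0 i0 1 ∈ W := by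
    intro a
    by_cases ha : a = i0
    · rw [ha, sub_self]; exact W.zero_mem
    · have := hW a i0 ha _ (hall i0 a (Ne.symm ha))
      rwa [single_mul_single_same, single_mul_single_same, one_mul] at this
  have e : Y = ∑ a, ∑ b, Y a b • (single a b (1 : Ω) - if a = b then single i0 i0 1 else 0) := by
    simp only [smul_sub, Finset.sum_sub_distrib, smul_ite, smul_zero, Finset.sum_ite_eq,
      Finset.mem_univ, if_true]
    rw [← Finset.sum_smul]
    have : ∑ a, Y a a = 0 := hY
    rw [this, zero_smul, sub_zero]
    simp only [smul_single, smul_eq_mul, mul_one]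
    exact matrix_eq_sum_single Y
  rw [e]
  refine W.sum_mem fun a _ => W.sum_mem fun b _ => W.smul_mem _ ?_
  by_cases hab : a = b
  · subst hab
    simpa using hdiag a
  · simpa [hab] using hall a b hab

/-- Matrices over a field are regular. -/
theorem mat_regular (X : Matrix (Fin n) (Fin n) Ω) : ∃ Z, X * Z * X = X := by
  obtain ⟨e, he, hI⟩ := IsSemisimpleRing.ideal_eq_span_idempotent (Ideal.span {X})
  have h1 : e ∈ Ideal.span {X} := hI ▸ Ideal.subset_span rfl
  have h2 : X ∈ Ideal.span {e} := hI ▸ Ideal.subset_span rfl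
  obtain ⟨z, hz⟩ := Ideal.mem_span_singleton'.1 h1
  obtain ⟨w, hw⟩ := Ideal.mem_span_singleton'.1 h2
  refine ⟨z, ?_⟩
  rw [mul_assoc, hz]
  conv_lhs => rw [← hw, mul_assoc, he.eq]
  exact hw

/-- Matrix rings over fields are prime. -/
theorem mat_prime {X Y : Matrix (Fin n) (Fin n) Ω} (h : ∀ Z, X * Z * Y = 0) : X = 0 ∨ Y = 0 := by
  by_contra hc
  push Not at hc
  obtain ⟨hX, hY⟩ := hc
  obtain ⟨a, b, hab⟩ : ∃ a b, X a b ≠ 0 := by
    by_contra h1
    push Not at h1
    exact hX (Matrix.ext h1)
  obtain ⟨c, d, hcd⟩ : ∃ a b, Y a b ≠ 0 := by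
    by_contra h1
    push Not at h1
    exact hY (Matrix.ext h1)
  have := congrFun (congrFun (h (single b c 1)) a) d
  rw [mul_apply, Finset.sum_eq_single c] at this
  · simp only [mul_single_apply_same, mul_one, Matrix.zero_apply] at this
    exact mul_ne_zero hab hcd this
  · intro l _ hl
    rw [mul_single_apply_of_ne _ _ _ _ _ hl, zero_mul]
  · simp

/-- A matrix of square zero: the determinant of `1 + X` is one. -/
theorem det_one_add_sq_zero {X : Matrix (Fin n) (Fin n) Ω} (h : X * X = 0) : (1 + X).det = 1 := by
  have hn : IsNilpotent X := ⟨2, by rw [pow_two, h]⟩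
  have h1 := Matrix.isNilpotent_charpoly_sub_pow_of_isNilpotent hn.neg
  have h2 : (-X).charpoly = Polynomial.X ^ n := by
    simpa [sub_eq_zero] using h1
  have h3 := Matrix.eval_charpoly (-X) 1
  rw [h2] at h3
  simpa using h3.symm

end Vale.Agent.P011NC
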