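import Vale.Agent.P011NC.Clos
import Vale.Agent.P011NA.NSTOpen

/-! The normal subgroup theorem for the groups of the `S`-integral points. -/

namespace Vale.Agent.P011NC

open Module Topology Filter
open scoped Pointwise

theorem relIndex_of_fin {L : Type*} [Group L] (D : Subgroup L) (n : L) {Φ : Set L} (hΦ : Φ.Finite)
    (h : ∀ x ∈ D, ∃ θ ∈ D, θ⁻¹ * (n * x) ∈ Φ) :
    (D.comap (MulAut.conj n).toMonoidHom).relIndex D ≠ 0 := by
  choose θ hθ1 hθ2 using h
  have _hf : Finite Φ := hΦ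
  let H := (D.comap (MulAut.conj n).toMonoidHom).subgroupOf D
  let f : D → Φ := fun x => ⟨_, hθ2 (x : L)⁻¹ (inv_mem x.2)⟩
  have hf : Finite (D ⧸ H) := by
    refine Finite.of_injective (fun q : D ⧸ H => f q.out) fun q q' e => ?_
    rw [← q.out_eq, ← q'.out_eq]
    refine QuotientGroup.eq.mpr ?_
    have e1 : (θ _ (inv_mem q.out.2))⁻¹ * (n * (q.out : L)⁻¹) =
        (θ _ (inv_mem q'.out.2))⁻¹ * (n * (q'.out : L)⁻¹) := congrArg Subtype.val e
    have e2 : n * ((q.out : L)⁻¹ * (q'.out : L)) * n⁻¹ =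
        θ _ (inv_mem q.out.2) * (θ _ (inv_mem q'.out.2))⁻¹ := by
      calc n * ((q.out : L)⁻¹ * (q'.out : L)) * n⁻¹ = θ _ (inv_mem q.out.2) *
            ((θ _ (inv_mem q.out.2))⁻¹ * (n * (q.out : L)⁻¹)) * (q'.out : L) * n⁻¹ := by group
        _ = _ := by rw [e1]; group
    change n * ((q.out : L)⁻¹ * (q'.out : L)) * n⁻¹ ∈ D
    rw [e2]
    exact mul_mem (hθ1 _ _) (inv_mem (hθ1 _ _))
  exact Subgroup.index_ne_zero_of_finite

namespace Adel

variable {k A Ω : Type} [Field k] [Ring A] [StarRing A] [Algebra k A] [Field Ω]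
  [Algebra k Ω] {n : ℕ} {P : Type} {F E Om : P → Type} [∀ v, NontriviallyNormedField (F v)]
  [∀ v, NormedRing (E v)] [∀ v, StarRing (E v)] [∀ v, NormedAlgebra (F v) (E v)]
  [∀ v, Field (Om v)] [∀ v, Algebra (F v) (Om v)] (H : Adel k A Ω n F E Om)

/-- The diagonal map on the special unitary group. -/
def p (S : Finset P) : H.M.SU →* ∀ v : S, unitary (E v) := (H.pU S).comp H.M.SU.subtype

/-- The map to one completion. -/
def q (v : P) : H.M.SU →* unitary (E v) := (H.jU v).comp H.M.SU.subtype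

theorem q_SU (v : P) (g : H.M.SU) : H.q v g ∈ (H.L v).SU := H.jU_SU v g.2

theorem mem_D' {S : Finset P} {g : H.M.SU} : g ∈ H.D S ↔ ∀ v ∉ S, H.q v g ∈ H.K v := H.mem_D

theorem fin_of (S : Finset P) {C : Set (∀ v : S, unitary (E v))} (hC : IsCompact C) {c : P → ℝ}
    (hc : {v | 1 < c v}.Finite) :
    {g : H.M.SU | H.p S g ∈ C ∧ ∀ v ∉ S, ‖(H.q v g : E v)‖ ≤ c v}.Finite := by
  classical
  choose R hR using fun v : S => (hC.image (f := fun g : ∀ v : S, unitary (E v) =>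
    ‖(g v : E v)‖) (by fun_prop)).bddAbove
  have h := H.disc (fun v => if h : v ∈ S then R ⟨v, h⟩ else c v)
    ((S.finite_toSet.union hc).subset fun v hv => by
      by_cases h : v ∈ S
      · exact Or.inl h
      · exact Or.inr (by simpa [h] using hv))
  refine (h.preimage (f := fun g : H.M.SU => ((g : unitary A) : A))
    (Subtype.val_injective.comp Subtype.val_injective).injOn).subset fun g hg v => ?_
  by_cases h : v ∈ S
  · rw [dif_pos h]
    exact hR ⟨v, h⟩ ⟨_, hg.1, rfl⟩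
  · rw [dif_neg h]
    exact hg.2 v h

theorem hprop (S : Finset P) (C : Set (∀ v : S, unitary (E v))) (hC : IsCompact C) :
    {d : H.M.SU | d ∈ H.D S ∧ H.p S d ∈ C}.Finite :=
  (H.fin_of S hC (c := fun _ => 1) (by simp)).subset fun _ hd =>
    ⟨hd.2, fun v hv => (H.mem_D'.1 hd.1 v hv).1⟩

variable [∀ v, ContinuousStar (E v)] [∀ v, ProperSpace (F v)]

theorem hcoc {S : Finset P} (h1 : H.arch ⊆ S) (h2 : S.Nonempty) :
    ∃ C : Set (∀ v : S, unitary (E v)), IsCompact C ∧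
      ∀ l : H.M.SU, ∃ d ∈ H.D S, (H.p S d)⁻¹ * H.p S l ∈ C := by
  obtain ⟨R, hR⟩ := H.coc S h1 h2
  refine ⟨(Set.pi Set.univ fun v : S => {g : unitary (E v) | ‖(g : E v)‖ ≤ R})⁻¹,
    (isCompact_univ_pi fun v : S => (H.L v).isCompact_ball R).inv, fun l => ?_⟩
  obtain ⟨d, hd, h3, h4⟩ := hR _ l⁻¹.2
  refine ⟨⟨d, hd⟩, H.mem_D.2 fun v hv => ⟨(h3 v hv).1, H.j_star v _ ▸ (h3 v hv).2⟩, ?_⟩
  rw [Set.mem_inv, mul_inv_rev, inv_inv, ← map_inv, ← map_mul]
  exact fun v _ => h4 v v.2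

theorem hcomm {S : Finset P} (h1 : H.arch ⊆ S) (h2 : S.Nonempty) (g : H.M.SU) :
    ((H.D S).comap (MulAut.conj g).toMonoidHom).relIndex (H.D S) ≠ 0 := by
  obtain ⟨C, hC, h⟩ := H.hcoc h1 h2
  refine relIndex_of_fin _ g (H.fin_of S hC (H.fin (g : unitary A))) fun x hx => ?_
  obtain ⟨d, hd, e⟩ := h (g * x)
  refine ⟨d, hd, by simpa using e, fun v hv => ?_⟩
  rw [map_mul, map_mul, Submonoid.coe_mul, Submonoid.coe_mul]
  exact (norm_mul_le _ _).trans ((mul_le_of_le_one_left (norm_nonneg _)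
    (H.mem_D'.1 (inv_mem hd) v hv).1).trans ((norm_mul_le _ _).trans
      (mul_le_of_le_one_right (norm_nonneg _) (H.mem_D'.1 hx v hv).1)))

variable [DecidableEq P]

variable {H} in
theorem Big.index {S : Finset P} {X : Subgroup (∀ v : S, unitary (E v))} (h : H.Big X) :
    (X.comap (H.p S)).index ≠ 0 := by
  have h1 := Subgroup.relIndex_comap_ne_zero (H.p S) h.relIndex
  rwa [(Subgroup.eq_top_iff' ((H.SUS S).comap (H.p S))).2 fun g => H.pU_SUS S g.2,
    Subgroup.relIndex_top_right] at h1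

theorem big_of_normal (S : Finset P) (N : Subgroup H.M.SU) [hN : N.Normal]
    (h : ¬N ≤ Subgroup.center _) : H.Big (H.cl S (N.map H.M.SU.subtype)) := by
  obtain ⟨a, ha, hc⟩ := SetLike.not_le_iff_exists.1 h
  rw [Subgroup.mem_center_iff, not_forall] at hc
  obtain ⟨g, hg⟩ := hc
  refine H.big_N S (Subgroup.map_subtype_le _) ?_ (a := a) ⟨a, ha, rfl⟩ (x := (g : unitary A))
    fun e => hg (Subtype.ext (Subtype.ext e.symm))
  rintro b hb _ ⟨x, hx, rfl⟩
  exact ⟨_, hN.conj_mem x hx ⟨b, hb⟩, rfl⟩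

/-- **Normal subgroup theorem.** -/
theorem nst {S : Finset P} (h1 : H.arch ⊆ S) (h2 : S.Nonempty) (N : Subgroup H.M.SU) [N.Normal]
    (h : ¬N ≤ Subgroup.center _) : N.relIndex (H.D S) ≠ 0 := by
  have hb := H.big_of_normal S N h
  have := fun v : S => (H.L v).locCompact
  have h3 := P011NA.nst_open (H.p S) (H.D S) N _ (fun g _ => H.hcomm h1 h2 g) (H.hprop S)
    (H.hcoc h1 h2) ⟨_, hb.ev, fun g hg hg' => hg ?_⟩ (fun g hg => ?_) hb.gen
    fun χ a b _ => hb.hom a b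
  · refine Subgroup.relIndex_ne_zero_trans h3 ?_
    rw [Subgroup.inf_relIndex_left]
    exact fun e => hb.index (Subgroup.index_eq_zero_of_relIndex_eq_zero e)
  · refine H.cl_le le_rfl (closure_mono ?_ hg')
    rintro _ ⟨l, rfl⟩
    exact ⟨l, l.2, rfl⟩
  · refine closure_mono ?_ hg
    rintro _ ⟨_, ⟨l, hl, rfl⟩, rfl⟩
    exact ⟨l, hl, rfl⟩

end Adel

end Vale.Agent.P011NC
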