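import Vale.Agent.P011NC.Inf

/-! Strong approximation at one place for subgroups of finite index. -/

namespace Vale.Agent.P011NC

open Module Topology Filter
open scoped commutatorElement Pointwise

theorem conj_central {E : Type*} [Ring E] [StarRing E] {c u : unitary E}
    (h : ∀ z, (u : E) * z = z * u) : c * u * c⁻¹ = u := by
  rw [show c * u = u * c from Subtype.ext (h c).symm, mul_inv_cancel_right]

theorem Mdl.exists_exit {F E Ω : Type*} [NontriviallyNormedField F] [NormedRing E] [StarRing E]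
    [NormedAlgebra F E] [Field Ω] [Algebra F Ω] {n : ℕ} (M : Mdl F E Ω n) [ProperSpace F]
    [ContinuousStar E] (hn : 3 ≤ n) (hx : ∃ x : E, Nil x ∧ x ≠ 0) :
    ∃ δ : ℝ, 0 < δ ∧ ∃ Ξ : Set (unitary E), IsCompact Ξ ∧ (∀ ξ ∈ Ξ, ∃ z, (ξ : E) * z ≠ z * ξ) ∧
      ∀ h ∈ M.SU, h ≠ 1 → ‖(h : E) - 1‖ < δ → ∃ t ∈ Gp E, t * h * t⁻¹ ∈ Ξ := by
  have hZ := ((M.finite_centre (by omega)).sdiff (t := {1})).image
    fun g : unitary E => ‖(g : E) - 1‖
  obtain ⟨δ, hδ, h1⟩ := Metric.nhds_basis_closedBall.mem_iff.1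
    (hZ.isClosed.isOpen_compl.mem_nhds (x := 0) (by
      rintro ⟨g, hg, e⟩
      exact hg.2 (Subtype.ext (sub_eq_zero.1 (norm_eq_zero.1 e)))))
  have h2 : ∀ g ∈ M.SU, (∀ z, (g : E) * z = z * g) → ‖(g : E) - 1‖ ≤ δ → g = 1 :=
    fun g a b c => by
      by_contra e
      exact h1 (by simpa using c) ⟨g, ⟨⟨a, b⟩, e⟩, rfl⟩
  obtain ⟨T, t1, t2, C, c1, -, c2⟩ := M.cocompact (by omega)
  have c3 : Continuous fun g : unitary E => ‖(g : E) - 1‖ := by fun_prop
  have hB : IsCompact {g : unitary E | ‖(g : E) - 1‖ ≤ δ} :=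
    (M.isCompact_ball (δ + ‖(1 : E)‖)).of_isClosed_subset (isClosed_le c3 continuous_const)
      fun g hg => (norm_le_norm_sub_add _ _).trans (add_le_add_left hg _)
  refine ⟨δ, hδ, ((⋃ s ∈ T ∪ T⁻¹, (fun u => s * u * s⁻¹) '' {g | ‖(g : E) - 1‖ ≤ δ}) ∩
    {g | δ ≤ ‖(g : E) - 1‖}) ∩ M.SU, (((t1.union t1.inv).isCompact_biUnion fun s _ =>
      hB.image (by fun_prop)).inter_right (isClosed_le continuous_const c3)).inter_right
        M.isClosed_SU, ?_, fun h a b c => ?_⟩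
  · rintro ξ ⟨⟨a, b⟩, c⟩
    obtain ⟨s, -, u, hu, e⟩ := Set.mem_iUnion₂.1 a
    by_contra hc
    push Not at hc
    have e1 : u = ξ := by
      rw [← conj_central (c := s⁻¹) hc, ← e]
      group
    rw [h2 ξ c hc (e1 ▸ hu)] at b
    exact hδ.not_ge (by simpa using b)
  by_contra hc
  push Not at hc
  have h3 : ∀ s ∈ T ∪ T⁻¹, ∀ t ∈ Subgroup.closure T, ‖((t * h * t⁻¹ : unitary E) : E) - 1‖ < δ →
      ‖((s * t * h * (s * t)⁻¹ : unitary E) : E) - 1‖ < δ := fun s hs t ht e => by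
    by_contra e'
    refine hc (s * t) (mul_mem (hs.elim (fun a => t2 a) fun a => by simpa using inv_mem (t2 a))
      ((Subgroup.closure_le _).2 t2 ht)) ⟨⟨Set.mem_iUnion₂.2 ⟨s, hs, _, e.le, by group⟩,
        not_lt.1 e'⟩, Subgroup.Normal.conj_mem inferInstance h a _⟩
  have h4 : ∀ t ∈ Subgroup.closure T, ‖((t * h * t⁻¹ : unitary E) : E) - 1‖ < δ := fun t ht => by
    induction ht using Subgroup.closure_induction_left with
    | one => simpa using c
    | mul_left s hs t ht ih => exact h3 s (Or.inl hs) t ht ih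
    | inv_mul_cancel s hs t ht ih => exact h3 s⁻¹ (Or.inr (by simpa using hs)) t ht ih
  obtain ⟨R, hR⟩ := ((c1.prod hB).image (f := fun z : unitary E × unitary E =>
    ‖((z.1⁻¹ * z.2 * z.1 : unitary E) : E)‖) (by fun_prop)).bddAbove
  refine b (h2 h a (M.central_of_bdd hn hx (C := R) fun g hg => ?_) c.le)
  obtain ⟨t, ht, e⟩ := c2 _ (inv_mem (M.Gp_le_SU hg))
  refine hR ⟨(_, _), ⟨e, (h4 t ht).le⟩, ?_⟩
  exact congrArg (fun u : unitary E => ‖(u : E)‖) (show _ = g * h * g⁻¹ by group)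

theorem Mdl.relIndex_Kc {F E Ω : Type*} [NontriviallyNormedField F] [NormedRing E] [StarRing E]
    [NormedAlgebra F E] [Field Ω] [Algebra F Ω] {n : ℕ} (M : Mdl F E Ω n) [ProperSpace F]
    [ContinuousStar E] [IsUltrametricDist E] (h : ‖(1 : E)‖ = 1) {ε : ℝ} (hε : 0 < ε) :
    (Kc h hε).relIndex (Kb h) ≠ 0 :=
  relIndex_ne_zero_of_coc ((ev_Kc h hε).mono fun _ a _ => a) ((M.isCompact_ball 1).inter_right
    (isClosed_le (f := fun g : unitary E => ‖star (g : E)‖) (by fun_prop) continuous_const))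
    (fun _ a => a) fun g hg => ⟨1, one_mem _, by rwa [one_mul]⟩

namespace Adel

variable {k A Ω : Type} [Field k] [Ring A] [StarRing A] [Algebra k A] [Field Ω]
  [Algebra k Ω] {n : ℕ} {P : Type} {F E Om : P → Type} [∀ v, NontriviallyNormedField (F v)]
  [∀ v, NormedRing (E v)] [∀ v, StarRing (E v)] [∀ v, NormedAlgebra (F v) (E v)]
  [∀ v, Field (Om v)] [∀ v, Algebra (F v) (Om v)] (H : Adel k A Ω n F E Om)
  [∀ v, ContinuousStar (E v)] [∀ v, ProperSpace (F v)]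

theorem exists_near {w : P} (hw : w ∉ H.arch) {Y : Subgroup H.M.SU}
    (h1 : Y ≤ (H.K w).comap (H.q w)) (h2 : (Y : Set H.M.SU).Infinite) {δ : ℝ} (hδ : 0 < δ) :
    ∃ y ∈ Y, y ≠ 1 ∧ ‖(H.q w y : E w) - 1‖ < δ := by
  have := H.ultra w hw
  have h3 := Subgroup.relIndex_comap_ne_zero (H.q w) ((H.L w).relIndex_Kc (H.norm_one w) hδ)
  obtain ⟨y, hy, e⟩ := (infinite_of_relIndex
    (fun e => h3 (Subgroup.relIndex_eq_zero_of_le_right h1 e)) h2).exists_notMem_finite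
      (Set.finite_singleton 1)
  exact ⟨y, hy.2, e, hy.1.2⟩

/-- The closure of the rational points at one place. -/
def clq (w : P) : Subgroup (unitary (E w)) := (H.q w).range.topologicalClosure

theorem coc_clq {S : Finset P} (h1 : H.arch ⊆ S) {w : P} (hw : w ∈ S) :
    ∃ C : Set (unitary (E w)), IsCompact C ∧ ∀ t ∈ H.clq w, ∃ d ∈ H.D S, t * H.q w d ∈ C := by
  obtain ⟨C, hC, h⟩ := H.hcoc h1 ⟨w, hw⟩
  have := (H.L w).locCompact
  obtain ⟨V, hV, hV1⟩ := exists_compact_mem_nhds (1 : unitary (E w))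
  refine ⟨V * ((fun g => g ⟨w, hw⟩) '' C)⁻¹, hV.mul (hC.image (continuous_apply _)).inv,
    fun t ht => ?_⟩
  obtain ⟨_, a, l, rfl⟩ := mem_closure_iff_nhds.1 ht _
    (((continuous_const (y := t)).mul continuous_inv).continuousAt.preimage_mem_nhds
      (by simpa using hV1))
  obtain ⟨d, hd, e⟩ := h l⁻¹
  refine ⟨d, hd, _, a, H.q w l * H.q w d, ⟨_, e, ?_⟩, by simp⟩
  rw [mul_inv_rev, map_inv]
  rfl

variable [DecidableEq P]

omit [∀ v, ProperSpace (F v)] in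
theorem loc_le_clq {S : Finset P} (v : S) {X : Subgroup (unitary A)} (hX : X ≤ H.M.SU) :
    H.loc S X v ≤ H.clq v := fun g hg => by
  rw [← sg_same v g]
  refine map_mem_closure (f := fun u : ∀ v : S, unitary (E v) => u v) (continuous_apply v) hg ?_
  rintro _ ⟨x, hx, rfl⟩
  exact ⟨⟨x, hX hx⟩, rfl⟩

theorem ev_clq (w : P) : ∀ᶠ g in 𝓝 1, g ∈ (H.L w).SU → g ∈ H.clq w :=
  ((H.big_Cm {w}).op ⟨w, Finset.mem_singleton_self w⟩).mono fun _ a b =>
    H.loc_le_clq (S := {w}) ⟨w, Finset.mem_singleton_self w⟩ H.Cm_le (a b)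

theorem Gp_le_clq (w : P) : Gp (E w) ≤ H.clq w :=
  ((H.big_Cm {w}).gp ⟨w, Finset.mem_singleton_self w⟩).trans
    (H.loc_le_clq (S := {w}) ⟨w, Finset.mem_singleton_self w⟩ H.Cm_le)

/-- **Strong approximation.** -/
theorem sa {S : Finset P} (h1 : H.arch ⊆ S) (h2 : (H.D S : Set H.M.SU).Infinite) {w : P}
    (hw : w ∉ S) {X : Subgroup H.M.SU} (hX : X.relIndex (H.D (insert w S)) ≠ 0) :
    Gp (E w) ≤ ((X ⊓ H.D (insert w S)).map (H.q w)).topologicalClosure := by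
  by_cases hx : ∃ x : E w, Nil x ∧ x ≠ 0
  swap
  · push Not at hx
    refine Gp_le fun x h => ?_
    rw [show un h = 1 from Subtype.ext (by simp [un_val, hx x h])]
    exact one_mem _
  have h1' := h1.trans (Finset.subset_insert w S)
  set D := H.D (insert w S)
  let I := {X : Subgroup H.M.SU // X.relIndex D ≠ 0}
  let c : I → Subgroup (unitary (E w)) := fun X => ((X.1 ⊓ D).map (H.q w)).topologicalClosure
  have a1 : IsClosed ((⨅ X, c X : Subgroup _) : Set (unitary (E w))) := by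
    rw [Subgroup.coe_iInf]
    exact isClosed_iInter fun X => Subgroup.isClosed_topologicalClosure _
  have a2 : ∀ a ∈ H.clq w, ∀ u ∈ ⨅ X, c X, a * u * a⁻¹ ∈ ⨅ X, c X := fun a ha u hu => by
    refine Subgroup.topologicalClosure_minimal _ le_rfl a1
      (clos_conj ?_ a ha u (Subgroup.le_topologicalClosure _ hu))
    rintro _ ⟨g, rfl⟩ u hu
    refine Subgroup.mem_iInf.2 fun X => map_mem_closure
      (f := fun u => H.q w g * u * (H.q w g)⁻¹) (by fun_prop) (Subgroup.mem_iInf.1 hu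
        ⟨_, relIndex_conj (X := X.1 ⊓ D) (by rw [Subgroup.inf_relIndex_right]; exact X.2) g
          (H.hcomm h1' (Finset.insert_nonempty _ _) g)⟩) ?_
    rintro _ ⟨y, hy, rfl⟩
    exact ⟨_, hy.1, by simp⟩
  obtain ⟨δ, hδ, Ξ, x1, x2, x3⟩ := (H.L w).exists_exit H.le hx
  obtain ⟨C, c1, c2⟩ := H.coc_clq h1' (Finset.mem_insert_self w S)
  have a3 : ((fun z : unitary (E w) × unitary (E w) => z.1⁻¹ * z.2 * z.1) '' C ×ˢ Ξ ∩
      ⋂ X, c X).Nonempty := by
    by_contra e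
    have : Nonempty I := ⟨⟨X, hX⟩⟩
    obtain ⟨X, e'⟩ := ((c1.prod x1).image (by fun_prop)).elim_directed_family_closed _
      (fun X => Subgroup.isClosed_topologicalClosure _) (Set.not_nonempty_iff_eq_empty.1 e)
      fun X Y => ⟨⟨_, Subgroup.relIndex_inf_ne_zero X.2 Y.2⟩,
        Subgroup.topologicalClosure_mono (Subgroup.map_mono (inf_le_inf_right _ inf_le_left)),
        Subgroup.topologicalClosure_mono (Subgroup.map_mono (inf_le_inf_right _ inf_le_right))⟩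
    obtain ⟨Y, y1, y2, y3⟩ := exists_core X.2
    obtain ⟨y, hy, y4, y5⟩ := H.exists_near (fun e => hw (h1 e)) (Y := Y ⊓ H.D S)
      (fun g hg => H.mem_D'.1 hg.2 w hw) (infinite_of_relIndex (fun e => y2
        (Subgroup.relIndex_eq_zero_of_le_right (H.D_mono (Finset.subset_insert w S)) e)) h2) hδ
    obtain ⟨t, ht, e1⟩ := x3 _ (H.q_SU w y) (fun e => y4 (Subtype.ext (H.jU_inj w
      (e.trans (map_one _).symm)))) y5
    obtain ⟨d, hd, e2⟩ := c2 t (H.Gp_le_clq w ht)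
    refine Set.eq_empty_iff_forall_notMem.1 e' _ ⟨⟨(_, _), ⟨e2, e1⟩, rfl⟩,
      Subgroup.le_topologicalClosure _ ⟨_, y1 (y3 _ (inv_mem hd) y hy.1), ?_⟩⟩
    simp only [map_mul, map_inv]
    group
  obtain ⟨_, ⟨⟨s, ξ⟩, hz, rfl⟩, ha⟩ := a3
  rw [← Subgroup.coe_iInf] at ha
  refine ((H.L w).Gp_le_of_open ((H.L w).open_of_comm H.le (a := s⁻¹ * ξ * s) ?_ (H.ev_clq w)
    (fun g a b => mul_mem (a2 g (a b) _ ha) (inv_mem ha)) fun g a b => a2 g (a b))
    fun t ht => a2 t (H.Gp_le_clq w ht)).trans (iInf_le c ⟨X, hX⟩)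
  by_contra hc
  push Not at hc
  obtain ⟨z, hz'⟩ := x2 ξ hz.2
  have e : ξ = s⁻¹ * ξ * s := by
    rw [← conj_central (c := s) hc]
    group
  exact hz' (e ▸ hc z)

end Adel

end Vale.Agent.P011NC
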