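import Vale.Agent.P011NC.Alg

/-! Skew elements of square zero, triples, the tori. -/

namespace Vale.Agent.P011NC

open Module Matrix

set_option linter.unusedSimpArgs false

section ring

variable {E : Type*} [Ring E] [StarRing E]

/-- Skew of square zero. -/
def Nil (x : E) : Prop := star x = -x ∧ x * x = 0

/-- The unipotent element. -/
def un {x : E} (h : Nil x) : unitary E :=
  ⟨1 + x, by
    constructor
    · rw [star_add, star_one, h.1, add_mul, mul_add, mul_add, neg_mul, neg_mul, h.2]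
      simp
    · rw [star_add, star_one, h.1, add_mul, mul_add, mul_add, mul_neg, mul_neg, h.2]
      simp⟩

theorem un_val {x : E} (h : Nil x) : (un h : E) = 1 + x := rfl

variable (E) in
/-- The group generated by the unipotent elements. -/
def Gp : Subgroup (unitary E) := Subgroup.closure {g | ∃ x, Nil x ∧ (g : E) = 1 + x}

theorem un_mem {x : E} (h : Nil x) : un h ∈ Gp E := Subgroup.subset_closure ⟨x, h, rfl⟩

theorem Nil.conj {x : E} (h : Nil x) (g : unitary E) : Nil ((g : E) * x * star (g : E)) := by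
  constructor
  · rw [star_mul, star_mul, star_star, h.1]
    noncomm_ring
  · have r1 : ∀ u, star (g : E) * (g * u) = u := fun u => by rw [← mul_assoc, g.2.1, one_mul]
    have r2 : ∀ u, x * (x * u) = 0 := fun u => by rw [← mul_assoc, h.2, zero_mul]
    simp only [mul_assoc, r1, r2, mul_zero]

instance : (Gp E).Normal := by
  refine ⟨fun a ha g => ?_⟩
  induction ha using Subgroup.closure_induction with
  | mem a ha =>
    obtain ⟨x, hx, e⟩ := ha
    refine Subgroup.subset_closure ⟨_, hx.conj g, ?_⟩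
    change (g : E) * a * star (g : E) = _
    rw [e, mul_add, add_mul, mul_one, g.2.2]
  | one => simp
  | mul a b _ _ ha hb =>
    convert (Gp E).mul_mem ha hb using 1
    group
  | inv a _ ha =>
    convert (Gp E).inv_mem ha using 1
    group

theorem Gp_le {P : Subgroup (unitary E)} (h : ∀ (x : E) (hx : Nil x), un hx ∈ P) : Gp E ≤ P := by
  rw [Gp, Subgroup.closure_le]
  rintro g ⟨x, hx, e⟩
  rw [show g = un hx from Subtype.ext e]
  exact h x hx

omit [StarRing E] in
theorem triple_aux {R : Type*} [CommRing R] [Algebra R E] (w : R) {x z : E} (h1 : x * x = 0)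
    (h2 : x * z * x = x) (h3 : z * x * z = z) :
    let y := z - w • (z * z * x) - (1 - w) • (x * z * z) + (w * (1 - w)) • (x * z * z * z * x)
    y * y = 0 ∧ x * y * x = x ∧ y * x * y = y := by
  have r1 : ∀ u, x * (x * u) = 0 := fun u => by rw [← mul_assoc, h1, zero_mul]
  have r2 : ∀ u, x * (z * (x * u)) = x * u := fun u => by rw [← mul_assoc, ← mul_assoc, h2]
  have r3 : x * (z * x) = x := by rw [← mul_assoc, h2]
  have r4 : ∀ u, z * (x * (z * u)) = z * u := fun u => by rw [← mul_assoc, ← mul_assoc, h3]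
  have r5 : z * (x * z) = z := by rw [← mul_assoc, h3]
  refine ⟨?_, ?_, ?_⟩ <;>
  simp only [mul_add, add_mul, mul_sub, sub_mul, smul_mul_assoc, mul_smul_comm, mul_assoc,
    r1, r2, r3, r4, r5, h1, smul_zero, mul_zero, add_zero, smul_add, smul_sub, sub_zero]
  all_goals match_scalars <;> ring

end ring

namespace Mdl

variable {F E Ω : Type*} [Field F] [Ring E] [StarRing E] [Algebra F E] [Field Ω]
  [Algebra F Ω] {n : ℕ} (M : Mdl F E Ω n)

include M in
theorem nil_smul {x : E} (h : Nil x) (c : F) : Nil (c • x) :=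
  ⟨by rw [M.star_smul, h.1, smul_neg], by rw [smul_mul_smul_comm, h.2, smul_zero]⟩

theorem Gp_le_SU : Gp E ≤ M.SU := Gp_le fun x hx => by
  rw [mem_SU, un_val, map_add, map_one]
  exact det_one_add_sq_zero (by rw [← map_mul, hx.2, map_zero])

include M in
/-- Every skew element of square zero lies in a triple. -/
theorem triple {x : E} (hx : Nil x) : ∃ y, Nil y ∧ x * y * x = x ∧ y * x * y = y := by
  obtain ⟨z₀, hz, h⟩ := M.regular (x := x) hx.1
  have hz' : star (z₀ * x * z₀) = -(z₀ * x * z₀) := by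
    rw [star_mul, star_mul, show star z₀ = -z₀ from hz, hx.1]
    noncomm_ring
  have h2 : x * (z₀ * x * z₀) * x = x := by
    rw [← mul_assoc, ← mul_assoc, h, h]
  have h3 : z₀ * x * z₀ * x * (z₀ * x * z₀) = z₀ * x * z₀ := by
    have r2 : ∀ u, x * (z₀ * (x * u)) = x * u := fun u => by rw [← mul_assoc, ← mul_assoc, h]
    simp only [mul_assoc, r2]
  generalize z₀ * x * z₀ = z at hz' h2 h3
  let w : Subring.center E := ⟨M.om, Subring.mem_center_iff.2 fun g => (M.om_comm g).symm⟩
  obtain ⟨a, b, c⟩ := triple_aux w hx.2 h2 h3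
  refine ⟨_, ⟨?_, a⟩, b, c⟩
  change star (z - M.om * (z * z * x) - (1 - M.om) * (x * z * z) +
      (M.om * (1 - M.om)) * (x * z * z * z * x)) = -(z - M.om * (z * z * x) -
        (1 - M.om) * (x * z * z) + (M.om * (1 - M.om)) * (x * z * z * z * x))
  rw [← M.som_eq]
  simp only [star_add, star_sub, star_mul, star_star, hz', hx.1]
  rw [← M.som_comm, ← M.om_comm, ← mul_assoc _ M.om, ← M.om_comm, ← M.som_comm,
    ← mul_assoc (star M.om) M.om, ← M.om_comm (star M.om)]
  noncomm_ring

/-- The torus of a triple. -/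
def tor (x y : E) (l : F) : E := 1 + (l - 1) • (x * y) + (l⁻¹ - 1) • (y * x)

variable {x y : E}

theorem tor_eq (hx : Nil x) (hy : Nil y) (h1 : x * y * x = x) (h2 : y * x * y = y) {l : F}
    (hl : l ≠ 0) : tor x y l = (1 + (l - 1) • x) * (1 + y) * (1 + (l⁻¹ - 1) • x) *
      (1 + (-l) • y) := by
  have r1 : ∀ u, x * (x * u) = 0 := fun u => by rw [← mul_assoc, hx.2, zero_mul]
  have r2 : ∀ u, x * (y * (x * u)) = x * u := fun u => by rw [← mul_assoc, ← mul_assoc, h1]
  have r3 : x * (y * x) = x := by rw [← mul_assoc, h1]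
  have r4 : ∀ u, y * (x * (y * u)) = y * u := fun u => by rw [← mul_assoc, ← mul_assoc, h2]
  have r5 : y * (x * y) = y := by rw [← mul_assoc, h2]
  simp only [tor, mul_add, add_mul, smul_mul_assoc, mul_smul_comm, mul_assoc, mul_one, one_mul,
    r1, r2, r3, r4, r5, hx.2, hy.2, smul_zero, mul_zero, add_zero, smul_add]
  match_scalars <;> field_simp <;> ring

include M in
theorem exists_tor (hx : Nil x) (hy : Nil y) (h1 : x * y * x = x) (h2 : y * x * y = y) {l : F}
    (hl : l ≠ 0) : ∃ t ∈ Gp E, (t : E) = tor x y l :=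
  ⟨un (M.nil_smul hx (l - 1)) * un hy * un (M.nil_smul hx (l⁻¹ - 1)) * un (M.nil_smul hy (-l)),
    mul_mem (mul_mem (mul_mem (un_mem _) (un_mem _)) (un_mem _)) (un_mem _),
    (tor_eq hx hy h1 h2 hl).symm⟩

include M in
theorem tor_conj (hx : Nil x) (hy : Nil y) (h1 : x * y * x = x) (l : F) :
    tor x y l * x * star (tor x y l) = (l * l) • x := by
  have r1 : ∀ u, x * (x * u) = 0 := fun u => by rw [← mul_assoc, hx.2, zero_mul]
  have r3 : x * (y * x) = x := by rw [← mul_assoc, h1]
  simp only [tor, star_add, star_one, M.star_smul, star_mul, hx.1, hy.1, neg_mul_neg, mul_add,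
    add_mul, smul_mul_assoc, mul_smul_comm, mul_assoc, mul_one, one_mul, r1, r3, hx.2, smul_zero,
    mul_zero, add_zero, smul_add]
  match_scalars
  ring

include M in
/-- A unipotent element is contracted by elements of the group generated by the unipotents. -/
theorem exists_contr (hx : Nil x) {l : F} (hl : l ≠ 0) :
    ∃ t ∈ Gp E, t * un hx * t⁻¹ = un (M.nil_smul hx (l * l)) := by
  obtain ⟨y, hy, h1, h2⟩ := M.triple hx
  obtain ⟨t, ht, e⟩ := M.exists_tor hx hy h1 h2 hl
  refine ⟨t, ht, Subtype.ext ?_⟩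
  change (t : E) * (1 + x) * star (t : E) = 1 + (l * l) • x
  rw [mul_add, add_mul, mul_one, t.2.2, e, M.tor_conj hx hy h1]

theorem half {θ : E} (h0 : θ ≠ 0) (h2 : M.f (star θ) = 0)
    (h3 : (M.f θ).det = 0) : ∃ x, Nil x ∧ x * θ = 0 ∧ ∃ u v, x * u = θ * v ∧ x * u ≠ 0 := by
  have := M.fd
  have hθ : M.f θ ≠ 0 := fun h => h0 (M.inj h h2)
  have prime : ∀ a b : E, M.f a ≠ 0 → M.f b ≠ 0 → ∃ z, M.f (a * z * b) ≠ 0 := by
    intro a b ha hb
    by_contra hc
    push Not at hc
    refine (mat_prime (M.ind (P := fun Z => M.f a * Z * M.f b = 0) (fun z => ?_)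
      (fun X Y p q => ?_) fun c X p => ?_)).elim ha hb
    · rw [← map_mul, ← map_mul, hc]
    · rw [mul_add, add_mul, p, q, add_zero]
    · rw [mul_smul_comm, smul_mul_assoc, p, smul_zero]
  let E1 : Submodule F E := LinearMap.ker (M.f.toLinearMap.comp M.st)
  have hE1 : ∀ x, x ∈ E1 ↔ M.f (star x) = 0 := fun x => Iff.rfl
  obtain ⟨b, hb, hb0, hbθ⟩ : ∃ b, M.f (star b) = 0 ∧ b ≠ 0 ∧ b * θ = 0 := by
    by_contra hc
    push Not at hc
    let R : E1 →ₗ[F] E1 := (LinearMap.mulRight F θ).restrict fun x _ => by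
      rw [hE1, LinearMap.mulRight_apply, star_mul, map_mul, h2, zero_mul]
    have hi : Function.Injective R := by
      rw [injective_iff_map_eq_zero]
      intro a ha
      by_contra h
      exact hc a a.2 (fun h' => h (Subtype.ext h')) (congrArg Subtype.val ha)
    have hs := LinearMap.injective_iff_surjective.1 hi
    obtain ⟨v, hv, hv'⟩ := Matrix.exists_mulVec_eq_zero_iff.2 h3
    have hQ : M.f θ * (Matrix.of fun i _ => v i) = (0 : Matrix (Fin n) (Fin n) Ω) := by
      ext i j
      exact congrFun hv' i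
    refine (mat_prime (X := M.f θ) (Y := Matrix.of fun i _ => v i)
      (M.ind (P := fun Z => M.f θ * Z * _ = 0) (fun z => ?_)
      (fun X Y p q => ?_) fun c X p => ?_)).elim hθ fun h => hv ?_
    · obtain ⟨x', hx'⟩ := hs ⟨θ * z, by rw [hE1, star_mul, map_mul, h2, mul_zero]⟩
      have e : (x' : E) * θ = θ * z := congrArg Subtype.val hx'
      rw [← map_mul, ← e, map_mul, mul_assoc, hQ, mul_zero]
    · rw [mul_add, add_mul, p, q, add_zero]
    · rw [mul_smul_comm, smul_mul_assoc, p, smul_zero]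
    · funext i
      exact congrFun (congrFun h i) i
  obtain ⟨z, hz⟩ := prime θ b hθ fun h => hb0 (M.inj h hb)
  obtain ⟨z', hz'⟩ := prime _ θ hz hθ
  have s1 : M.f (star (θ * z * b)) = 0 := by rw [star_mul, map_mul, hb, zero_mul]
  have s2 : θ * z * b * (θ * z * b) = 0 := by
    rw [mul_assoc (θ * z), ← mul_assoc b, ← mul_assoc b, hbθ]
    simp
  have s3 : ∀ u, M.f (star u) = 0 → star (θ * z * b) * u = 0 := fun u hu =>
    M.inj (by rw [map_mul, s1, zero_mul]) (by rw [star_mul, map_mul, hu, zero_mul])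
  have s4 : θ * z * b * star (θ * z * b) = 0 :=
    M.inj (by rw [map_mul, s1, mul_zero]) (by rw [star_mul, map_mul, s1, mul_zero])
  have s5 : (θ * z * b - star (θ * z * b)) * (z' * θ) = θ * z * b * z' * θ := by
    rw [sub_mul, s3 _ (by rw [star_mul, map_mul, h2, zero_mul]), sub_zero, ← mul_assoc]
  refine ⟨θ * z * b - star (θ * z * b), ⟨by rw [star_sub, star_star, neg_sub], ?_⟩, ?_,
    z' * θ, z * b * z' * θ, by rw [s5]; simp only [mul_assoc], fun h => hz' ?_⟩
  · rw [sub_mul, mul_sub, mul_sub, s2, s4, s3 _ s1, ← star_mul, s2]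
    simp
  · rw [sub_mul, s3 _ h2, mul_assoc, hbθ]
    simp
  · rw [← s5, h, map_zero]

/-- An isotropic singular element is moved by a skew element of square zero. -/
theorem step {θ : E} (h0 : θ ≠ 0) (h1 : star θ * θ = 0) (h2 : (M.f θ).det = 0)
    (h3 : (M.f (star θ)).det = 0) :
    ∃ x, Nil x ∧ x * θ = 0 ∧ ∃ u v, x * u = θ * v ∧ x * u ≠ 0 := by
  by_cases hc : ∃ s ∈ M.Sk, θ * s * star θ ≠ 0
  · obtain ⟨s, hs, h⟩ := hc
    refine ⟨θ * s * star θ, ⟨?_, ?_⟩, by rw [mul_assoc, h1, mul_zero], 1, s * star θ,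
      by rw [mul_one, mul_assoc], by rwa [mul_one]⟩
    · rw [star_mul, star_mul, star_star, show star s = -s from hs]
      noncomm_ring
    · rw [mul_assoc (θ * s), ← mul_assoc (star θ), ← mul_assoc (star θ), h1]
      simp
  · push Not at hc
    rcases mat_prime (M.ind_Sk (P := fun Z => M.f θ * Z * M.f (star θ) = 0)
      (fun z hz => by rw [← map_mul, ← map_mul, hc z hz, map_zero])
      (fun X Y p q => by rw [mul_add, add_mul, p, q, add_zero])
      fun c X p => by rw [mul_smul_comm, smul_mul_assoc, p, smul_zero]) with h | h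
    · exact M.dual.half h0 (by rw [dual_f, star_star, h, transpose_zero])
        (by rw [dual_f, det_transpose, h3])
    · exact M.half h0 h h2

end Mdl

end Vale.Agent.P011NC
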