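import Vale.Agent.P011.D4T.H369.FixI

/-! The special unitary group of a hermitian form of rank three, as the stabiliser of an octonion. -/

set_option linter.unusedSectionVars false

namespace Vale.Agent.P011NC.S3

open Matrix Vale.Agent.P011.MPQ Vale.Agent.P011.D4 Vale.Agent.P011.D4.Oct
open Vale.Agent.P011.D4.B.FI (fixI fixI_top)

variable {k K : Type} [Field k] [Field K] [StarRing K] [Algebra k K] {a b c : kˣ} {s : K}

/-- The quadratic extension. -/
structure Qd (a : kˣ) (s : K) : Prop where
  fix : ∀ t : k, star (algebraMap k K t) = algebraMap k K t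
  st : star s = -s
  sq : s * s = algebraMap k K a
  span : ∀ z : K, ∃ p q : k, z = algebraMap k K p + algebraMap k K q * s

variable (s) in
/-- The coordinates. -/
def pr (x : Oct a b c) : Fin 3 → K :=
  ![algebraMap k K x.fst.imJ + algebraMap k K x.fst.imK * s,
    algebraMap k K x.snd.re + algebraMap k K x.snd.imI * s,
    algebraMap k K x.snd.imJ - algebraMap k K x.snd.imK * s]

variable (K b c) in
/-- The weights. -/
def wt : Fin 3 → K := ![-algebraMap k K b, -algebraMap k K c, algebraMap k K b * algebraMap k K c]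

variable (b c) in
/-- The hermitian form. -/
def hm (v w : Fin 3 → K) : K := ∑ i, star (v i) * wt K b c i * w i

/-- Orthogonal to `1` and `i`. -/
def W (x : Oct a b c) : Prop := x.fst.re = 0 ∧ x.fst.imI = 0

variable (a b c) in
/-- The basis. -/
def ba : Fin 3 → Oct a b c := ![gj, gl, gj * gl]

theorem W_iff {x : Oct a b c} : W x ↔ dot x 1 = 0 ∧ dot x gi = 0 := by
  simp [W, dot, gi]

theorem W_ba (i : Fin 3) : W (ba a b c i) := by
  fin_cases i <;> simp [W, ba, gj, gl]

theorem pr_ba (i : Fin 3) : pr s (ba a b c i) = Pi.single i 1 := by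
  ext j
  fin_cases i <;> fin_cases j <;> simp [pr, ba, gj, gl]

theorem pr_add (x y : Oct a b c) : pr s (x + y) = pr s x + pr s y := by
  ext j
  fin_cases j <;> simp [pr] <;> ring

theorem pr_smul (t : k) (x : Oct a b c) : pr s (t • x) = algebraMap k K t • pr s x := by
  ext j
  fin_cases j <;> simp [pr] <;> ring

theorem dec (x : Oct a b c) : x = x.fst.re • 1 + x.fst.imI • gi +
    (x.fst.imJ • ba a b c 0 + x.fst.imK • (gi * ba a b c 0)) +
    (x.snd.re • ba a b c 1 + x.snd.imI • (gi * ba a b c 1)) +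
    (x.snd.imJ • ba a b c 2 + (-x.snd.imK) • (gi * ba a b c 2)) := by
  apply ext8 <;> simp [ba, gi, gj, gl]

variable (s) in
/-- The matrix of an automorphism. -/
def th (g : fixI a b c) : Matrix (Fin 3) (Fin 3) K := of fun i j => pr s (g.1.1 (ba a b c j)) i

variable (b c) in
/-- Unitary matrices. -/
def U (M : Matrix (Fin 3) (Fin 3) K) : Prop :=
  Mᴴ * diagonal (wt K b c) * M = diagonal (wt K b c)

theorem U_iff {M : Matrix (Fin 3) (Fin 3) K} : U b c M ↔
    ∀ i j, hm b c (fun l => M l i) (fun l => M l j) = diagonal (wt K b c) i j := by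
  rw [U, ← Matrix.ext_iff]
  simp only [hm, Matrix.mul_apply (M := Mᴴ * diagonal (wt K b c)), mul_diagonal,
    conjTranspose_apply]

theorem wt_ne (i : Fin 3) : wt K b c i ≠ 0 := by
  fin_cases i <;> simp [wt]

theorem ext3 {M M' : Matrix (Fin 3) (Fin 3) K} (h1 : U b c M) (h2 : M.det = 1) (h3 : U b c M')
    (h4 : M'.det = 1) (e0 : ∀ i, M i 0 = M' i 0) (e1 : ∀ i, M i 1 = M' i 1) : M = M' := by
  have key : ∀ {N : Matrix (Fin 3) (Fin 3) K}, U b c N → N.det = 1 → ∀ i,
      star (N i 2) * wt K b c i = wt K b c 2 * N.adjugate 2 i := fun {N} a1 a2 i => by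
    have a3 := congrArg (· * N.adjugate) a1
    simp only [Matrix.mul_assoc _ N, mul_adjugate, a2, one_smul, Matrix.mul_one] at a3
    simpa only [mul_diagonal, diagonal_mul, conjTranspose_apply] using congrFun (congrFun a3 2) i
  ext i j
  fin_cases j
  · exact e0 i
  · exact e1 i
  refine star_injective (mul_right_cancel₀ (wt_ne (K := K) (b := b) (c := c) i) ?_)
  refine (key h1 h2 i).trans (Eq.trans ?_ (key h3 h4 i).symm)
  fin_cases i <;> simp [adjugate_fin_three, e0, e1]

variable [CharZero k]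

theorem W_aut (g : fixI a b c) {x : Oct a b c} (hx : W x) : W (g.1.1 x) := by
  rw [W_iff] at hx ⊢
  have h1 := aut_dot g.1 x 1
  have h2 := aut_dot g.1 x gi
  rw [aut_one] at h1
  rw [show g.1.1 gi = gi from g.2] at h2
  rwa [h1, h2]

namespace Qd

variable (h : Qd a s)
include h

theorem pr_gi (x : Oct a b c) : pr s (gi * x) = s • pr s x := by
  ext j
  fin_cases j <;> simp [pr, gi]
  · linear_combination -algebraMap k K x.fst.imK * h.sq
  · linear_combination -algebraMap k K x.snd.imI * h.sq
  · linear_combination algebraMap k K x.snd.imK * h.sq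

theorem hm_pr {x : Oct a b c} (hx : W x) (y : Oct a b c) :
    algebraMap k K a * hm b c (pr s x) (pr s y) =
      algebraMap k K (a * dot x y) - algebraMap k K (dot (gi * x) y) * s := by
  simp [hm, wt, pr, dot, gi, Fin.sum_univ_three, h.fix, h.st, hx.1, hx.2]
  linear_combination algebraMap k K a * (algebraMap k K b *
    algebraMap k K x.fst.imK * algebraMap k K y.fst.imK + algebraMap k K c *
    algebraMap k K x.snd.imI * algebraMap k K y.snd.imI - algebraMap k K b * algebraMap k K c *
    algebraMap k K x.snd.imK * algebraMap k K y.snd.imK) * h.sq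

theorem pr_mul {x y : Oct a b c} (hx : W x) (hy : W y) : pr s (x * y) =
    ![-algebraMap k K c * star (pr s x 1 * pr s y 2 - pr s x 2 * pr s y 1),
      -algebraMap k K b * star (pr s x 2 * pr s y 0 - pr s x 0 * pr s y 2),
      star (pr s x 0 * pr s y 1 - pr s x 1 * pr s y 0)] := by
  ext j
  fin_cases j <;> simp [pr, h.fix, h.st, hx.1, hx.2, hy.1, hy.2]
  · linear_combination algebraMap k K c * (algebraMap k K x.snd.imK * algebraMap k K y.snd.imI -
      algebraMap k K x.snd.imI * algebraMap k K y.snd.imK) * h.sq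
  · linear_combination algebraMap k K b * (algebraMap k K x.fst.imK * algebraMap k K y.snd.imK -
      algebraMap k K x.snd.imK * algebraMap k K y.fst.imK) * h.sq
  · linear_combination (algebraMap k K x.snd.imI * algebraMap k K y.fst.imK -
      algebraMap k K x.fst.imK * algebraMap k K y.snd.imI) * h.sq

theorem th_mulVec (g : fixI a b c) (x : Oct a b c) : th s g *ᵥ pr s x = pr s (g.1.1 x) := by
  have h1 : pr s (1 : Oct a b c) = 0 := by
    ext j
    fin_cases j <;> simp [pr]
  have h2 : pr s (gi : Oct a b c) = 0 := by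
    ext j
    fin_cases j <;> simp [pr, gi]
  have h3 : ∀ y, g.1.1 (gi * y) = gi * g.1.1 y := fun y => by
    rw [g.1.2, show g.1.1 gi = gi from g.2]
  conv_rhs => rw [dec x]
  simp only [map_add, map_smul, h3, show g.1.1 gi = gi from g.2, aut_one, pr_add, pr_smul, h.pr_gi,
    h1, h2]
  ext i
  simp only [mulVec, dotProduct, Fin.sum_univ_three, th, of_apply, Pi.add_apply, Pi.smul_apply,
    smul_eq_mul, Pi.zero_apply, map_neg]
  generalize pr s (g.1.1 (ba a b c 0)) i = u
  generalize pr s (g.1.1 (ba a b c 1)) i = v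
  generalize pr s (g.1.1 (ba a b c 2)) i = w
  simp [pr]
  ring

variable (b c) in
/-- The homomorphism. -/
def thH : fixI a b c →* Matrix (Fin 3) (Fin 3) K where
  toFun := th s
  map_one' := by
    ext i j
    exact (congrFun (pr_ba j) i).trans (by rw [Pi.single_apply, one_apply])
  map_mul' g g' := by
    ext i j
    exact (congrFun (h.th_mulVec g (g'.1.1 (ba a b c j))) i).symm

theorem a_ne : algebraMap k K a ≠ 0 := by simp

theorem th_U (g : fixI a b c) : U b c (th s g) := by
  refine U_iff.2 fun i j => mul_left_cancel₀ h.a_ne ?_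
  have h1 := h.hm_pr (W_aut g (W_ba i)) (g.1.1 (ba a b c j))
  have h2 := h.hm_pr (W_ba (a := a) (b := b) (c := c) i) (ba a b c j)
  have h3 : gi * g.1.1 (ba a b c i) = g.1.1 (gi * ba a b c i) := by
    rw [g.1.2, show g.1.1 gi = gi from g.2]
  rw [h3, aut_dot, aut_dot, ← h2, pr_ba, pr_ba] at h1
  refine h1.trans (congrArg _ ?_)
  fin_cases i <;> fin_cases j <;> simp [hm, Fin.sum_univ_three]

theorem th_det (g : fixI a b c) : (th s g).det = 1 := by
  have h1 := U_iff.1 (h.th_U g)
  have a0 := h1 0 0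
  have a1 := h1 1 1
  have a2 := h1 0 1
  have h2 := h.pr_mul (W_aut g (W_ba 0)) (W_aut g (W_ba 1))
  rw [← g.1.2] at h2
  have h3 : ∀ i, th s g i 2 = _ := congrFun h2
  have hb : algebraMap k K b * algebraMap k K c ≠ 0 := by simp
  rw [det_fin_three, h3, h3, h3]
  simp [hm, wt, Fin.sum_univ_three, th] at a0 a1 a2 ⊢
  generalize pr s (g.1.1 (ba a b c 0)) = u at *
  generalize pr s (g.1.1 (ba a b c 1)) = v at *
  refine mul_left_cancel₀ hb ?_
  generalize algebraMap k K b = B at *
  generalize algebraMap k K c = C at *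
  linear_combination (-(star (v 0) * B * v 0) - star (v 1) * C * v 1 +
    star (v 2) * (B * C) * v 2) * a0 - B * a1 - (-(star (v 0) * B * u 0) - star (v 1) * C * u 1 +
    star (v 2) * (B * C) * u 2) * a2

theorem indep {p q : k} (e : algebraMap k K p - algebraMap k K q * s = 0) : p = 0 ∧ q = 0 := by
  have h1 := congrArg star e
  simp only [star_sub, star_mul', h.fix, h.st, star_zero] at h1
  have h2 : algebraMap k K (2 * p) = 0 := by
    rw [map_mul, map_ofNat]
    linear_combination e + h1
  have h3 : algebraMap k K (2 * q * a) = 0 := by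
    rw [map_mul, map_mul, map_ofNat, ← h.sq]
    linear_combination s * h1 - s * e
  simpa using And.intro h2 h3

theorem lift (v : Fin 3 → K) : ∃ x : Oct a b c, W x ∧ pr s x = v := by
  choose p q e using h.span
  refine ⟨⟨⟨0, 0, p (v 0), q (v 0)⟩, ⟨p (v 1), q (v 1), p (v 2), -q (v 2)⟩⟩, ⟨rfl, rfl⟩, ?_⟩
  ext j
  fin_cases j <;> simp [pr, ← e]

theorem dots {x y : Oct a b c} (hx : W x) {t : k}
    (e : hm b c (pr s x) (pr s y) = algebraMap k K t) : dot x y = t ∧ dot (gi * x) y = 0 := by
  have h1 := h.hm_pr hx y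
  rw [e] at h1
  have h2 := h.indep (p := a * dot x y - a * t) (q := dot (gi * x) y) (by
    rw [map_sub, map_mul _ _ t]
    linear_combination -h1)
  exact ⟨mul_left_cancel₀ a.ne_zero (sub_eq_zero.1 h2.1), h2.2⟩

theorem surj {M : Matrix (Fin 3) (Fin 3) K} (h1 : U b c M) (h2 : M.det = 1) :
    ∃ g : fixI a b c, th s g = M := by
  obtain ⟨x, x1, x2⟩ := h.lift (b := b) (c := c) fun l => M l 0
  obtain ⟨y, y1, y2⟩ := h.lift (b := b) (c := c) fun l => M l 1
  have h3 := U_iff.1 h1
  have a0 := h.dots x1 (t := -b) (by rw [x2, h3]; simp [wt])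
  have a1 := h.dots y1 (t := -c) (by rw [y2, h3]; simp [wt])
  have a2 := h.dots (y := y) x1 (t := 0) (by rw [x2, y2, h3]; simp)
  have sx : ∀ {z : Oct a b c}, W z → star z = -z := fun hz => by
    apply ext8 <;> simp [hz.1]
  have T : Trip a b c gi x y :=
    { si := trip_std.si, sj := sx x1, sl := sx y1, ii := trip_std.ii
      jj := by rw [norm_eq_of_sq (sx x1), norm_eq_dot, a0.1, neg_neg]
      ll := by rw [norm_eq_of_sq (sx y1), norm_eq_dot, a1.1, neg_neg]
      ij := (dot_comm _ _).trans (W_iff.1 x1).2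
      il := (dot_comm _ _).trans (W_iff.1 y1).2
      jl := a2.1, ijl := a2.2 }
  obtain ⟨g, g1, g2, g3⟩ := exists_aut trip_std T
  refine ⟨⟨g, g1⟩, ext3 (h.th_U _) (h.th_det _) h1 h2 (fun i => ?_) fun i => ?_⟩
  · exact (congrArg (pr s · i) g2).trans (congrFun x2 i)
  · exact (congrArg (pr s · i) g3).trans (congrFun y2 i)

theorem division (han : ∀ v : Fin 3 → K, hm b c v v = 0 → v = 0) : Division a b c := by
  have h1 : ∀ x : Oct a b c, W x → norm x = 0 → x = 0 := fun x hx h0 => by
    have h2 := h.hm_pr hx x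
    have h3 : dot (gi * x) x = 0 := by
      simp [dot, gi, hx.1, hx.2]
      ring
    rw [← norm_eq_dot, h0, h3] at h2
    have h4 := han _ (by simpa using h2)
    have a0 := h.indep (p := x.fst.imJ) (q := -x.fst.imK) (by simpa [pr] using congrFun h4 0)
    have a1 := h.indep (p := x.snd.re) (q := -x.snd.imI) (by simpa [pr] using congrFun h4 1)
    have a2 := h.indep (p := x.snd.imJ) (q := x.snd.imK) (by simpa [pr] using congrFun h4 2)
    exact ext8 hx.1 hx.2 a0.1 (neg_eq_zero.1 a0.2) a1.1 (neg_eq_zero.1 a1.2) a2.1 a2.2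
  intro x hx
  obtain ⟨v, v0, hv⟩ := exists_perp ![1, gi, star x * 1, star x * gi, 0, 0, 0]
  have h2 := h1 (x * v) (W_iff.2 ⟨(dot_mul_left _ _ _).trans (hv 2),
    (dot_mul_left _ _ _).trans (hv 3)⟩) (by rw [Oct.norm_mul, hx, zero_mul])
  have h3 := mul_mul_star v x
  rw [h2, zero_mul] at h3
  exact (smul_eq_zero.1 h3.symm).resolve_left fun e => v0 (h1 v (W_iff.2 ⟨hv 0, hv 1⟩) e)

end Qd

end Vale.Agent.P011NC.S3
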