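import Vale.Agent.P011NC.Fin
import Vale.Agent.P011NC.Split

/-! Number fields, algebras with zero divisors: noncentral normal subgroups are everything. -/

namespace Vale.Agent.P011NC

open Vale.Agent.P011 Vale.Agent.P011.H925.Full

variable {k K A Ω : Type} [Field k] [Field K] [Algebra k K] [StarRing K] [Ring A] [StarRing A]
  [Algebra k A] [Algebra K A] [IsScalarTower k K A] [StarModule K A] [Field Ω] [Algebra K Ω] {n : ℕ}

theorem top_of_zd [NumberField k] (h : Ans k K A n) (hd : ∃ x : A, x ≠ 0 ∧ ¬IsUnit x)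
    (f : A →ₐ[K] Matrix (Fin n) (Fin n) Ω) (N : Subgroup (GK f)) [N.Normal]
    (hc : ¬N ≤ Subgroup.center _) : N = ⊤ := by
  have hn := h.le
  obtain ⟨δ, h1, h2, h3⟩ := H984.clause_of_top (f := f)
    (H518.R8.adiv_empty h.anis (by omega) hd) (top_all h.anis hn hd f)
  obtain ⟨_, a1, a2⟩ := q1_of (st := stLin h.fixed) (fun _ => rfl)
    ⟨δ, h1, h2, fun N hN => (h3 N hN).1⟩
  have h4 := (h3 (N.map (gkEquiv f).toMonoidHom) (by
    rw [Subgroup.index_map_of_bijective (gkEquiv f).bijective]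
    exact finIndex_q1 h a1 a2 N hc)).2
  refine eq_top_iff.2 fun g _ => ?_
  obtain ⟨g', b1, b2⟩ := h4.ge (Subgroup.mem_top (gkEquiv f g))
  rwa [(gkEquiv f).injective b2] at b1

end Vale.Agent.P011NC
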